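import Vale.Agent.P254.MP.Diag

/-!
P254, abstract maximum principle, G3: comparison of `S_p` with `S_q` and continuity of `S_p`.
-/

namespace Vale.Agent.P254.MP

open Matrix Set Filter Topology Asymptotics Polynomial
open Vale.Agent.P254.L

variable {n : ℕ}

/-- entrywise `O(t)` convergence -/
def CompareO (l : Filter ℝ) (M : ℝ → Mat n) (M₀ : Mat n) : Prop :=
  ∀ i j, (fun t => M t i j - M₀ i j) =O[l] fun t => t

theorem compare_one {l : Filter ℝ} (hl : l ≤ 𝓝 0) :
    (fun t : ℝ => t) =O[l] fun _ => (1 : ℝ) :=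
  ((continuous_id.tendsto (0 : ℝ)).isBigO_one ℝ).mono hl

theorem compare_bdd {l : Filter ℝ} (hl : l ≤ 𝓝 0) {M : ℝ → Mat n} {M₀ : Mat n}
    (h : CompareO l M M₀) (i j : Fin n) : (fun t => M t i j) =O[l] fun _ => (1 : ℝ) := by
  have h2 := (h i j).trans (compare_one hl)
  have h3 : (fun _ : ℝ => M₀ i j) =O[l] fun _ => (1 : ℝ) := isBigO_const_const _ one_ne_zero _
  simpa using h2.add h3

theorem compare_const {l : Filter ℝ} (M : Mat n) : CompareO l (fun _ => M) M := by
  intro i j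
  simp only [sub_self]
  exact isBigO_zero _ _

theorem compare_add {l : Filter ℝ} {M N : ℝ → Mat n} {M₀ N₀ : Mat n}
    (hM : CompareO l M M₀) (hN : CompareO l N N₀) :
    CompareO l (fun t => M t + N t) (M₀ + N₀) := by
  intro i j
  refine ((hM i j).add (hN i j)).congr_left fun t => ?_
  simp only [Matrix.add_apply]
  ring

theorem compare_mul {l : Filter ℝ} (hl : l ≤ 𝓝 0) {M N : ℝ → Mat n} {M₀ N₀ : Mat n}
    (hM : CompareO l M M₀) (hN : CompareO l N N₀) :
    CompareO l (fun t => M t * N t) (M₀ * N₀) := by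
  intro i j
  have h1 : ∀ k, (fun t => M t i k * (N t k j - N₀ k j) + (M t i k - M₀ i k) * N₀ k j)
      =O[l] fun t => t := by
    intro k
    have a1 := (compare_bdd hl hM i k).mul (hN k j)
    have a2 := (hM i k).mul (isBigO_const_const (N₀ k j) (one_ne_zero : (1 : ℝ) ≠ 0) l)
    simp only [one_mul, mul_one] at a1 a2
    exact a1.add a2
  have h2 : (fun t => ∑ k, (M t i k * (N t k j - N₀ k j) + (M t i k - M₀ i k) * N₀ k j))
      =O[l] fun t => t := IsBigO.fun_sum (s := Finset.univ) fun k _ => h1 k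
  refine h2.congr_left fun t => ?_
  simp only [Matrix.mul_apply, ← Finset.sum_sub_distrib]
  refine Finset.sum_congr rfl fun k _ => ?_
  ring

theorem compare_pow {l : Filter ℝ} (hl : l ≤ 𝓝 0) {M : ℝ → Mat n} {M₀ : Mat n}
    (hM : CompareO l M M₀) (k : ℕ) : CompareO l (fun t => M t ^ k) (M₀ ^ k) := by
  induction k with
  | zero => simpa using compare_const (l := l) (1 : Mat n)
  | succ k ih =>
    have := compare_mul hl ih hM
    simpa only [pow_succ] using this

theorem compare_aeval {l : Filter ℝ} (hl : l ≤ 𝓝 0) {M : ℝ → Mat n} {M₀ : Mat n}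
    (hM : CompareO l M M₀) (q : ℝ[X]) :
    CompareO l (fun t => aeval (M t) q) (aeval M₀ q) := by
  induction q using Polynomial.induction_on' with
  | add p q hp hq => simpa only [map_add] using compare_add hp hq
  | monomial k a =>
    simp only [aeval_monomial]
    exact compare_mul hl (compare_const _) (compare_pow hl hM k)

/-- trace of a polynomial in `BA` -/
theorem compare_trace {A B g : Mat n} {b : Vec n} (h : Dg A B g b) (r : ℝ[X]) :
    (aeval (B * A) r).trace = ∑ i, r.eval (b i) := by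
  have h1 := dg_SQ h r
  unfold SQ at h1
  have hA := h.hA
  rw [show A * aeval (B * A) r = g * (gᵀ * aeval (B * A) r) by rw [← mul_assoc, ← hA],
    mul_assoc g] at h1
  have hu : IsUnit g := (Matrix.isUnit_iff_isUnit_det g).2 h.det
  have h2 := hu.mul_left_cancel h1
  have hut : IsUnit gᵀ.det := by rw [Matrix.det_transpose]; exact h.det
  have h3 : aeval (B * A) r = gᵀ⁻¹ * (diagonal (fun i => r.eval (b i)) * gᵀ) := by
    rw [← h2, ← mul_assoc, Matrix.nonsing_inv_mul _ hut, one_mul]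
  rw [h3, Matrix.trace_mul_comm, mul_assoc, Matrix.mul_nonsing_inv _ hut, mul_one,
    Matrix.trace_diagonal]

theorem compare_entry (g : Mat n) (d : Vec n) (i j : Fin n) :
    (g * diagonal d * gᵀ) i j = ∑ k, g i k * d k * g j k := by
  rw [Matrix.mul_apply]
  refine Finset.sum_congr rfl fun k _ => ?_
  rw [Matrix.mul_diagonal, Matrix.transpose_apply]

theorem compare_bound {A B g : Mat n} {b : Vec n} (h : Dg A B g b) (p : ℝ → ℝ) (q w : ℝ[X])
    (ε : ℝ) (hw : ∀ k, |p (b k) - q.eval (b k)| ≤ ε * w.eval (b k)) (i j : Fin n) :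
    |Sf p A B i j - SQ q A B i j| ≤ ε / 2 * (SQ w A B i i + SQ w A B j j) := by
  rw [dg_Sf h, dg_SQ h q, dg_SQ h w]
  simp only [compare_entry]
  rw [← Finset.sum_sub_distrib, ← Finset.sum_add_distrib, Finset.mul_sum]
  refine (Finset.abs_sum_le_sum_abs _ _).trans (Finset.sum_le_sum fun k _ => ?_)
  have e1 : g i k * p (b k) * g j k - g i k * q.eval (b k) * g j k =
      (p (b k) - q.eval (b k)) * (g i k * g j k) := by ring
  rw [e1, abs_mul]
  have h1 : |g i k * g j k| ≤ (g i k ^ 2 + g j k ^ 2) / 2 := by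
    rw [abs_le]
    constructor
    · nlinarith [sq_nonneg (g i k + g j k)]
    · nlinarith [sq_nonneg (g i k - g j k)]
  calc |p (b k) - q.eval (b k)| * |g i k * g j k|
      ≤ (ε * w.eval (b k)) * ((g i k ^ 2 + g j k ^ 2) / 2) :=
        mul_le_mul (hw k) h1 (abs_nonneg _) ((abs_nonneg _).trans (hw k))
    _ = ε / 2 * (g i k * w.eval (b k) * g i k + g j k * w.eval (b k) * g j k) := by ring

theorem compare_symm {B : Mat n} (h : B.PosDef) : B.IsSymm := by
  have h1 := h.isHermitian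
  rwa [Matrix.IsHermitian, Matrix.conjTranspose_eq_transpose_of_trivial] at h1

theorem compare_close {s : Finset ℝ} {r y : ℝ} (hr : 0 < r)
    (h : |∏ x ∈ s, (y - x)| < r ^ s.card) : ∃ x ∈ s, |y - x| < r := by
  by_contra hcon
  push Not at hcon
  rw [Finset.abs_prod] at h
  have : r ^ s.card ≤ ∏ x ∈ s, |y - x| := by
    rw [← Finset.prod_const]
    exact Finset.prod_le_prod (fun _ _ => hr.le) hcon
  exact absurd h (not_lt.2 this)

/-- the monic polynomial with the simple roots `s` -/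
noncomputable def comparePol (s : Finset ℝ) : ℝ[X] := ∏ x ∈ s, (X - C x)

theorem comparePol_eval (s : Finset ℝ) (y : ℝ) :
    (comparePol s).eval y = ∏ x ∈ s, (y - x) := by
  unfold comparePol
  rw [eval_prod]
  simp

theorem compare_core {A B : Mat n} (hA : A.PosDef) (hB : B.IsSymm) (p : ℝ → ℝ) (q w : ℝ[X])
    (s : Finset ℝ) {r ε : ℝ} (hr : 0 < r)
    (hs : ∀ x ∈ s, ∀ y, |y - x| < r → |p y - q.eval y| ≤ ε * w.eval y)
    (htr : (aeval (B * A) (comparePol s ^ 2)).trace < (r ^ s.card) ^ 2) (i j : Fin n) :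
    |Sf p A B i j - SQ q A B i j| ≤ ε / 2 * (SQ w A B i i + SQ w A B j j) := by
  obtain ⟨g, b, h⟩ := exists_dg hA hB
  refine compare_bound h p q w ε (fun k => ?_) i j
  rw [compare_trace h] at htr
  have h1 : (comparePol s ^ 2).eval (b k) ≤ ∑ i, (comparePol s ^ 2).eval (b i) := by
    refine Finset.single_le_sum (f := fun i => (comparePol s ^ 2).eval (b i))
      (fun i _ => ?_) (Finset.mem_univ k)
    simp only [eval_pow]
    exact sq_nonneg _
  have h2 : (∏ x ∈ s, (b k - x)) ^ 2 < (r ^ s.card) ^ 2 := by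
    rw [← comparePol_eval, ← eval_pow]
    exact h1.trans_lt htr
  obtain ⟨x, hx, hxr⟩ := compare_close hr (abs_lt_of_sq_lt_sq h2 (by positivity))
  exact hs x hx _ hxr

theorem compare_ann {A B : Mat n} (hA : A.PosDef) (hB : B.IsSymm) :
    aeval (B * A) (comparePol (B * A).charpoly.roots.toFinset) = 0 := by
  obtain ⟨g, b, h⟩ := exists_dg hA hB
  have h1 := dg_SQ h (comparePol (B * A).charpoly.roots.toFinset)
  have h2 : (fun i => (comparePol (B * A).charpoly.roots.toFinset).eval (b i)) = 0 := by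
    funext i
    rw [comparePol_eval]
    refine Finset.prod_eq_zero (i := b i) ?_ (sub_self _)
    rw [Multiset.mem_toFinset]
    exact (dg_roots h _).2 ⟨i, rfl⟩
  rw [h2, show diagonal (0 : Fin n → ℝ) = 0 from Matrix.diagonal_zero, mul_zero, zero_mul] at h1
  unfold SQ at h1
  have hu : IsUnit A := hA.isUnit
  exact hu.mul_left_cancel (h1.trans (mul_zero A).symm)

theorem compare_unif (s : Finset ℝ) (Pr : ℝ → Prop) (h : ∀ x ∈ s, ∀ᶠ y in 𝓝 x, Pr y) :
    ∃ r > 0, ∀ x ∈ s, ∀ y, |y - x| < r → Pr y := by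
  have h1 : ∀ x ∈ s, ∀ᶠ r in 𝓝[>] (0 : ℝ), ∀ y, |y - x| < r → Pr y := by
    intro x hx
    obtain ⟨δ, hδ, hd⟩ := Metric.eventually_nhds_iff.1 (h x hx)
    have : ∀ᶠ r in 𝓝[>] (0 : ℝ), r < δ :=
      (eventually_lt_nhds hδ).filter_mono nhdsWithin_le_nhds
    filter_upwards [this] with r hr y hy
    exact hd (by rw [Real.dist_eq]; exact hy.trans hr)
  have h2 := (Filter.eventually_all_finset s).2 h1
  obtain ⟨r, hr, hr0⟩ := (h2.and self_mem_nhdsWithin).exists
  exact ⟨r, hr0, hr⟩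

theorem compare_taylor {p : ℝ → ℝ} (hp : ContDiffOn ℝ 2 p (Ioo 0 1)) {q : ℝ[X]} {x : ℝ}
    (hx : x ∈ Ioo (0 : ℝ) 1) (h : Her p q x) :
    (fun y => p y - q.eval y) =o[𝓝 x] fun y => (y - x) ^ 2 := by
  have hopen : IsOpen (Ioo (0 : ℝ) 1) := isOpen_Ioo
  have hnh : Ioo (0 : ℝ) 1 ∈ 𝓝 x := hopen.mem_nhds hx
  have hq : ContDiff ℝ 2 (fun y => q.eval y) := by
    have := Polynomial.contDiff_aeval (𝕜 := ℝ) q 2
    simpa using this
  have hf : ContDiffOn ℝ 2 (fun y => p y - q.eval y) (Ioo 0 1) := hp.sub hq.contDiffOn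
  have ht := taylor_isLittleO (n := 2) (convex_Ioo (0 : ℝ) 1) hx hf
  rw [nhdsWithin_eq_nhds.2 hnh] at ht
  refine ht.congr_left fun y => ?_
  have hpx : ContDiffAt ℝ 2 p x := hp.contDiffAt hnh
  have hpd : DifferentiableAt ℝ p x := hpx.differentiableAt (by norm_num)
  have hd1 : ∀ᶠ z in 𝓝 x, deriv (fun y => p y - q.eval y) z = deriv p z - q.derivative.eval z := by
    filter_upwards [hnh] with z hz
    have hpz : DifferentiableAt ℝ p z :=
      (hp.contDiffAt (hopen.mem_nhds hz)).differentiableAt (by norm_num)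
    rw [deriv_fun_sub hpz q.differentiableAt, Polynomial.deriv]
  have hd2 : DifferentiableAt ℝ (deriv p) x := by
    have h2 : ContDiffOn ℝ (1 + 1) p (Ioo 0 1) := by
      rw [one_add_one_eq_two]; exact hp
    have h1 := ((contDiffOn_succ_iff_deriv_of_isOpen hopen).1 h2).2.2.contDiffAt hnh
    exact h1.differentiableAt (by norm_num)
  have e0 : (fun y => p y - q.eval y) x = 0 := by
    simp only [h.1, sub_self]
  have e1 : iteratedDerivWithin 1 (fun y => p y - q.eval y) (Ioo 0 1) x = 0 := by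
    rw [iteratedDerivWithin_one, derivWithin_of_isOpen hopen hx, hd1.self_of_nhds, h.2.1, sub_self]
  have e2 : iteratedDerivWithin 2 (fun y => p y - q.eval y) (Ioo 0 1) x = 0 := by
    rw [iteratedDerivWithin_of_isOpen hopen hx, iteratedDeriv_succ, iteratedDeriv_one,
      Filter.EventuallyEq.deriv_eq hd1, deriv_fun_sub hd2 q.derivative.differentiableAt, Polynomial.deriv, h.2.2,
      sub_self]
  rw [taylorWithinEval_succ, taylorWithinEval_succ, taylor_within_zero_eval]
  simp only [zero_add, e1, Nat.reduceAdd, e2, h.1]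
  simp

theorem compare_local {p : ℝ → ℝ} {q : ℝ[X]} {s : Finset ℝ} {x : ℝ} (hx : x ∈ s)
    (h : (fun y => p y - q.eval y) =o[𝓝 x] fun y => (y - x) ^ 2) :
    (fun y => p y - q.eval y) =o[𝓝 x] fun y => (comparePol s ^ 2).eval y := by
  refine h.trans_isBigO ?_
  have hc : Continuous fun y : ℝ => ∏ z ∈ s.erase x, (y - z) := by fun_prop
  have hne : (∏ z ∈ s.erase x, (x - z)) ≠ 0 := by
    refine Finset.prod_ne_zero_iff.2 fun z hz => ?_
    exact sub_ne_zero.2 (Finset.ne_of_mem_erase hz).symm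
  have h1 : (fun _ : ℝ => (1 : ℝ)) =O[𝓝 x] fun y => ∏ z ∈ s.erase x, (y - z) := by
    rw [isBigO_const_left_iff_pos_le_norm one_ne_zero]
    refine ⟨‖∏ z ∈ s.erase x, (x - z)‖ / 2, by positivity, ?_⟩
    have h2 := (hc.norm.tendsto x).eventually
      (lt_mem_nhds (half_lt_self (norm_pos_iff.2 hne)))
    exact h2.mono fun y hy => hy.le
  have h3 := ((isBigO_refl (fun y : ℝ => y - x) (𝓝 x)).mul h1).pow 2
  refine (h3.congr_left fun y => ?_).congr_right fun y => ?_
  · rw [mul_one]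
  · rw [eval_pow, comparePol_eval, ← Finset.mul_prod_erase s _ hx]

theorem Sf_sub_SQ {l : Filter ℝ} {A B : ℝ → Mat n} {A₀ B₀ : Mat n}
    (hl : l ≤ 𝓝 0) (hA₀ : A₀.PosDef) (hB₀ : B₀.IsSymm)
    (hA : ∀ i j, (fun t => A t i j - A₀ i j) =O[l] fun t => t)
    (hB : ∀ i j, (fun t => B t i j - B₀ i j) =O[l] fun t => t)
    (hAs : ∀ᶠ t in l, (A t).PosDef) (hBs : ∀ᶠ t in l, (B t).IsSymm)
    {p : ℝ → ℝ} (hp : ContDiffOn ℝ 2 p (Ioo 0 1)) (q : ℝ[X])
    (hspec : ∀ x ∈ (B₀ * A₀).charpoly.roots, x ∈ Ioo (0 : ℝ) 1 ∧ Her p q x) (i j : Fin n) :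
    (fun t => Sf p (A t) (B t) i j - SQ q (A t) (B t) i j) =o[l] fun t => t ^ 2 := by
  obtain ⟨s, hs⟩ : ∃ s, s = (B₀ * A₀).charpoly.roots.toFinset := ⟨_, rfl⟩
  have hBA : CompareO l (fun t => B t * A t) (B₀ * A₀) := compare_mul hl hB hA
  have hann := compare_ann hA₀ hB₀
  rw [← hs] at hann
  have hχ : ∀ i j, (fun t => aeval (B t * A t) (comparePol s) i j) =O[l] fun t => t := by
    intro i j
    have := compare_aeval hl hBA (comparePol s) i j
    rw [hann] at this
    simpa using this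
  have hAχ : ∀ i j, (fun t => (A t * aeval (B t * A t) (comparePol s)) i j) =O[l] fun t => t := by
    intro i j
    have := compare_mul hl hA (compare_aeval hl hBA (comparePol s)) i j
    rw [hann, mul_zero] at this
    simpa using this
  have htr : (fun t => (aeval (B t * A t) (comparePol s ^ 2)).trace) =O[l] fun t => t ^ 2 := by
    have h1 : ∀ i k, (fun t => aeval (B t * A t) (comparePol s) i k *
        aeval (B t * A t) (comparePol s) k i) =O[l] fun t => t ^ 2 := by
      intro i k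
      simpa only [pow_two] using (hχ i k).mul (hχ k i)
    have h2 : (fun t => ∑ i, ∑ k, aeval (B t * A t) (comparePol s) i k *
        aeval (B t * A t) (comparePol s) k i) =O[l] fun t => t ^ 2 :=
      IsBigO.fun_sum (s := Finset.univ) fun i _ =>
        IsBigO.fun_sum (s := Finset.univ) fun k _ => h1 i k
    refine h2.congr_left fun t => ?_
    rw [pow_two, map_mul, Matrix.trace]
    simp only [Matrix.diag_apply, Matrix.mul_apply]
  have hE : ∀ i, (fun t => SQ (comparePol s ^ 2) (A t) (B t) i i) =O[l] fun t => t ^ 2 := by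
    intro i
    have h1 : ∀ k, (fun t => (A t * aeval (B t * A t) (comparePol s)) i k *
        aeval (B t * A t) (comparePol s) k i) =O[l] fun t => t ^ 2 := by
      intro k
      simpa only [pow_two] using (hAχ i k).mul (hχ k i)
    have h2 : (fun t => ∑ k, (A t * aeval (B t * A t) (comparePol s)) i k *
        aeval (B t * A t) (comparePol s) k i) =O[l] fun t => t ^ 2 :=
      IsBigO.fun_sum (s := Finset.univ) fun k _ => h1 k
    refine h2.congr_left fun t => ?_
    rw [SQ, pow_two, map_mul, ← mul_assoc, Matrix.mul_apply]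
  have ht2 : Tendsto (fun t : ℝ => t ^ 2) l (𝓝 0) := by
    have : Tendsto (fun t : ℝ => t ^ 2) (𝓝 0) (𝓝 0) := by
      simpa using (continuous_pow 2).tendsto (0 : ℝ)
    exact this.mono_left hl
  have htr0 : Tendsto (fun t => (aeval (B t * A t) (comparePol s ^ 2)).trace) l (𝓝 0) :=
    htr.trans_tendsto ht2
  obtain ⟨K, hK⟩ := ((hE i).add (hE j)).bound
  rw [isLittleO_iff]
  intro c hc
  obtain ⟨ε, hε⟩ : ∃ ε, ε = 2 * c / (|K| + 1) := ⟨_, rfl⟩
  have hε0 : 0 < ε := by rw [hε]; positivity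
  obtain ⟨r, hr, hsr⟩ := compare_unif s
    (fun y => |p y - q.eval y| ≤ ε * (comparePol s ^ 2).eval y) (fun x hx => by
      have hx' : x ∈ (B₀ * A₀).charpoly.roots := by
        rw [hs, Multiset.mem_toFinset] at hx; exact hx
      obtain ⟨hx1, hx2⟩ := hspec x hx'
      have h1 := (isLittleO_iff.1 (compare_local hx (compare_taylor hp hx1 hx2))) hε0
      filter_upwards [h1] with y hy
      rw [Real.norm_eq_abs, Real.norm_eq_abs] at hy
      have h2 : 0 ≤ (comparePol s ^ 2).eval y := by rw [eval_pow]; exact sq_nonneg _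
      rwa [abs_of_nonneg h2] at hy)
  have hev := htr0.eventually (gt_mem_nhds (show (0 : ℝ) < (r ^ s.card) ^ 2 by positivity))
  filter_upwards [hAs, hBs, hev, hK] with t h1 h2 h3 h4
  have h5 := compare_core h1 h2 p q (comparePol s ^ 2) s hr hsr h3 i j
  rw [Real.norm_eq_abs] at h4 ⊢
  refine h5.trans ?_
  have h6 : SQ (comparePol s ^ 2) (A t) (B t) i i + SQ (comparePol s ^ 2) (A t) (B t) j j ≤
      (|K| + 1) * ‖t ^ 2‖ := by
    refine (le_abs_self _).trans (h4.trans ?_)
    exact mul_le_mul_of_nonneg_right (by linarith [le_abs_self K]) (norm_nonneg _)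
  calc ε / 2 * (SQ (comparePol s ^ 2) (A t) (B t) i i + SQ (comparePol s ^ 2) (A t) (B t) j j)
      ≤ ε / 2 * ((|K| + 1) * ‖t ^ 2‖) := mul_le_mul_of_nonneg_left h6 (by positivity)
    _ = c * ‖t ^ 2‖ := by
      rw [hε]
      have : |K| + 1 ≠ 0 := by positivity
      field_simp

/-- the same argument at order zero (Lagrange interpolation): continuity of `S_p`. -/
theorem Sf_cont {p : ℝ → ℝ} (hp : ContinuousOn p (Ioo 0 1)) (i j : Fin n) :
    ContinuousOn (fun x : Mat n × Mat n => Sf p x.1 x.2 i j)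
      {x | x.1.PosDef ∧ x.2.PosDef ∧ (x.1⁻¹ - x.2).PosDef} := by
  rintro ⟨A₀, B₀⟩ ⟨hA₀, hB₀, hAB₀⟩
  dsimp only at hA₀ hB₀ hAB₀
  have hB₀s : B₀.IsSymm := compare_symm hB₀
  obtain ⟨s, hs⟩ : ∃ s, s = (B₀ * A₀).charpoly.roots.toFinset := ⟨_, rfl⟩
  obtain ⟨q, hq⟩ : ∃ q : ℝ[X], q = Lagrange.interpolate s id p := ⟨_, rfl⟩
  have hSf : Sf p A₀ B₀ = SQ q A₀ B₀ := by rw [hq, hs]; rfl
  have hspec : ∀ x ∈ s, x ∈ Ioo (0 : ℝ) 1 := by
    intro x hx
    rw [hs, Multiset.mem_toFinset] at hx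
    obtain ⟨g, b, h⟩ := exists_dg hA₀ hB₀s
    obtain ⟨k, rfl⟩ := (dg_roots h x).1 hx
    exact ⟨dg_pos h hB₀ k, dg_lt_one h hAB₀ k⟩
  have hqx : ∀ x ∈ s, q.eval x = p x := by
    intro x hx
    rw [hq]
    exact Lagrange.eval_interpolate_at_node (v := id) p Function.injective_id.injOn hx
  have hcont : ∀ r : ℝ[X], Continuous fun x : Mat n × Mat n => aeval (x.2 * x.1) r := fun r =>
    (r.continuous_aeval).comp (continuous_snd.mul continuous_fst)
  have hcSQ : Continuous fun x : Mat n × Mat n => SQ q x.1 x.2 i j := by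
    have : Continuous fun x : Mat n × Mat n => SQ q x.1 x.2 := by
      unfold SQ
      exact continuous_fst.mul (hcont q)
    exact (continuous_apply_apply i j).comp this
  have hctr : Continuous fun x : Mat n × Mat n => (aeval (x.2 * x.1) (comparePol s ^ 2)).trace :=
    (hcont _).matrix_trace
  have hann := compare_ann hA₀ hB₀s
  rw [← hs] at hann
  have htr0 : (aeval (B₀ * A₀) (comparePol s ^ 2)).trace = 0 := by
    rw [pow_two, map_mul, hann, zero_mul, Matrix.trace_zero]
  have hone : ∀ A B : Mat n, SQ 1 A B = A := by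
    intro A B
    unfold SQ
    rw [map_one, mul_one]
  have hcA : ContinuousAt (fun x : Mat n × Mat n => x.1 i i + x.1 j j) (A₀, B₀) := by
    have : Continuous fun x : Mat n × Mat n => x.1 i i + x.1 j j :=
      ((continuous_apply_apply i i).comp continuous_fst).add
        ((continuous_apply_apply j j).comp continuous_fst)
    exact this.continuousAt
  rw [Metric.continuousWithinAt_iff']
  intro e he
  obtain ⟨K, hK⟩ : ∃ K, K = |A₀ i i + A₀ j j| + 1 := ⟨_, rfl⟩
  have hK0 : 0 < K := by rw [hK]; positivity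
  obtain ⟨ε, hε⟩ : ∃ ε, ε = e / K := ⟨_, rfl⟩
  have hε0 : 0 < ε := by rw [hε]; positivity
  obtain ⟨r, hr, hsr⟩ := compare_unif s
    (fun y => |p y - q.eval y| ≤ ε * (1 : ℝ[X]).eval y) (fun x hx => by
      have hx1 := hspec x hx
      have hpc : ContinuousAt p x := hp.continuousAt (isOpen_Ioo.mem_nhds hx1)
      have hc : ContinuousAt (fun y => p y - q.eval y) x := hpc.sub q.continuous.continuousAt
      have h1 := Metric.tendsto_nhds.1 hc ε hε0
      filter_upwards [h1] with y hy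
      rw [hqx x hx, sub_self, Real.dist_eq, sub_zero] at hy
      simpa using hy.le)
  have ev1 : ∀ᶠ x in 𝓝[{x : Mat n × Mat n | x.1.PosDef ∧ x.2.PosDef ∧ (x.1⁻¹ - x.2).PosDef}]
      (A₀, B₀), (aeval (x.2 * x.1) (comparePol s ^ 2)).trace < (r ^ s.card) ^ 2 := by
    refine nhdsWithin_le_nhds ?_
    refine (hctr.tendsto (A₀, B₀)).eventually (gt_mem_nhds ?_)
    show (aeval (B₀ * A₀) (comparePol s ^ 2)).trace < _
    rw [htr0]
    positivity
  have ev2 : ∀ᶠ x in 𝓝[{x : Mat n × Mat n | x.1.PosDef ∧ x.2.PosDef ∧ (x.1⁻¹ - x.2).PosDef}]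
      (A₀, B₀), |SQ q x.1 x.2 i j - SQ q A₀ B₀ i j| < e / 2 := by
    refine nhdsWithin_le_nhds ?_
    have := Metric.tendsto_nhds.1 (hcSQ.tendsto (A₀, B₀)) (e / 2) (by positivity)
    filter_upwards [this] with x hx
    rwa [Real.dist_eq] at hx
  have ev3 : ∀ᶠ x in 𝓝[{x : Mat n × Mat n | x.1.PosDef ∧ x.2.PosDef ∧ (x.1⁻¹ - x.2).PosDef}]
      (A₀, B₀), x.1 i i + x.1 j j < K := by
    refine nhdsWithin_le_nhds ?_
    refine hcA.eventually (gt_mem_nhds ?_)
    show A₀ i i + A₀ j j < K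
    rw [hK]
    linarith [le_abs_self (A₀ i i + A₀ j j)]
  filter_upwards [ev1, ev2, ev3, self_mem_nhdsWithin] with x h1 h2 h3 h4
  have h5 := compare_core h4.1 (compare_symm h4.2.1) p q 1 s hr hsr h1 i j
  rw [hone] at h5
  rw [Real.dist_eq, hSf]
  have h6 : ε / 2 * (x.1 i i + x.1 j j) ≤ e / 2 := by
    calc ε / 2 * (x.1 i i + x.1 j j) ≤ ε / 2 * K :=
          mul_le_mul_of_nonneg_left h3.le (by positivity)
      _ = e / 2 := by rw [hε]; field_simp
  calc |Sf p x.1 x.2 i j - SQ q A₀ B₀ i j|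
      = |(Sf p x.1 x.2 i j - SQ q x.1 x.2 i j) + (SQ q x.1 x.2 i j - SQ q A₀ B₀ i j)| := by
        congr 1; ring
    _ ≤ |Sf p x.1 x.2 i j - SQ q x.1 x.2 i j| + |SQ q x.1 x.2 i j - SQ q A₀ B₀ i j| :=
        abs_add_le _ _
    _ < e := by linarith

end Vale.Agent.P254.MP
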