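import Vale.Agent.P254.MP.Defs

/-!
P254, abstract maximum principle, file G5 (helper774): first and second order conditions in `P`.
-/

namespace Vale.Agent.P254.MP

open Matrix Set Filter Topology
open Vale.Agent.P254.L
open scoped Kronecker

variable {n : ℕ}

theorem N3_nonneg {X Y Z : Mat n} (hX : X.PosSemidef) (hY : Y.PosSemidef) (hZ : Z.PosSemidef)
    (T : Ten n) : 0 ≤ N3 X Y Z T T := by
  have h := (hX.kronecker (hY.kronecker hZ)).dotProduct_mulVec_nonneg
    (fun p : Fin n × Fin n × Fin n => T p.1 p.2.1 p.2.2)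
  have e : star (fun p : Fin n × Fin n × Fin n => T p.1 p.2.1 p.2.2) ⬝ᵥ
      (X ⊗ₖ (Y ⊗ₖ Z)) *ᵥ (fun p : Fin n × Fin n × Fin n => T p.1 p.2.1 p.2.2) =
      N3 X Y Z T T := by
    simp only [dotProduct, mulVec, Fintype.sum_prod_type, kroneckerMap_apply, Finset.mul_sum, N3,
      Pi.star_apply, star_trivial]
    refine Finset.sum_congr rfl fun a _ => Finset.sum_congr rfl fun b _ =>
      Finset.sum_congr rfl fun c _ => Finset.sum_congr rfl fun a' _ =>
      Finset.sum_congr rfl fun b' _ => Finset.sum_congr rfl fun c' _ => ?_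
    ring
  rwa [e] at h

/-! #### multilinearity and symmetry of `N3` -/

theorem contactP_add1 (X X' Y Z : Mat n) (T T' : Ten n) :
    N3 (X + X') Y Z T T' = N3 X Y Z T T' + N3 X' Y Z T T' := by
  simp only [N3, Matrix.add_apply, add_mul, Finset.sum_add_distrib]

theorem contactP_smul1 (t : ℝ) (X Y Z : Mat n) (T T' : Ten n) :
    N3 (t • X) Y Z T T' = t * N3 X Y Z T T' := by
  simp only [N3, Matrix.smul_apply, smul_eq_mul, Finset.mul_sum, mul_assoc]

theorem contactP_swap12 (X Y Z : Mat n) {T : Ten n} (hT : TSymm T) :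
    N3 X Y Z T T = N3 Y X Z T T := by
  rw [N3, N3, Finset.sum_comm]
  refine Finset.sum_congr rfl fun a _ => Finset.sum_congr rfl fun b _ =>
      Finset.sum_congr rfl fun c _ => ?_
  rw [Finset.sum_comm]
  refine Finset.sum_congr rfl fun a' _ =>
      Finset.sum_congr rfl fun b' _ => Finset.sum_congr rfl fun c' _ => ?_
  rw [hT.1 a b c, hT.1 a' b' c']
  ring

theorem contactP_swap23 (X Y Z : Mat n) {T : Ten n} (hT : TSymm T) :
    N3 X Y Z T T = N3 X Z Y T T := by
  rw [N3, N3]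
  refine Finset.sum_congr rfl fun a _ => ?_
  rw [Finset.sum_comm]
  refine Finset.sum_congr rfl fun b _ => Finset.sum_congr rfl fun c _ =>
    Finset.sum_congr rfl fun a' _ => ?_
  rw [Finset.sum_comm]
  refine Finset.sum_congr rfl fun b' _ => Finset.sum_congr rfl fun c' _ => ?_
  rw [hT.2 a b c, hT.2 a' b' c']
  ring

theorem contactP_add2 (X Y Y' Z : Mat n) {T : Ten n} (hT : TSymm T) :
    N3 X (Y + Y') Z T T = N3 X Y Z T T + N3 X Y' Z T T := by
  rw [contactP_swap12 _ _ _ hT, contactP_add1, contactP_swap12 Y _ _ hT,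
    contactP_swap12 Y' _ _ hT]

theorem contactP_smul2 (t : ℝ) (X Y Z : Mat n) {T : Ten n} (hT : TSymm T) :
    N3 X (t • Y) Z T T = t * N3 X Y Z T T := by
  rw [contactP_swap12 _ _ _ hT, contactP_smul1, contactP_swap12 Y _ _ hT]

theorem contactP_add3 (X Y Z Z' : Mat n) {T : Ten n} (hT : TSymm T) :
    N3 X Y (Z + Z') T T = N3 X Y Z T T + N3 X Y Z' T T := by
  rw [contactP_swap23 _ _ _ hT, contactP_add2 _ _ _ _ hT, contactP_swap23 X Z _ hT,
    contactP_swap23 X Z' _ hT]

theorem contactP_smul3 (t : ℝ) (X Y Z : Mat n) {T : Ten n} (hT : TSymm T) :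
    N3 X Y (t • Z) T T = t * N3 X Y Z T T := by
  rw [contactP_swap23 _ _ _ hT, contactP_smul2 _ _ _ _ hT, contactP_swap23 X Z _ hT]

theorem contactP_NN_line (P X : Mat n) {T : Ten n} (hT : TSymm T) (t : ℝ) :
    NN (P + t • X) T T = NN P T T + t * (3 * N3 X P P T T) + t ^ 2 * (3 * N3 X X P T T)
      + t ^ 3 * N3 X X X T T := by
  have e : ∀ Q : Mat n, NN Q T T = N3 Q Q Q T T := fun Q => rfl
  rw [e, e]
  simp only [contactP_add1, contactP_smul1, contactP_add2 _ _ _ _ hT, contactP_smul2 _ _ _ _ hT,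
    contactP_add3 _ _ _ _ hT, contactP_smul3 _ _ _ _ hT]
  have h1 : N3 P X P T T = N3 X P P T T := contactP_swap12 _ _ _ hT
  have h2 : N3 P P X T T = N3 X P P T T := by rw [contactP_swap23 _ _ _ hT, h1]
  have h3 : N3 X P X T T = N3 X X P T T := contactP_swap23 _ _ _ hT
  have h4 : N3 P X X T T = N3 X X P T T := by rw [contactP_swap12 _ _ _ hT, h3]
  rw [h1, h2, h3, h4]
  ring

theorem contactP_tr_line (S P X : Mat n) (t : ℝ) :
    ((S * (P + t • X)) ^ 3).trace = ((S * P) ^ 3).trace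
      + t * (3 * (X * (S * P * S * P * S)).trace) + t ^ 2 * (3 * (S * X * S * X * S * P).trace)
      + t ^ 3 * ((S * X) ^ 3).trace := by
  have e : (S * (P + t • X)) ^ 3 = (S * P) ^ 3
      + t • ((S * P) * (S * P) * (S * X) + (S * P) * (S * X) * (S * P)
        + (S * X) * (S * P) * (S * P))
      + t ^ 2 • ((S * P) * (S * X) * (S * X) + (S * X) * (S * P) * (S * X)
        + (S * X) * (S * X) * (S * P)) + t ^ 3 • (S * X) ^ 3 := by
    simp only [mul_add, add_mul, Matrix.mul_smul, Matrix.smul_mul, pow_succ, pow_zero, one_mul,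
      smul_add, smul_smul, mul_assoc]
    abel
  have a1 : ((S * P) * (S * P) * (S * X)).trace = (X * (S * P * S * P * S)).trace := by
    rw [Matrix.trace_mul_comm X]
    simp only [mul_assoc]
  have a2 : ((S * P) * (S * X) * (S * P)).trace = (X * (S * P * S * P * S)).trace := by
    rw [Matrix.trace_mul_comm X, mul_assoc, Matrix.trace_mul_comm]
    simp only [mul_assoc]
    rw [← mul_assoc S, Matrix.trace_mul_comm (S * X)]
    simp only [mul_assoc]
  have a3 : ((S * X) * (S * P) * (S * P)).trace = (X * (S * P * S * P * S)).trace := by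
    rw [mul_assoc (S * X), Matrix.trace_mul_comm (S * X), Matrix.trace_mul_comm X]
    simp only [mul_assoc]
  have b1 : ((S * P) * (S * X) * (S * X)).trace = (S * X * S * X * S * P).trace := by
    rw [mul_assoc (S * P), Matrix.trace_mul_comm (S * P)]
    simp only [mul_assoc]
  have b2 : ((S * X) * (S * P) * (S * X)).trace = (S * X * S * X * S * P).trace := by
    rw [Matrix.trace_mul_comm (S * X * (S * P))]
    simp only [mul_assoc]
  have b3 : ((S * X) * (S * X) * (S * P)).trace = (S * X * S * X * S * P).trace := by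
    simp only [mul_assoc]
  rw [e]
  simp only [Matrix.trace_add, Matrix.trace_smul, smul_eq_mul]
  rw [a1, a2, a3, b1, b2, b3]
  ring

/-! #### one variable -/

theorem contactP_first {α β γ : ℝ} (h : ∀ t : ℝ, 0 < t → 0 ≤ t * α + t ^ 2 * β + t ^ 3 * γ) :
    0 ≤ α := by
  have h1 : Tendsto (fun t : ℝ => α + t * β + t ^ 2 * γ) (𝓝[>] 0) (𝓝 (α + 0 * β + 0 ^ 2 * γ)) := by
    apply Tendsto.mono_left _ nhdsWithin_le_nhds
    exact Continuous.tendsto (by fun_prop) 0
  have h2 : (0 : ℝ) ≤ α + 0 * β + 0 ^ 2 * γ := by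
    refine ge_of_tendsto h1 ?_
    filter_upwards [self_mem_nhdsWithin] with t ht
    have ht' : (0 : ℝ) < t := ht
    have := h t ht'
    have e : t * α + t ^ 2 * β + t ^ 3 * γ = t * (α + t * β + t ^ 2 * γ) := by ring
    rw [e] at this
    exact nonneg_of_mul_nonneg_right this ht'
  simpa using h2

theorem contactP_second {β γ : ℝ} (h : ∀ t : ℝ, 0 < t → 0 ≤ t ^ 2 * β + t ^ 3 * γ) :
    0 ≤ β := by
  refine contactP_first (β := γ) (γ := 0) fun t ht => ?_
  have := h t ht
  have e : t ^ 2 * β + t ^ 3 * γ = t * (t * β + t ^ 2 * γ + t ^ 3 * 0) := by ring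
  rw [e] at this
  exact nonneg_of_mul_nonneg_right this ht

/-! #### the matrix `K` of the linear form `X ↦ N3 X P P T T` -/

/-- the matrix `K` -/
noncomputable def contactPK (P : Mat n) (T : Ten n) : Mat n :=
  Matrix.of fun a' a => ∑ b, ∑ c, ∑ b', ∑ c', P b b' * P c c' * T a b c * T a' b' c'

theorem contactPK_trace (X P : Mat n) (T : Ten n) :
    N3 X P P T T = (X * contactPK P T).trace := by
  simp only [Matrix.trace, Matrix.diag_apply, Matrix.mul_apply, contactPK, Matrix.of_apply, N3,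
    Finset.mul_sum]
  refine Finset.sum_congr rfl fun a _ => ?_
  have e1 : ∀ b : Fin n, ∑ c, ∑ a', ∑ b', ∑ c', X a a' * P b b' * P c c' * T a b c * T a' b' c' =
      ∑ a', ∑ c, ∑ b', ∑ c', X a a' * P b b' * P c c' * T a b c * T a' b' c' :=
    fun b => Finset.sum_comm
  rw [Finset.sum_congr rfl fun b _ => e1 b, Finset.sum_comm]
  refine Finset.sum_congr rfl fun a' _ => Finset.sum_congr rfl fun b _ =>
    Finset.sum_congr rfl fun c _ => Finset.sum_congr rfl fun b' _ =>
    Finset.sum_congr rfl fun c' _ => ?_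
  ring

theorem contactPK_symm {P : Mat n} (hP : P.IsSymm) (T : Ten n) : (contactPK P T).IsSymm := by
  ext a a'
  simp only [Matrix.transpose_apply, contactPK, Matrix.of_apply]
  have e1 : ∀ f : Fin n → Fin n → Fin n → Fin n → ℝ,
      ∑ b, ∑ c, ∑ b', ∑ c', f b c b' c' = ∑ b', ∑ c', ∑ b, ∑ c, f b c b' c' := by
    intro f
    have : ∀ b, ∑ c, ∑ b', ∑ c', f b c b' c' = ∑ b', ∑ c', ∑ c, f b c b' c' := by
      intro b
      rw [Finset.sum_comm]
      exact Finset.sum_congr rfl fun b' _ => Finset.sum_comm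
    rw [Finset.sum_congr rfl fun b _ => this b, Finset.sum_comm]
    exact Finset.sum_congr rfl fun b' _ => Finset.sum_comm
  rw [e1]
  refine Finset.sum_congr rfl fun b _ =>
    Finset.sum_congr rfl fun c _ => Finset.sum_congr rfl fun b' _ =>
    Finset.sum_congr rfl fun c' _ => ?_
  rw [hP.apply b b', hP.apply c c']
  ring

/-! #### linear algebra -/

theorem contactP_vecMulVec_trace (v : Vec n) (R : Mat n) :
    (vecMulVec v v * R).trace = v ⬝ᵥ R *ᵥ v := by
  rw [Matrix.trace_mul_comm, Matrix.mul_vecMulVec, Matrix.trace_vecMulVec, dotProduct_comm]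

/-- two positive semidefinite matrices with `tr (P R) = 0` have product zero -/
theorem contactP_mul_eq_zero {P R : Mat n} (hP : P.PosSemidef) (hR : R.PosSemidef)
    (h : (P * R).trace = 0) : R * P = 0 := by
  open scoped MatrixOrder in
  obtain ⟨B, hB⟩ := CStarAlgebra.nonneg_iff_eq_star_mul_self.mp hP.nonneg
  rw [Matrix.star_eq_conjTranspose, conjTranspose_eq_transpose_of_trivial] at hB
  have e1 : (P * R).trace = ∑ i, (B i) ⬝ᵥ R *ᵥ (B i) := by
    rw [hB, Matrix.mul_assoc, Matrix.trace_mul_comm, Matrix.trace]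
    refine Finset.sum_congr rfl fun i _ => ?_
    simp only [Matrix.diag_apply, Matrix.mul_apply, dotProduct, mulVec, Matrix.transpose_apply,
      Finset.sum_mul, Finset.mul_sum]
    rw [Finset.sum_comm]
    refine Finset.sum_congr rfl fun j _ => Finset.sum_congr rfl fun k _ => ?_
    ring
  rw [e1] at h
  have e2 : ∀ i, (B i) ⬝ᵥ R *ᵥ (B i) = 0 := by
    intro i
    have := (Finset.sum_eq_zero_iff_of_nonneg fun i _ => by
      simpa using hR.dotProduct_mulVec_nonneg (B i)).mp h i (Finset.mem_univ i)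
    exact this
  have e3 : ∀ i, R *ᵥ (B i) = 0 := fun i =>
    (hR.dotProduct_mulVec_zero_iff (B i)).mp (by simpa using e2 i)
  have e4 : R * Bᵀ = 0 := by
    ext i j
    have := congrFun (e3 j) i
    simpa [Matrix.mulVec, Matrix.mul_apply, dotProduct] using this
  rw [hB, ← Matrix.mul_assoc, e4, Matrix.zero_mul]

/-- orthogonal decomposition of a symmetric matrix with respect to `S` -/
theorem contactP_decomp {S X : Mat n} (hS : S.PosDef) (hX : X.IsSymm) :
    ∃ X₁ X₂ : Mat n, X₁.PosSemidef ∧ X₂.PosSemidef ∧ X = X₁ - X₂ ∧ X₁ * S * X₂ = 0 := by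
  open scoped MatrixOrder in
  obtain ⟨B, hB⟩ := CStarAlgebra.nonneg_iff_eq_star_mul_self.mp hS.posSemidef.nonneg
  rw [Matrix.star_eq_conjTranspose, conjTranspose_eq_transpose_of_trivial] at hB
  have hBdet : IsUnit B.det := by
    have h1 : S.det = B.det * B.det := by rw [hB, det_mul, det_transpose]
    have h2 : S.det ≠ 0 := hS.det_pos.ne'
    refine isUnit_iff_ne_zero.mpr fun h => h2 ?_
    rw [h1, h, zero_mul]
  have hBT : IsUnit Bᵀ.det := by rwa [det_transpose]
  set Y : Mat n := B * X * Bᵀ with hY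
  have hYs : IsSelfAdjoint Y := by
    rw [IsSelfAdjoint, Matrix.star_eq_conjTranspose, conjTranspose_eq_transpose_of_trivial, hY]
    simp only [transpose_mul, transpose_transpose, hX.eq, Matrix.mul_assoc]
  have h1 : Y⁺ - Y⁻ = Y := CFC.posPart_sub_negPart Y hYs
  have h2 : Y⁺ * Y⁻ = 0 := CFC.posPart_mul_negPart Y
  have h3 : (Y⁺).PosSemidef := by
    open scoped MatrixOrder in
    exact (CFC.posPart_nonneg Y).posSemidef
  have h4 : (Y⁻).PosSemidef := by
    open scoped MatrixOrder in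
    exact (CFC.negPart_nonneg Y).posSemidef
  have e1 : B⁻¹ * B = 1 := nonsing_inv_mul B hBdet
  have e2 : Bᵀ * (B⁻¹)ᵀ = 1 := by rw [← transpose_mul, e1, transpose_one]
  have e3 : B * B⁻¹ = 1 := mul_nonsing_inv B hBdet
  have e4 : (B⁻¹)ᵀ * Bᵀ = 1 := by rw [← transpose_mul, e3, transpose_one]
  refine ⟨B⁻¹ * Y⁺ * (B⁻¹)ᵀ, B⁻¹ * Y⁻ * (B⁻¹)ᵀ, ?_, ?_, ?_, ?_⟩
  · have := h3.mul_mul_conjTranspose_same B⁻¹
    rwa [conjTranspose_eq_transpose_of_trivial] at this
  · have := h4.mul_mul_conjTranspose_same B⁻¹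
    rwa [conjTranspose_eq_transpose_of_trivial] at this
  · rw [← Matrix.sub_mul, ← Matrix.mul_sub, h1, hY]
    calc X = (B⁻¹ * B) * X * (Bᵀ * (B⁻¹)ᵀ) := by rw [e1, e2, Matrix.one_mul, Matrix.mul_one]
      _ = B⁻¹ * (B * X * Bᵀ) * (B⁻¹)ᵀ := by simp only [Matrix.mul_assoc]
  · calc B⁻¹ * Y⁺ * (B⁻¹)ᵀ * S * (B⁻¹ * Y⁻ * (B⁻¹)ᵀ)
        = B⁻¹ * Y⁺ * ((B⁻¹)ᵀ * Bᵀ) * (B * B⁻¹) * Y⁻ * (B⁻¹)ᵀ := by
          rw [hB]; simp only [Matrix.mul_assoc]
      _ = B⁻¹ * (Y⁺ * Y⁻) * (B⁻¹)ᵀ := by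
          rw [e3, e4]; simp only [Matrix.mul_assoc, Matrix.mul_one]
      _ = 0 := by rw [h2, Matrix.mul_zero, Matrix.zero_mul]

theorem contact_of_max {S P : Mat n} {T : Ten n} {μ : ℝ} (hS : S.PosDef) (hT : TSymm T)
    (hP : P.PosSemidef) (hP0 : P ≠ 0) (hμ : 0 < μ)
    (hmax : ∀ P' : Mat n, P'.PosSemidef → NN P' T T ≤ μ * ((S * P') ^ 3).trace)
    (heq : NN P T T = μ * ((S * P) ^ 3).trace) :
    (∀ X : Mat n, X.IsSymm → N3 X P P T T = μ * (X * (S * P * S * P * S)).trace) ∧
    (∀ X : Mat n, X.IsSymm → N3 X X P T T ≤ μ * (S * X * S * X * S * P).trace) := by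
  have hSs : Sᵀ = S := by
    have := hS.1.eq
    rwa [conjTranspose_eq_transpose_of_trivial] at this
  have hPs : Pᵀ = P := by
    have := hP.1.eq
    rwa [conjTranspose_eq_transpose_of_trivial] at this
  have line : ∀ X : Mat n, X.PosSemidef → ∀ t : ℝ, 0 < t →
      0 ≤ t * (3 * (μ * (X * (S * P * S * P * S)).trace - N3 X P P T T))
        + t ^ 2 * (3 * (μ * (S * X * S * X * S * P).trace - N3 X X P T T))
        + t ^ 3 * (μ * ((S * X) ^ 3).trace - N3 X X X T T) := by
    intro X hX t ht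
    have h1 := hmax (P + t • X) (hP.add (hX.smul ht.le))
    rw [contactP_NN_line _ _ hT, contactP_tr_line, heq] at h1
    linarith
  have first : ∀ X : Mat n, X.PosSemidef →
      N3 X P P T T ≤ μ * (X * (S * P * S * P * S)).trace := by
    intro X hX
    have := contactP_first (line X hX)
    linarith
  -- the matrix `R`
  set R : Mat n := μ • (S * P * S * P * S) - contactPK P T with hR
  have trR : ∀ X : Mat n, (X * R).trace = μ * (X * (S * P * S * P * S)).trace - N3 X P P T T := by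
    intro X
    rw [hR, Matrix.mul_sub, Matrix.mul_smul, Matrix.trace_sub, Matrix.trace_smul, smul_eq_mul,
      ← contactPK_trace]
  have Rs : Rᵀ = R := by
    rw [hR, transpose_sub, transpose_smul, (contactPK_symm hPs T).eq]
    simp only [transpose_mul, hSs, hPs, Matrix.mul_assoc]
  have vv : ∀ v : Vec n, (vecMulVec v v).PosSemidef := by
    intro v
    have := posSemidef_vecMulVec_self_star v
    rwa [star_trivial] at this
  have Rpsd : R.PosSemidef := by
    rw [posSemidef_iff_dotProduct_mulVec]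
    refine ⟨?_, fun v => ?_⟩
    · rw [Matrix.IsHermitian, conjTranspose_eq_transpose_of_trivial, Rs]
    · rw [star_trivial, ← contactP_vecMulVec_trace, trR]
      linarith [first _ (vv v)]
  have trPR : (P * R).trace = 0 := by
    rw [trR]
    have e1 : (P * (S * P * S * P * S)).trace = ((S * P) ^ 3).trace := by
      rw [Matrix.trace_mul_comm]
      simp only [pow_succ, pow_zero, one_mul, Matrix.mul_assoc]
    have e2 : N3 P P P T T = NN P T T := rfl
    rw [e1, e2, heq, sub_self]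
  have RP : R * P = 0 := contactP_mul_eq_zero hP Rpsd trPR
  have PR : P * R = 0 := by
    have := congrArg Matrix.transpose RP
    rwa [transpose_mul, hPs, Rs, transpose_zero] at this
  have hSdet : IsUnit S.det := isUnit_iff_ne_zero.mpr hS.det_pos.ne'
  have RSR : ∀ u : Vec n, R *ᵥ (S⁻¹ *ᵥ (R *ᵥ u)) = 0 := by
    intro u
    refine (Rpsd.dotProduct_mulVec_zero_iff _).mp ?_
    have h0 := Rpsd.dotProduct_mulVec_nonneg (S⁻¹ *ᵥ (R *ᵥ u))
    rw [star_trivial] at h0 ⊢
    refine le_antisymm ?_ h0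
    rw [← contactP_vecMulVec_trace, trR]
    have h1 : 0 ≤ N3 (vecMulVec (S⁻¹ *ᵥ (R *ᵥ u)) (S⁻¹ *ᵥ (R *ᵥ u))) P P T T :=
      N3_nonneg (vv _) hP hP T
    have h2 : (vecMulVec (S⁻¹ *ᵥ (R *ᵥ u)) (S⁻¹ *ᵥ (R *ᵥ u)) * (S * P * S * P * S)).trace = 0 := by
      rw [contactP_vecMulVec_trace]
      have h3 : (S * P * S * P * S) *ᵥ (S⁻¹ *ᵥ (R *ᵥ u)) = 0 := by
        rw [mulVec_mulVec, mulVec_mulVec]
        have : S * P * S * P * S * S⁻¹ * R = 0 := by
          calc S * P * S * P * S * S⁻¹ * R = S * P * S * (P * (S * S⁻¹ * R)) := by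
                simp only [Matrix.mul_assoc]
            _ = 0 := by rw [mul_nonsing_inv S hSdet, Matrix.one_mul, PR, Matrix.mul_zero]
        rw [this, zero_mulVec]
      rw [h3, dotProduct_zero]
    rw [h2]
    linarith
  have R0 : R = 0 := by
    have hSi := hS.inv
    have h1 : ∀ u : Vec n, R *ᵥ u = 0 := by
      intro u
      have h2 : star (R *ᵥ u) ⬝ᵥ S⁻¹ *ᵥ (R *ᵥ u) = 0 := by
        rw [star_trivial]
        have : (R *ᵥ u) ⬝ᵥ S⁻¹ *ᵥ (R *ᵥ u) = u ⬝ᵥ R *ᵥ (S⁻¹ *ᵥ (R *ᵥ u)) := by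
          rw [dotProduct_mulVec u R, ← Matrix.mulVec_transpose, Rs]
        rw [this, RSR, dotProduct_zero]
      have h3 := (hSi.posSemidef.dotProduct_mulVec_zero_iff _).mp h2
      calc R *ᵥ u = (S * S⁻¹) *ᵥ (R *ᵥ u) := by rw [mul_nonsing_inv S hSdet, one_mulVec]
        _ = S *ᵥ (S⁻¹ *ᵥ (R *ᵥ u)) := (mulVec_mulVec _ _ _).symm
        _ = 0 := by rw [h3, mulVec_zero]
    ext i j
    have := congrFun (h1 (Pi.single j 1)) i
    simpa using this
  have firstEq : ∀ X : Mat n, N3 X P P T T = μ * (X * (S * P * S * P * S)).trace := by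
    intro X
    have := trR X
    rw [R0, Matrix.mul_zero, Matrix.trace_zero] at this
    linarith
  have second : ∀ X : Mat n, X.PosSemidef →
      N3 X X P T T ≤ μ * (S * X * S * X * S * P).trace := by
    intro X hX
    have h1 : 0 ≤ 3 * (μ * (S * X * S * X * S * P).trace - N3 X X P T T) := by
      refine contactP_second (γ := μ * ((S * X) ^ 3).trace - N3 X X X T T) fun t ht => ?_
      have := line X hX t ht
      rw [firstEq X] at this
      linarith
    linarith
  refine ⟨fun X _ => firstEq X, fun X hX => ?_⟩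
  obtain ⟨X₁, X₂, h1, h2, rfl, h3⟩ := contactP_decomp hS hX
  have h1s : X₁ᵀ = X₁ := by
    have := h1.1.eq
    rwa [conjTranspose_eq_transpose_of_trivial] at this
  have h2s : X₂ᵀ = X₂ := by
    have := h2.1.eq
    rwa [conjTranspose_eq_transpose_of_trivial] at this
  have h4 : X₂ * S * X₁ = 0 := by
    have := congrArg Matrix.transpose h3
    rwa [transpose_mul, transpose_mul, h1s, h2s, hSs, transpose_zero, ← Matrix.mul_assoc] at this
  have key := second (X₁ + X₂) (h1.add h2)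
  have n1 : N3 (X₁ + X₂) (X₁ + X₂) P T T
      = N3 X₁ X₁ P T T + N3 X₂ X₂ P T T + 2 * N3 X₁ X₂ P T T := by
    rw [contactP_add1, contactP_add2 _ _ _ _ hT, contactP_add2 _ _ _ _ hT,
      contactP_swap12 X₂ X₁ _ hT]
    ring
  have n2 : N3 (X₁ - X₂) (X₁ - X₂) P T T
      = N3 X₁ X₁ P T T + N3 X₂ X₂ P T T - 2 * N3 X₁ X₂ P T T := by
    have e : X₁ - X₂ = X₁ + (-1 : ℝ) • X₂ := by rw [neg_one_smul, sub_eq_add_neg]
    rw [e, contactP_add1, contactP_add2 _ _ _ _ hT, contactP_add2 _ _ _ _ hT,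
      contactP_smul1, contactP_smul1, contactP_smul2 _ _ _ _ hT, contactP_smul2 _ _ _ _ hT,
      contactP_swap12 X₂ X₁ _ hT]
    ring
  have n3 : 0 ≤ N3 X₁ X₂ P T T := N3_nonneg h1 h2 hP T
  have t1 : (S * (X₁ + X₂) * S * (X₁ + X₂) * S * P) =
      S * X₁ * S * X₁ * S * P + S * X₂ * S * X₂ * S * P := by
    have e1 : S * X₁ * S * X₂ * S * P = 0 := by
      calc S * X₁ * S * X₂ * S * P = S * (X₁ * S * X₂) * S * P := by
            simp only [Matrix.mul_assoc]
        _ = 0 := by rw [h3]; simp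
    have e2 : S * X₂ * S * X₁ * S * P = 0 := by
      calc S * X₂ * S * X₁ * S * P = S * (X₂ * S * X₁) * S * P := by
            simp only [Matrix.mul_assoc]
        _ = 0 := by rw [h4]; simp
    simp only [Matrix.mul_add, Matrix.add_mul, e1, e2]
    abel
  have t2 : (S * (X₁ - X₂) * S * (X₁ - X₂) * S * P) =
      S * X₁ * S * X₁ * S * P + S * X₂ * S * X₂ * S * P := by
    have e1 : S * X₁ * S * X₂ * S * P = 0 := by
      calc S * X₁ * S * X₂ * S * P = S * (X₁ * S * X₂) * S * P := by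
            simp only [Matrix.mul_assoc]
        _ = 0 := by rw [h3]; simp
    have e2 : S * X₂ * S * X₁ * S * P = 0 := by
      calc S * X₂ * S * X₁ * S * P = S * (X₂ * S * X₁) * S * P := by
            simp only [Matrix.mul_assoc]
        _ = 0 := by rw [h4]; simp
    simp only [Matrix.mul_sub, Matrix.sub_mul, e1, e2]
    abel
  rw [t1, n1] at key
  rw [t2, n2]
  linarith

end Vale.Agent.P254.MP
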