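import Vale.Agent.P254.MP.Diag

/-!
P254, abstract maximum principle, G4: positivity and lower bound of `tr (SP)³` (helper907).
-/

namespace Vale.Agent.P254.MP

open Matrix Set Filter Topology Asymptotics Polynomial
open Vale.Agent.P254.L

variable {n : ℕ}

lemma cube_psd_iff {M : Mat n} : M.PosSemidef → ∀ R : Mat n, (Rᵀ * M * R).PosSemidef := by
  intro h R
  have := h.conjTranspose_mul_mul_same R
  simpa [conjTranspose_eq_transpose_of_trivial] using this

lemma cube_sqrt {P : Mat n} (hP : P.PosSemidef) : ∃ R : Mat n, P = R * Rᵀ := by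
  obtain ⟨U, d, hUU, hUU', hspec⟩ := diag_spectral hP.isHermitian
  have hd : ∀ i, 0 ≤ d i := by
    have h1 := cube_psd_iff hP U
    have h2 : Uᵀ * P * U = diagonal d := by
      rw [hspec]
      have : Uᵀ * (U * diagonal d * Uᵀ) * U = (Uᵀ * U) * diagonal d * (Uᵀ * U) := by
        simp only [Matrix.mul_assoc]
      rw [this, hUU', Matrix.one_mul, Matrix.mul_one]
    rw [h2, posSemidef_diagonal_iff] at h1
    exact h1
  refine ⟨U * diagonal fun i => √(d i), ?_⟩
  rw [transpose_mul, diagonal_transpose, Matrix.mul_assoc, ← Matrix.mul_assoc (diagonal _),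
    diagonal_mul_diagonal, ← Matrix.mul_assoc]
  conv_lhs => rw [hspec]
  congr 3
  funext i
  exact (Real.mul_self_sqrt (hd i)).symm

lemma cube_trace (S R : Mat n) : ((S * (R * Rᵀ)) ^ 3).trace = ((Rᵀ * S * R) ^ 3).trace := by
  have h1 : (S * (R * Rᵀ)) ^ 3 = (S * R * Rᵀ * S * R * Rᵀ * S * R) * Rᵀ := by
    simp only [pow_succ, pow_zero, Matrix.one_mul, Matrix.mul_assoc]
  have h2 : (Rᵀ * S * R) ^ 3 = Rᵀ * (S * R * Rᵀ * S * R * Rᵀ * S * R) := by
    simp only [pow_succ, pow_zero, Matrix.one_mul, Matrix.mul_assoc]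
  rw [h1, h2, trace_mul_comm]

lemma cube_eig {M : Mat n} (hM : M.PosSemidef) :
    ∃ d : Vec n, (∀ i, 0 ≤ d i) ∧ M.trace = ∑ i, d i ∧ (M ^ 3).trace = ∑ i, d i ^ 3 := by
  obtain ⟨U, d, hUU, hUU', hspec⟩ := diag_spectral hM.isHermitian
  refine ⟨d, ?_, ?_, ?_⟩
  · have h1 := cube_psd_iff hM U
    have h2 : Uᵀ * M * U = diagonal d := by
      rw [hspec]
      have : Uᵀ * (U * diagonal d * Uᵀ) * U = (Uᵀ * U) * diagonal d * (Uᵀ * U) := by
        simp only [Matrix.mul_assoc]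
      rw [this, hUU', Matrix.one_mul, Matrix.mul_one]
    rw [h2, posSemidef_diagonal_iff] at h1
    exact h1
  · rw [hspec, trace_mul_comm, ← Matrix.mul_assoc, hUU', Matrix.one_mul, trace_diagonal]
  · have h3 : M ^ 3 = U * diagonal (fun i => d i ^ 3) * Uᵀ := by
      have e : (U * diagonal d * Uᵀ) ^ 3 =
          U * (diagonal d * (Uᵀ * U) * diagonal d * (Uᵀ * U) * diagonal d) * Uᵀ := by
        simp only [pow_succ, pow_zero, Matrix.one_mul, Matrix.mul_assoc]
      rw [hspec, e, hUU', Matrix.mul_one, Matrix.mul_one, diagonal_mul_diagonal,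
        diagonal_mul_diagonal]
      congr 3
      funext i
      ring
    rw [h3, trace_mul_comm, ← Matrix.mul_assoc, hUU', Matrix.one_mul, trace_diagonal]

lemma cube_trace_pow {M : Mat n} (hM : M.PosSemidef) :
    M.trace ^ 3 / (n : ℝ) ^ 2 ≤ (M ^ 3).trace := by
  obtain ⟨d, hd, h1, h2⟩ := cube_eig hM
  have h3 := pow_sum_div_card_le_sum_pow (s := (Finset.univ : Finset (Fin n))) (f := d)
    (fun i _ => hd i) 2
  rw [Finset.card_univ, Fintype.card_fin] at h3
  rw [h1, h2]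
  exact h3

lemma cube_frame_psd {g : Mat n} {d : Vec n} (hd : ∀ i, 0 ≤ d i) :
    (g * diagonal d * gᵀ).PosSemidef := by
  have h1 : (diagonal d : Mat n).PosSemidef := posSemidef_diagonal_iff.2 hd
  have := cube_psd_iff h1 gᵀ
  rwa [transpose_transpose] at this

theorem Sf_posDef {p : ℝ → ℝ} (hpos : ∀ x ∈ Ioo (0 : ℝ) 1, 0 < p x) {A B : Mat n}
    (hA : A.PosDef) (hB : B.PosDef) (hAB : (A⁻¹ - B).PosDef) : (Sf p A B).PosDef := by
  have hBs : B.IsSymm := by
    have := hB.isHermitian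
    have h1 : Bᵀ = B := by simpa [IsHermitian] using this
    exact h1
  obtain ⟨g, b, h⟩ := exists_dg hA hBs
  rw [dg_Sf h]
  have hd : (diagonal (fun i => p (b i)) : Mat n).PosDef :=
    Matrix.PosDef.diagonal fun i => hpos _ ⟨dg_pos h hB i, dg_lt_one h hAB i⟩
  have hg : IsUnit g := (isUnit_iff_isUnit_det g).2 h.det
  have := hd.mul_mul_conjTranspose_same (B := g) (Matrix.vecMul_injective_of_isUnit hg)
  simpa [conjTranspose_eq_transpose_of_trivial] using this

theorem cube_nonneg {S P : Mat n} (hS : S.PosSemidef) (hP : P.PosSemidef) :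
    0 ≤ ((S * P) ^ 3).trace := by
  obtain ⟨R, rfl⟩ := cube_sqrt hP
  rw [cube_trace]
  exact ((cube_psd_iff hS R).pow 3).trace_nonneg

theorem cube_pos {S P : Mat n} (hS : S.PosDef) (hP : P.PosSemidef) (hP0 : P ≠ 0) :
    0 < ((S * P) ^ 3).trace := by
  obtain ⟨R, rfl⟩ := cube_sqrt hP
  rw [cube_trace]
  have hM := cube_psd_iff hS.posSemidef R
  refine lt_of_le_of_ne (hM.pow 3).trace_nonneg fun h0 => hP0 ?_
  obtain ⟨d, hd, h1, h2⟩ := cube_eig hM
  have h3 : ∀ i, d i = 0 := by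
    intro i
    have h4 : ∑ i, d i ^ 3 = 0 := by rw [← h2, ← h0]
    have h5 := (Finset.sum_eq_zero_iff_of_nonneg (fun i _ => pow_nonneg (hd i) 3)).1 h4 i
      (Finset.mem_univ i)
    exact pow_eq_zero_iff (by norm_num) |>.1 h5
  have h6 : (Rᵀ * S * R).trace = 0 := by rw [h1]; simp [h3]
  have h7 : Rᵀ * S * R = 0 := hM.trace_eq_zero_iff.1 h6
  have h8 : R = 0 := by
    ext i j
    by_contra hne
    have hv : (fun k => R k j) ≠ 0 := fun hz => hne (congrFun hz i)
    have h9 := hS.dotProduct_mulVec_pos hv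
    have h10 : (Rᵀ * S * R) j j = star (fun k => R k j) ⬝ᵥ (S *ᵥ fun k => R k j) := by
      rw [Matrix.mul_assoc, Matrix.mul_apply]
      simp only [transpose_apply, dotProduct, mulVec, Matrix.mul_apply, star_trivial]
    rw [← h10, h7] at h9
    simp at h9
  rw [h8, Matrix.zero_mul]

theorem cube_lower {A B g : Mat n} {b : Vec n} (h : Dg A B g b) {p : ℝ → ℝ} {p₀ : ℝ}
    (hp₀ : 0 < p₀) (hp : ∀ i, p₀ ≤ p (b i)) {P : Mat n} (hP : P.PosSemidef) :
    p₀ ^ 3 / (n : ℝ) ^ 2 * (A * P).trace ^ 3 ≤ ((Sf p A B * P) ^ 3).trace := by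
  obtain ⟨R, rfl⟩ := cube_sqrt hP
  rw [cube_trace]
  have hS : (Sf p A B).PosSemidef := by
    rw [dg_Sf h]
    exact cube_frame_psd fun i => hp₀.le.trans (hp i)
  have hM := cube_psd_iff hS R
  refine le_trans ?_ (cube_trace_pow hM)
  have h1 : (A * (R * Rᵀ)).trace = ∑ i, (gᵀ * (R * Rᵀ) * g) i i := by
    rw [h.hA, Matrix.mul_assoc, trace_mul_comm]
    rfl
  have h2 : (Rᵀ * Sf p A B * R).trace = ∑ i, p (b i) * (gᵀ * (R * Rᵀ) * g) i i := by
    rw [dg_Sf h]
    have e : (Rᵀ * (g * diagonal (fun i => p (b i)) * gᵀ) * R).trace =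
        (diagonal (fun i => p (b i)) * (gᵀ * (R * Rᵀ) * g)).trace := by
      have e1 : Rᵀ * (g * diagonal (fun i => p (b i)) * gᵀ) * R =
          (Rᵀ * g) * (diagonal (fun i => p (b i)) * gᵀ * R) := by
        simp only [Matrix.mul_assoc]
      rw [e1, trace_mul_comm]
      simp only [Matrix.mul_assoc]
    rw [e]
    simp only [trace, diag_apply, diagonal_mul]
  have hpsd : (gᵀ * (R * Rᵀ) * g).PosSemidef := cube_psd_iff hP g
  have h3 : p₀ * (A * (R * Rᵀ)).trace ≤ (Rᵀ * Sf p A B * R).trace := by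
    rw [h1, h2, Finset.mul_sum]
    exact Finset.sum_le_sum fun i _ => mul_le_mul_of_nonneg_right (hp i) hpsd.diag_nonneg
  have h4 : 0 ≤ (A * (R * Rᵀ)).trace := by
    rw [h1]
    exact Finset.sum_nonneg fun i _ => hpsd.diag_nonneg
  have h5 : (p₀ * (A * (R * Rᵀ)).trace) ^ 3 ≤ (Rᵀ * Sf p A B * R).trace ^ 3 :=
    pow_le_pow_left₀ (mul_nonneg hp₀.le h4) h3 3
  calc p₀ ^ 3 / (n : ℝ) ^ 2 * (A * (R * Rᵀ)).trace ^ 3
      = (p₀ * (A * (R * Rᵀ)).trace) ^ 3 / (n : ℝ) ^ 2 := by ring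
    _ ≤ _ := div_le_div_of_nonneg_right h5 (by positivity)

end Vale.Agent.P254.MP
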