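import Vale.Agent.P254.MP.Defs

/-!
P254, abstract maximum principle: Hermite interpolation of order two.
-/

namespace Vale.Agent.P254.MP

open Polynomial

theorem hermite_dvd {p : ℝ[X]} {y : ℝ} (n : ℕ) (h : (X - C y) ^ (n + 1) ∣ p) :
    (X - C y) ^ n ∣ derivative p := by
  have h1 := pow_sub_one_dvd_derivative_of_pow_dvd h
  rwa [Nat.add_sub_cancel] at h1

theorem hermite_vanish {p : ℝ[X]} {y : ℝ} (h : (X - C y) ^ 3 ∣ p) :
    p.eval y = 0 ∧ p.derivative.eval y = 0 ∧ p.derivative.derivative.eval y = 0 := by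
  have h1 : (X - C y) ^ 2 ∣ derivative p := hermite_dvd 2 h
  have h2 : (X - C y) ^ 1 ∣ derivative (derivative p) := hermite_dvd 1 h1
  have h3 : ∀ (q : ℝ[X]) (k : ℕ), k ≠ 0 → (X - C y) ^ k ∣ q → q.eval y = 0 := by
    rintro q k hk ⟨r, rfl⟩
    simp [hk]
  exact ⟨h3 _ 3 (by norm_num) h, h3 _ 2 (by norm_num) h1, h3 _ 1 (by norm_num) h2⟩

theorem hermite_exists (s : Finset ℝ) (v0 v1 v2 : ℝ → ℝ) : ∃ q : ℝ[X], ∀ x ∈ s,
    q.eval x = v0 x ∧ q.derivative.eval x = v1 x ∧ q.derivative.derivative.eval x = v2 x := by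
  classical
  induction s using Finset.induction_on with
  | empty => exact ⟨0, fun x hx => absurd hx (Finset.notMem_empty x)⟩
  | insert x s hx ih =>
    obtain ⟨q, hq⟩ := ih
    set r : ℝ[X] := ∏ y ∈ s, (X - C y) ^ 3 with hr
    have hrx : r.eval x ≠ 0 := by
      rw [hr, eval_prod, Finset.prod_ne_zero_iff]
      intro y hy
      simp only [eval_pow, eval_sub, eval_X, eval_C]
      exact pow_ne_zero _ (sub_ne_zero.2 fun h => hx (h ▸ hy))
    set a : ℝ := (v0 x - q.eval x) / r.eval x with ha
    set b : ℝ := (v1 x - q.derivative.eval x - r.derivative.eval x * a) / r.eval x with hb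
    set c : ℝ := (v2 x - q.derivative.derivative.eval x - r.derivative.derivative.eval x * a
      - 2 * r.derivative.eval x * b) / (2 * r.eval x) with hc
    refine ⟨q + r * (C a + C b * (X - C x) + C c * (X - C x) ^ 2), fun y hy => ?_⟩
    rcases Finset.mem_insert.1 hy with rfl | hy
    · simp only [derivative_add, derivative_mul, derivative_sub, derivative_X, derivative_C,
        derivative_pow, eval_add, eval_mul, eval_sub, eval_X, eval_C, eval_pow, eval_one,
        eval_zero, derivative_one, derivative_zero]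
      have ha' : a * r.eval y = v0 y - q.eval y := by rw [ha, div_mul_cancel₀ _ hrx]
      have hb' : b * r.eval y = v1 y - q.derivative.eval y - r.derivative.eval y * a := by
        rw [hb, div_mul_cancel₀ _ hrx]
      have hc' : c * (2 * r.eval y) = v2 y - q.derivative.derivative.eval y -
          r.derivative.derivative.eval y * a - 2 * r.derivative.eval y * b := by
        rw [hc, div_mul_cancel₀ _ (mul_ne_zero two_ne_zero hrx)]
      refine ⟨?_, ?_, ?_⟩
      · linear_combination ha'
      · norm_num
        linear_combination hb'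
      · norm_num
        linear_combination hc'
    · have hd : (X - C y) ^ 3 ∣ r * (C a + C b * (X - C x) + C c * (X - C x) ^ 2) := by
        refine Dvd.dvd.mul_right ?_ _
        rw [hr]
        exact Finset.dvd_prod_of_mem (fun y => (X - C y) ^ 3) hy
      obtain ⟨h0, h1, h2⟩ := hermite_vanish hd
      obtain ⟨g0, g1, g2⟩ := hq y hy
      refine ⟨?_, ?_, ?_⟩
      · rw [eval_add, h0, g0, add_zero]
      · rw [derivative_add, eval_add, h1, g1, add_zero]
      · rw [derivative_add, derivative_add, eval_add, h2, g2, add_zero]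

theorem exists_her (p : ℝ → ℝ) (s : Finset ℝ) : ∃ q : ℝ[X], ∀ x ∈ s, Her p q x :=
  hermite_exists s p (deriv p) (deriv (deriv p))

end Vale.Agent.P254.MP
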