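import Vale.Agent.P254.MP.Defs

/-!
P254, abstract maximum principle, G6: the second order expansions along `c`, the time derivative
along `(Q, Q mu)` and the cancellation (helper987).
-/

namespace Vale.Agent.P254.MP

open Matrix Set Filter Topology Asymptotics Polynomial
open Vale.Agent.P254.L

variable {n : ℕ}

/-- the state space `(A, B, T, P)` -/
abbrev ItoE (n : ℕ) := (Fin n → Fin n → ℝ) × (Fin n → Fin n → ℝ) ×
  (Fin n → Fin n → Fin n → ℝ) × (Fin n → Fin n → ℝ)

/-- `FF` as a function on the state space -/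
noncomputable def itoF (q : ℝ[X]) (μ : ℝ) (x : ItoE n) : ℝ :=
  FF q μ (Matrix.of x.1) (Matrix.of x.2.1) x.2.2.1 (Matrix.of x.2.2.2)

/-- constructor of states -/
def itoMk (A B : Mat n) (T : Ten n) (P : Mat n) : ItoE n :=
  (fun i j => A i j, fun i j => B i j, fun i j k => T i j k, fun i j => P i j)

theorem itoF_mk (q : ℝ[X]) (μ : ℝ) (A B : Mat n) (T : Ten n) (P : Mat n) :
    itoF q μ (itoMk A B T P) = FF q μ A B T P := rfl

theorem itoMk_add (A B : Mat n) (T : Ten n) (P : Mat n) (A' B' : Mat n) (T' : Ten n)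
    (P' : Mat n) : itoMk A B T P + itoMk A' B' T' P'
      = itoMk (A + A') (B + B') (T + T') (P + P') := rfl

theorem itoMk_smul (τ : ℝ) (A B : Mat n) (T : Ten n) (P : Mat n) :
    τ • itoMk A B T P = itoMk (τ • A) (τ • B) (τ • T) (τ • P) := rfl

/-- the entries are twice continuously differentiable -/
def ItoCD (f : ItoE n → Mat n) : Prop := ∀ i j, ContDiff ℝ 2 fun x => f x i j

theorem ItoCD.mul {f g : ItoE n → Mat n} (hf : ItoCD f) (hg : ItoCD g) :
    ItoCD fun x => f x * g x := by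
  intro i j
  simp only [Matrix.mul_apply]
  exact ContDiff.sum fun k _ => (hf i k).mul (hg k j)

theorem ItoCD.one : ItoCD fun _ : ItoE n => (1 : Mat n) := fun _ _ => contDiff_const

theorem ItoCD.pow {f : ItoE n → Mat n} (hf : ItoCD f) (k : ℕ) : ItoCD fun x => f x ^ k := by
  induction k with
  | zero => simpa using ItoCD.one
  | succ k ih => simp only [pow_succ]; exact ih.mul hf

theorem ItoCD.aeval {f : ItoE n → Mat n} (hf : ItoCD f) (q : ℝ[X]) :
    ItoCD fun x => Polynomial.aeval (f x) q := by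
  intro i j
  simp only [Polynomial.aeval_eq_sum_range, Matrix.sum_apply, Matrix.smul_apply, smul_eq_mul]
  exact ContDiff.sum fun k _ => contDiff_const.mul ((hf.pow k) i j)

theorem ItoCD.trace {f : ItoE n → Mat n} (hf : ItoCD f) :
    ContDiff ℝ 2 fun x => (f x).trace := by
  simp only [Matrix.trace, Matrix.diag]
  exact ContDiff.sum fun k _ => hf k k

theorem itoCD_A : ItoCD fun x : ItoE n => (Matrix.of x.1 : Mat n) := by
  intro i j
  simp only [Matrix.of_apply]
  fun_prop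

theorem itoCD_B : ItoCD fun x : ItoE n => (Matrix.of x.2.1 : Mat n) := by
  intro i j
  simp only [Matrix.of_apply]
  fun_prop

theorem itoCD_P : ItoCD fun x : ItoE n => (Matrix.of x.2.2.2 : Mat n) := by
  intro i j
  simp only [Matrix.of_apply]
  fun_prop

theorem ito_contDiff (q : ℝ[X]) (μ : ℝ) : ContDiff ℝ 2 (itoF q μ : ItoE n → ℝ) := by
  have h1 : ContDiff ℝ 2 fun x : ItoE n => NN (Matrix.of x.2.2.2) x.2.2.1 x.2.2.1 := by
    unfold NN N3
    refine ContDiff.sum fun a _ => ContDiff.sum fun b _ => ContDiff.sum fun c _ =>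
      ContDiff.sum fun a' _ => ContDiff.sum fun b' _ => ContDiff.sum fun c' _ => ?_
    have hP := fun i j => itoCD_P (n := n) i j
    have hT : ∀ i j k, ContDiff ℝ 2 fun x : ItoE n => x.2.2.1 i j k := by
      intro i j k; fun_prop
    exact ((((hP a a').mul (hP b b')).mul (hP c c')).mul (hT a b c)).mul (hT a' b' c')
  have h2 : ContDiff ℝ 2 fun x : ItoE n =>
      ((SQ q (Matrix.of x.1) (Matrix.of x.2.1) * Matrix.of x.2.2.2) ^ 3).trace := by
    unfold SQ
    exact (((itoCD_A.mul ((itoCD_B.mul itoCD_A).aeval q)).mul itoCD_P).pow 3).trace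
  exact h1.sub (contDiff_const.mul h2)

/-- second order Taylor expansion with Peano remainder -/
theorem ito_taylor {G G' : ℝ → ℝ} {G'' : ℝ} (h : ∀ t, HasDerivAt G (G' t) t)
    (h2 : HasDerivAt G' G'' 0) :
    (fun τ : ℝ => G τ - (G 0 + τ * G' 0 + τ ^ 2 * (1 / 2 * G''))) =o[𝓝 0] fun τ => τ ^ 2 := by
  rw [isLittleO_iff]
  intro ε hε
  have h3 := (hasDerivAt_iff_isLittleO.1 h2)
  rw [isLittleO_iff] at h3
  obtain ⟨δ, hδ, hδ'⟩ := Metric.eventually_nhds_iff.1 (h3 hε)
  refine Metric.eventually_nhds_iff.2 ⟨δ, hδ, fun τ hτ => ?_⟩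
  have hτ' : |τ| < δ := by simpa [Real.dist_eq] using hτ
  let H : ℝ → ℝ := fun t => G t - (G 0 + t * G' 0 + t ^ 2 * (1 / 2 * G''))
  have hH : ∀ t, HasDerivAt H (G' t - (G' 0 + t * G'')) t := by
    intro t
    have e1 : HasDerivAt (fun t : ℝ => G 0 + t * G' 0 + t ^ 2 * (1 / 2 * G''))
        (1 * G' 0 + (2 * t) * (1 / 2 * G'')) t := by
      have e2 : HasDerivAt (fun t : ℝ => t ^ 2) (2 * t) t := by
        simpa using hasDerivAt_pow 2 t
      exact (((hasDerivAt_id t).mul_const (G' 0)).const_add (G 0)).add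
        (e2.mul_const (1 / 2 * G''))
    refine ((h t).sub e1).congr_deriv ?_
    ring
  have key := Convex.norm_image_sub_le_of_norm_hasDerivWithin_le (f := H)
    (f' := fun t => G' t - (G' 0 + t * G'')) (s := uIcc 0 τ) (x := 0) (y := τ) (C := ε * |τ|)
    (fun t _ => (hH t).hasDerivWithinAt) (fun t ht => ?_) (convex_uIcc 0 τ)
    left_mem_uIcc right_mem_uIcc
  · have e0 : H 0 = 0 := by simp [H]
    rw [e0] at key
    simp only [sub_zero] at key
    refine key.trans (le_of_eq ?_)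
    rw [Real.norm_eq_abs, Real.norm_eq_abs, abs_pow, sq, mul_assoc]
  · have ht' : |t| ≤ |τ| := by
      have := abs_sub_left_of_mem_uIcc ht
      simpa using this
    have h4 := hδ' (show dist t 0 < δ by simpa [Real.dist_eq] using ht'.trans_lt hτ')
    have e5 : G' t - G' 0 - (t - 0) • G'' = G' t - (G' 0 + t * G'') := by
      simp only [smul_eq_mul]; ring
    rw [e5] at h4
    refine h4.trans ?_
    simp only [sub_zero, Real.norm_eq_abs]
    exact mul_le_mul_of_nonneg_left ht' hε.le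

section chain

variable {E : Type*} [NormedAddCommGroup E] [NormedSpace ℝ E]

theorem ito_first {F : E → ℝ} (hF : ContDiff ℝ 2 F) {x x' : ℝ → E}
    (hx : ∀ t, HasDerivAt x (x' t) t) (t : ℝ) :
    HasDerivAt (fun τ => F (x τ)) (fderiv ℝ F (x t) (x' t)) t := by
  have h1 : HasFDerivAt F (fderiv ℝ F (x t)) (x t) :=
    (hF.differentiable (by norm_num) (x t)).hasFDerivAt
  exact h1.comp_hasDerivAt t (hx t)

theorem ito_second {F : E → ℝ} (hF : ContDiff ℝ 2 F) {x x' : ℝ → E} {x'' : E}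
    (hx : ∀ t, HasDerivAt x (x' t) t) (hx' : HasDerivAt x' x'' 0) :
    HasDerivAt (fun τ => fderiv ℝ F (x τ) (x' τ))
      (fderiv ℝ (fderiv ℝ F) (x 0) (x' 0) (x' 0) + fderiv ℝ F (x 0) x'') 0 := by
  have h2 : ContDiff ℝ 1 (fderiv ℝ F) := hF.fderiv_right (by norm_num)
  have h1 : HasFDerivAt (fderiv ℝ F) (fderiv ℝ (fderiv ℝ F) (x 0)) (x 0) :=
    (h2.differentiable (by norm_num) (x 0)).hasFDerivAt
  exact (h1.comp_hasDerivAt 0 (hx 0)).clm_apply hx'

theorem ito_curve {F : E → ℝ} (hF : ContDiff ℝ 2 F) {x x' : ℝ → E} {x'' : E}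
    (hx : ∀ t, HasDerivAt x (x' t) t) (hx' : HasDerivAt x' x'' 0) :
    (fun τ : ℝ => F (x τ) - (F (x 0) + τ * fderiv ℝ F (x 0) (x' 0) + τ ^ 2 * (1 / 2 *
      (fderiv ℝ (fderiv ℝ F) (x 0) (x' 0) (x' 0) + fderiv ℝ F (x 0) x'')))) =o[𝓝 0]
      fun τ => τ ^ 2 :=
  ito_taylor (G := fun τ => F (x τ)) (G' := fun τ => fderiv ℝ F (x τ) (x' τ))
    (ito_first hF hx) (ito_second hF hx hx')

theorem ito_line (x v : E) (t : ℝ) : HasDerivAt (fun τ : ℝ => x + τ • v) v t := by
  simpa using ((hasDerivAt_id t).smul_const v).const_add x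

theorem ito_deriv_line {F : E → ℝ} (hF : ContDiff ℝ 2 F) (x v : E) :
    deriv (fun τ : ℝ => F (x + τ • v)) 0 = fderiv ℝ F x v := by
  have h := (ito_first hF (x := fun τ => x + τ • v) (x' := fun _ => v) (ito_line x v) 0).deriv
  simpa using h

theorem ito_deriv2_line {F : E → ℝ} (hF : ContDiff ℝ 2 F) (x v : E) :
    deriv (deriv fun τ : ℝ => F (x + τ • v)) 0 = fderiv ℝ (fderiv ℝ F) x v v := by
  have h1 : (deriv fun τ : ℝ => F (x + τ • v)) = fun τ => fderiv ℝ F (x + τ • v) v :=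
    funext fun t => (ito_first hF (x := fun τ => x + τ • v) (x' := fun _ => v)
      (ito_line x v) t).deriv
  rw [h1]
  have h := (ito_second hF (x := fun τ => x + τ • v) (x' := fun _ => v) (x'' := 0)
    (ito_line x v) (hasDerivAt_const 0 v)).deriv
  simpa using h

end chain

/-! #### the derivative in `P` -/

theorem ito_N3_swap12 {T : Ten n} (hT : TSymm T) (P₁ P₂ P₃ : Mat n) :
    N3 P₁ P₂ P₃ T T = N3 P₂ P₁ P₃ T T := by
  unfold N3
  rw [Finset.sum_comm]
  refine Finset.sum_congr rfl fun b _ => Finset.sum_congr rfl fun a _ =>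
    Finset.sum_congr rfl fun c _ => ?_
  rw [Finset.sum_comm]
  refine Finset.sum_congr rfl fun b' _ => Finset.sum_congr rfl fun a' _ =>
    Finset.sum_congr rfl fun c' _ => ?_
  rw [hT.1 a b c, hT.1 a' b' c']
  ring

theorem ito_N3_swap23 {T : Ten n} (hT : TSymm T) (P₁ P₂ P₃ : Mat n) :
    N3 P₁ P₂ P₃ T T = N3 P₁ P₃ P₂ T T := by
  unfold N3
  refine Finset.sum_congr rfl fun a _ => ?_
  rw [Finset.sum_comm]
  refine Finset.sum_congr rfl fun c _ => Finset.sum_congr rfl fun b _ =>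
    Finset.sum_congr rfl fun a' _ => ?_
  rw [Finset.sum_comm]
  refine Finset.sum_congr rfl fun c' _ => Finset.sum_congr rfl fun b' _ => ?_
  rw [hT.2 a b c, hT.2 a' b' c']
  ring

theorem ito_NN_expand (P X : Mat n) (T : Ten n) (τ : ℝ) :
    NN (P + τ • X) T T = NN P T T + τ * (N3 X P P T T + N3 P X P T T + N3 P P X T T)
      + τ ^ 2 * (N3 X X P T T + N3 X P X T T + N3 P X X T T) + τ ^ 3 * NN X T T := by
  simp only [NN, N3, Finset.mul_sum, ← Finset.sum_add_distrib]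
  refine Finset.sum_congr rfl fun a _ => Finset.sum_congr rfl fun b _ =>
    Finset.sum_congr rfl fun c _ => Finset.sum_congr rfl fun a' _ =>
    Finset.sum_congr rfl fun b' _ => Finset.sum_congr rfl fun c' _ => ?_
  simp only [Matrix.add_apply, Matrix.smul_apply, smul_eq_mul]
  ring

theorem ito_cube_expand (U V : Mat n) (τ : ℝ) :
    ((U + τ • V) ^ 3).trace = (U ^ 3).trace + τ * (3 * (U * U * V).trace)
      + τ ^ 2 * (3 * (U * V * V).trace) + τ ^ 3 * (V ^ 3).trace := by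
  have h : (U + τ • V) ^ 3 = U ^ 3 + τ • (U * U * V + U * V * U + V * U * U)
      + τ ^ 2 • (U * V * V + V * U * V + V * V * U) + τ ^ 3 • V ^ 3 := by
    simp only [pow_succ, pow_zero, one_mul, add_mul, mul_add, smul_mul_assoc, mul_smul_comm,
      smul_add, smul_smul]
    module
  have e1 : (U * V * U).trace = (U * U * V).trace := by
    rw [Matrix.trace_mul_comm, ← Matrix.mul_assoc]
  have e2 : (V * U * U).trace = (U * U * V).trace := by
    rw [Matrix.mul_assoc, Matrix.trace_mul_comm]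
  have e3 : (V * U * V).trace = (U * V * V).trace := by
    rw [Matrix.mul_assoc, Matrix.trace_mul_comm]
  have e4 : (V * V * U).trace = (U * V * V).trace := by
    rw [Matrix.trace_mul_comm, ← Matrix.mul_assoc]
  rw [h]
  simp only [Matrix.trace_add, Matrix.trace_smul, smul_eq_mul, e1, e2, e3, e4]
  ring

theorem ito_poly_deriv (a b c d : ℝ) :
    deriv (fun τ : ℝ => a + τ * b + τ ^ 2 * c + τ ^ 3 * d) 0 = b := by
  have e2 : HasDerivAt (fun t : ℝ => t ^ 2) (2 * (0 : ℝ)) 0 := by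
    simpa using hasDerivAt_pow 2 (0 : ℝ)
  have e3 : HasDerivAt (fun t : ℝ => t ^ 3) (3 * (0 : ℝ) ^ 2) 0 := by
    simpa using hasDerivAt_pow 3 (0 : ℝ)
  have h := ((((hasDerivAt_id (0 : ℝ)).mul_const b).const_add a).add (e2.mul_const c)).add
    (e3.mul_const d)
  have h' := h.deriv
  simp only [mul_zero, zero_mul, add_zero, one_mul, ne_eq, OfNat.ofNat_ne_zero,
    not_false_eq_true, zero_pow] at h'
  exact h'

theorem ito_fderiv_P (q : ℝ[X]) (μ : ℝ) (A B : Mat n) {T : Ten n} (hT : TSymm T)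
    (P X : Mat n) :
    fderiv ℝ (itoF q μ) (itoMk A B T P) (itoMk 0 0 0 X)
      = 3 * (N3 X P P T T - μ * (X * (SQ q A B * P * SQ q A B * P * SQ q A B)).trace) := by
  rw [← ito_deriv_line (ito_contDiff q μ)]
  have h : (fun τ : ℝ => itoF q μ (itoMk A B T P + τ • itoMk 0 0 0 X))
      = fun τ : ℝ => (NN P T T - μ * ((SQ q A B * P) ^ 3).trace)
        + τ * (3 * (N3 X P P T T - μ * (X * (SQ q A B * P * SQ q A B * P * SQ q A B)).trace))
        + τ ^ 2 * ((N3 X X P T T + N3 X P X T T + N3 P X X T T)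
          - μ * (3 * (SQ q A B * P * (SQ q A B * X) * (SQ q A B * X)).trace))
        + τ ^ 3 * (NN X T T - μ * ((SQ q A B * X) ^ 3).trace) := by
    funext τ
    have e1 : itoF q μ (itoMk A B T P + τ • itoMk 0 0 0 X)
        = NN (P + τ • X) T T - μ * ((SQ q A B * (P + τ • X)) ^ 3).trace := by
      rw [itoMk_smul, itoMk_add, itoF_mk]
      simp only [smul_zero, add_zero, FF]
    rw [e1, ito_NN_expand, Matrix.mul_add, Matrix.mul_smul, ito_cube_expand]
    have s1 : N3 P X P T T = N3 X P P T T := ito_N3_swap12 hT _ _ _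
    have s2 : N3 P P X T T = N3 X P P T T := (ito_N3_swap23 hT _ _ _).trans s1
    have s3 : (SQ q A B * P * (SQ q A B * P) * (SQ q A B * X)).trace
        = (X * (SQ q A B * P * SQ q A B * P * SQ q A B)).trace := by
      rw [Matrix.trace_mul_comm X]
      simp only [Matrix.mul_assoc]
    rw [s1, s2, s3]
    ring
  rw [h, ito_poly_deriv]

theorem ito_expand (P L : Mat n) (τ : ℝ) :
    (1 + τ • L) * P * (1 + τ • L)ᵀ = P + τ • (L * P + P * Lᵀ) + τ ^ 2 • (L * P * Lᵀ) := by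
  simp only [Matrix.transpose_add, Matrix.transpose_one, Matrix.transpose_smul, Matrix.add_mul,
    Matrix.mul_add, Matrix.one_mul, Matrix.mul_one, Matrix.smul_mul, Matrix.mul_smul, smul_add,
    smul_smul]
  module

/-! #### the curves -/

/-- contraction of the last two slots of a 4-tensor -/
def itoK2 (K : Ten4 n) (Q : Mat n) : Mat n := Matrix.of fun i j => ∑ k, ∑ l, Q k l * K i j k l

/-- contraction of the last two slots of a 5-tensor -/
def itoR2 (R : Fin n → Ten4 n) (Q : Mat n) : Ten n := fun i j k =>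
  ∑ l, ∑ r, Q l r * R i j k l r

/-- `e eᵀ` -/
def itoEE (e : Vec n) : Mat n := Matrix.of fun k l => e l * e k

/-- the curve `τ ↦ (A(c + τ e), B, T(c + τ e), (1 + τ L) P (1 + τ L)ᵀ)` -/
def itoX (D : TiltData n) (B : Mat n) (c e : Vec n) (P L : Mat n) (τ : ℝ) : ItoE n :=
  itoMk (D.A B (c + τ • e)) B (D.T B (c + τ • e))
    (P + τ • (L * P + P * Lᵀ) + τ ^ 2 • (L * P * Lᵀ))

/-- its derivative -/
def itoX' (D : TiltData n) (B : Mat n) (c e : Vec n) (P L : Mat n) (τ : ℝ) : ItoE n :=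
  itoMk (c3 (D.T B (c + τ • e)) e) 0 (c4 (D.K B (c + τ • e)) e)
    ((L * P + P * Lᵀ) + (2 * τ) • (L * P * Lᵀ))

theorem itoX_deriv (D : TiltData n) {B : Mat n} (hB : B.PosSemidef) (c e : Vec n)
    (P L : Mat n) (t : ℝ) : HasDerivAt (itoX D B c e P L) (itoX' D B c e P L t) t := by
  have e2 : HasDerivAt (fun t : ℝ => t ^ 2) (2 * t) t := by
    simpa using hasDerivAt_pow 2 t
  refine HasDerivAt.prodMk ?_ (HasDerivAt.prodMk ?_ (HasDerivAt.prodMk ?_ ?_))
  · exact hasDerivAt_pi.2 fun i => hasDerivAt_pi.2 fun j => D.dA B hB c e i j t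
  · exact hasDerivAt_const t _
  · exact hasDerivAt_pi.2 fun i => hasDerivAt_pi.2 fun j => hasDerivAt_pi.2 fun k =>
      D.dT B hB c e i j k t
  · refine hasDerivAt_pi.2 fun i => hasDerivAt_pi.2 fun j => ?_
    have h := (((hasDerivAt_id t).mul_const ((L * P + P * Lᵀ) i j)).const_add (P i j)).add
      (e2.mul_const ((L * P * Lᵀ) i j))
    simp only [one_mul] at h
    exact h

theorem itoX'_deriv (D : TiltData n) {B : Mat n} (hB : B.PosSemidef) (c e : Vec n)
    (P L : Mat n) : HasDerivAt (itoX' D B c e P L)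
      (itoMk (itoK2 (D.K B c) (itoEE e)) 0 (itoR2 (D.R B c) (itoEE e))
        ((2 : ℝ) • (L * P * Lᵀ))) 0 := by
  refine HasDerivAt.prodMk ?_ (HasDerivAt.prodMk ?_ (HasDerivAt.prodMk ?_ ?_))
  · refine hasDerivAt_pi.2 fun i => hasDerivAt_pi.2 fun j => ?_
    have h : HasDerivAt (fun τ : ℝ => ∑ k, e k * D.T B (c + τ • e) i j k)
        (∑ k, e k * ∑ l, e l * D.K B (c + (0 : ℝ) • e) i j k l) 0 :=
      HasDerivAt.fun_sum fun k _ => (D.dT B hB c e i j k 0).const_mul (e k)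
    refine h.congr_deriv ?_
    simp only [itoK2, itoEE, Matrix.of_apply, zero_smul, add_zero, Finset.mul_sum]
    refine Finset.sum_congr rfl fun k _ => Finset.sum_congr rfl fun l _ => ?_
    ring
  · exact hasDerivAt_const 0 _
  · refine hasDerivAt_pi.2 fun i => hasDerivAt_pi.2 fun j => hasDerivAt_pi.2 fun k => ?_
    have h : HasDerivAt (fun τ : ℝ => ∑ l, e l * D.K B (c + τ • e) i j k l)
        (∑ l, e l * ∑ r, e r * D.R B (c + (0 : ℝ) • e) i j k l r) 0 :=
      HasDerivAt.fun_sum fun l _ => (D.dK B hB c e i j k l 0).const_mul (e l)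
    refine h.congr_deriv ?_
    simp only [itoR2, itoEE, Matrix.of_apply, zero_smul, add_zero, Finset.mul_sum]
    refine Finset.sum_congr rfl fun l _ => Finset.sum_congr rfl fun r _ => ?_
    ring
  · refine hasDerivAt_pi.2 fun i => hasDerivAt_pi.2 fun j => ?_
    have h := ((((hasDerivAt_id (0 : ℝ)).const_mul 2)).mul_const
      ((L * P * Lᵀ) i j)).const_add ((L * P + P * Lᵀ) i j)
    simp only [mul_one] at h
    exact h

/-- the curve in time -/
def itoY (D : TiltData n) (B : Mat n) (c : Vec n) (P Q : Mat n) (t : ℝ) : ItoE n :=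
  itoMk (D.A (B + t • Q) (c + t • (Q *ᵥ D.mu B c))) (B + t • Q)
    (D.T (B + t • Q) (c + t • (Q *ᵥ D.mu B c))) P

theorem itoY_deriv (D : TiltData n) {B : Mat n} (hB : B.PosSemidef) (c : Vec n)
    (P : Mat n) {Q : Mat n} (hQ : Q.PosSemidef) : HasDerivWithinAt (itoY D B c P Q)
      (itoMk (-(D.A B c * Q * D.A B c)) Q (-aq (D.A B c) Q (D.T B c)) 0
        + (-(1 / 2) : ℝ) • itoMk (itoK2 (D.K B c) Q) 0 (itoR2 (D.R B c) Q) 0) (Ici 0) 0 := by
  refine HasDerivWithinAt.prodMk ?_ (HasDerivWithinAt.prodMk ?_ (HasDerivWithinAt.prodMk ?_ ?_))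
  · refine hasDerivWithinAt_pi.2 fun i => hasDerivWithinAt_pi.2 fun j => ?_
    refine (D.fA B hB c Q hQ i j).congr_deriv ?_
    simp only [itoMk, itoK2, Matrix.of_apply, Matrix.neg_apply, Prod.smul_fst, Pi.add_apply,
      Pi.smul_apply, smul_eq_mul]
    ring
  · refine hasDerivWithinAt_pi.2 fun i => hasDerivWithinAt_pi.2 fun j => ?_
    have h := (((hasDerivAt_id (0 : ℝ)).mul_const (Q i j)).const_add (B i j)).hasDerivWithinAt
      (s := Ici 0)
    refine h.congr_deriv ?_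
    simp [itoMk]
  · refine hasDerivWithinAt_pi.2 fun i => hasDerivWithinAt_pi.2 fun j =>
      hasDerivWithinAt_pi.2 fun k => ?_
    refine (D.fT B hB c Q hQ i j k).congr_deriv ?_
    simp only [itoMk, itoR2, aq, Prod.smul_fst, Prod.smul_snd, Pi.add_apply,
      Pi.smul_apply, Pi.neg_apply, smul_eq_mul]
    ring
  · refine (hasDerivWithinAt_const (0 : ℝ) (Ici 0) _).congr_deriv ?_
    ext i j
    simp [itoMk]

/-! #### assembly -/

theorem itoX_zero (D : TiltData n) (B : Mat n) (c e : Vec n) (P L : Mat n) :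
    itoX D B c e P L 0 = itoMk (D.A B c) B (D.T B c) P := by
  simp [itoX]

theorem itoX'_zero (D : TiltData n) (B : Mat n) (c e : Vec n) (P L : Mat n) :
    itoX' D B c e P L 0 = itoMk (c3 (D.T B c) e) 0 (c4 (D.K B c) e) (L * P + P * Lᵀ) := by
  simp [itoX']

theorem itoY_zero (D : TiltData n) (B : Mat n) (c : Vec n) (P Q : Mat n) :
    itoY D B c P Q 0 = itoMk (D.A B c) B (D.T B c) P := by
  simp [itoY]

theorem itoF_X (q : ℝ[X]) (μ : ℝ) (D : TiltData n) (B : Mat n) (c e : Vec n) (P L : Mat n)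
    (τ : ℝ) : itoF q μ (itoX D B c e P L τ)
      = FF q μ (D.A B (c + τ • e)) B (D.T B (c + τ • e)) ((1 + τ • L) * P * (1 + τ • L)ᵀ) := by
  rw [ito_expand]
  exact itoF_mk _ _ _ _ _ _

theorem ito_quad_eq (q : ℝ[X]) (μ : ℝ) (A B : Mat n) (T : Ten n) (P : Mat n) (K : Ten4 n)
    (e : Vec n) (X : Mat n) : quad q μ A B T P K e X =
      fderiv ℝ (fderiv ℝ (itoF q μ)) (itoMk A B T P) (itoMk (c3 T e) 0 (c4 K e) X)
        (itoMk (c3 T e) 0 (c4 K e) X) := by
  have h : (fun τ : ℝ => FF q μ (A + τ • c3 T e) B (T + τ • c4 K e) (P + τ • X))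
      = fun τ : ℝ => itoF q μ (itoMk A B T P + τ • itoMk (c3 T e) 0 (c4 K e) X) := by
    funext τ
    rw [itoMk_smul, itoMk_add, itoF_mk, smul_zero, add_zero]
  rw [quad, h, ito_deriv2_line (ito_contDiff q μ)]

theorem ito_first_eq (q : ℝ[X]) (μ : ℝ) (A B : Mat n) (T : Ten n) (P : Mat n) (K : Ten4 n)
    (e : Vec n) (X : Mat n) :
    deriv (fun τ : ℝ => FF q μ (A + τ • c3 T e) B (T + τ • c4 K e) (P + τ • X)) 0 =
      fderiv ℝ (itoF q μ) (itoMk A B T P) (itoMk (c3 T e) 0 (c4 K e) X) := by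
  have h : (fun τ : ℝ => FF q μ (A + τ • c3 T e) B (T + τ • c4 K e) (P + τ • X))
      = fun τ : ℝ => itoF q μ (itoMk A B T P + τ • itoMk (c3 T e) 0 (c4 K e) X) := by
    funext τ
    rw [itoMk_smul, itoMk_add, itoF_mk, smul_zero, add_zero]
  rw [h, ito_deriv_line (ito_contDiff q μ)]

theorem ito_lin_eq (q : ℝ[X]) (μ : ℝ) (A B : Mat n) (T : Ten n) (P Q : Mat n) :
    lin q μ A B T P Q =
      fderiv ℝ (itoF q μ) (itoMk A B T P) (itoMk (-(A * Q * A)) Q (-aq A Q T) 0) := by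
  have h : (fun t : ℝ => FF q μ (A - t • (A * Q * A)) (B + t • Q) (T - t • aq A Q T) P)
      = fun t : ℝ => itoF q μ (itoMk A B T P + t • itoMk (-(A * Q * A)) Q (-aq A Q T) 0) := by
    funext τ
    rw [itoMk_smul, itoMk_add, itoF_mk, smul_zero, add_zero, smul_neg, smul_neg,
      ← sub_eq_add_neg, ← sub_eq_add_neg]
  rw [lin, h, ito_deriv_line (ito_contDiff q μ)]

theorem ito_sum_EE (g : Mat n) : ∑ k, itoEE (fun i => g i k) = g * gᵀ := by
  ext i j
  simp only [Matrix.sum_apply, itoEE, Matrix.of_apply, Matrix.mul_apply, Matrix.transpose_apply]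
  exact Finset.sum_congr rfl fun k _ => mul_comm _ _

theorem itoK2_add (K : Ten4 n) (Q Q' : Mat n) : itoK2 K (Q + Q') = itoK2 K Q + itoK2 K Q' := by
  ext i j
  simp only [itoK2, Matrix.of_apply, Matrix.add_apply, ← Finset.sum_add_distrib, add_mul]

theorem itoK2_zero (K : Ten4 n) : itoK2 K 0 = 0 := by
  ext i j
  simp [itoK2]

theorem itoR2_add (R : Fin n → Ten4 n) (Q Q' : Mat n) :
    itoR2 R (Q + Q') = itoR2 R Q + itoR2 R Q' := by
  funext i j k
  simp only [itoR2, Matrix.add_apply, Pi.add_apply, ← Finset.sum_add_distrib, add_mul]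

theorem itoR2_zero (R : Fin n → Ten4 n) : itoR2 R (0 : Mat n) = 0 := by
  funext i j k
  simp [itoR2]

theorem ito_sum_w (K : Ten4 n) (R : Fin n → Ten4 n) {ι : Type*} (s : Finset ι)
    (Q : ι → Mat n) : ∑ k ∈ s, itoMk (itoK2 K (Q k)) 0 (itoR2 R (Q k)) 0
      = itoMk (itoK2 K (∑ k ∈ s, Q k)) 0 (itoR2 R (∑ k ∈ s, Q k)) 0 := by
  classical
  induction s using Finset.induction_on with
  | empty => simp only [Finset.sum_empty, itoK2_zero, itoR2_zero]; rfl
  | insert a s ha ih =>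
    rw [Finset.sum_insert ha, Finset.sum_insert ha, ih, itoMk_add, itoK2_add, itoR2_add,
      add_zero]

theorem ito (D : TiltData n) (q : ℝ[X]) (μ : ℝ) {B : Mat n} (hB : B.PosSemidef) (c : Vec n)
    {P : Mat n} (hP : P.IsSymm) (g : Mat n) (L : Fin n → Mat n)
    (hgrad : ∀ X : Mat n, X.IsSymm → N3 X P P (D.T B c) (D.T B c) =
      μ * (X * (SQ q (D.A B c) B * P * SQ q (D.A B c) B * P * SQ q (D.A B c) B)).trace) :
    ∃ (f₁ f₂ : Fin n → ℝ) (s : ℝ),
      (∀ k, (fun τ : ℝ => FF q μ (D.A B (c + τ • fun i => g i k)) B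
          (D.T B (c + τ • fun i => g i k)) ((1 + τ • L k) * P * (1 + τ • L k)ᵀ)
          - (FF q μ (D.A B c) B (D.T B c) P + τ * f₁ k + τ ^ 2 * f₂ k)) =o[𝓝 0] fun τ => τ ^ 2) ∧
      (∀ k, f₁ k = deriv (fun τ : ℝ => FF q μ (D.A B c + τ • c3 (D.T B c) fun i => g i k) B
          (D.T B c + τ • c4 (D.K B c) fun i => g i k) (P + τ • (L k * P + P * (L k)ᵀ))) 0) ∧
      HasDerivWithinAt (fun t : ℝ => FF q μ
          (D.A (B + t • (g * gᵀ)) (c + t • ((g * gᵀ) *ᵥ D.mu B c))) (B + t • (g * gᵀ))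
          (D.T (B + t • (g * gᵀ)) (c + t • ((g * gᵀ) *ᵥ D.mu B c))) P) s (Ici 0) 0 ∧
      ∑ k, f₂ k + s = 1 / 2 * ∑ k, quad q μ (D.A B c) B (D.T B c) P (D.K B c) (fun i => g i k)
          (L k * P + P * (L k)ᵀ) + lin q μ (D.A B c) B (D.T B c) P (g * gᵀ) := by
  have hF := ito_contDiff (n := n) q μ
  set F : ItoE n → ℝ := itoF q μ with hFdef
  set x₀ : ItoE n := itoMk (D.A B c) B (D.T B c) P with hx₀
  set v : Fin n → ItoE n := fun k => itoMk (c3 (D.T B c) fun i => g i k) 0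
    (c4 (D.K B c) fun i => g i k) (L k * P + P * (L k)ᵀ) with hv
  set w : Fin n → ItoE n := fun k => itoMk (itoK2 (D.K B c) (itoEE fun i => g i k)) 0
    (itoR2 (D.R B c) (itoEE fun i => g i k)) ((2 : ℝ) • (L k * P * (L k)ᵀ)) with hw
  have hQ : (g * gᵀ).PosSemidef := by
    have := Matrix.posSemidef_self_mul_conjTranspose g
    rwa [Matrix.conjTranspose_eq_transpose_of_trivial] at this
  refine ⟨fun k => fderiv ℝ F x₀ (v k), fun k => 1 / 2 *
    (fderiv ℝ (fderiv ℝ F) x₀ (v k) (v k) + fderiv ℝ F x₀ (w k)),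
    fderiv ℝ F x₀ (itoMk (-(D.A B c * (g * gᵀ) * D.A B c)) (g * gᵀ)
      (-aq (D.A B c) (g * gᵀ) (D.T B c)) 0
        + (-(1 / 2) : ℝ) • itoMk (itoK2 (D.K B c) (g * gᵀ)) 0 (itoR2 (D.R B c) (g * gᵀ)) 0),
    fun k => ?_, fun k => ?_, ?_, ?_⟩
  · have h := ito_curve hF (itoX_deriv D hB c (fun i => g i k) P (L k))
      (itoX'_deriv D hB c (fun i => g i k) P (L k))
    rw [itoX_zero, itoX'_zero] at h
    simp only [hFdef, itoF_X] at h
    exact h
  · exact (ito_first_eq q μ _ _ _ _ _ _ _).symm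
  · have h1 : HasFDerivAt F (fderiv ℝ F x₀) (itoY D B c P (g * gᵀ) 0) := by
      rw [itoY_zero]
      exact (hF.differentiable (by norm_num) x₀).hasFDerivAt
    exact h1.comp_hasDerivWithinAt 0 (itoY_deriv D hB c P hQ)
  · have hPP : ∀ k, fderiv ℝ F x₀ (itoMk 0 0 0 ((2 : ℝ) • (L k * P * (L k)ᵀ))) = 0 := by
      intro k
      rw [hFdef, hx₀, ito_fderiv_P q μ _ _ (D.T_symm B c), hgrad, sub_self, mul_zero]
      refine Matrix.IsSymm.smul ?_ 2
      rw [Matrix.IsSymm, Matrix.transpose_mul, Matrix.transpose_mul, Matrix.transpose_transpose,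
        hP.eq, Matrix.mul_assoc]
    have hw' : ∀ k, fderiv ℝ F x₀ (w k) = fderiv ℝ F x₀ (itoMk
        (itoK2 (D.K B c) (itoEE fun i => g i k)) 0 (itoR2 (D.R B c) (itoEE fun i => g i k)) 0) := by
      intro k
      have : w k = itoMk (itoK2 (D.K B c) (itoEE fun i => g i k)) 0
          (itoR2 (D.R B c) (itoEE fun i => g i k)) 0 +
          itoMk 0 0 0 ((2 : ℝ) • (L k * P * (L k)ᵀ)) := by
        rw [hw, itoMk_add, add_zero, add_zero, add_zero, zero_add]
      rw [this, map_add, hPP, add_zero]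
    have hsum : ∑ k, fderiv ℝ F x₀ (w k) = fderiv ℝ F x₀ (itoMk (itoK2 (D.K B c) (g * gᵀ)) 0
        (itoR2 (D.R B c) (g * gᵀ)) 0) := by
      rw [← ito_sum_EE g, ← ito_sum_w, map_sum]
      exact Finset.sum_congr rfl fun k _ => hw' k
    simp only [← Finset.mul_sum, Finset.sum_add_distrib, ito_quad_eq, ito_lin_eq]
    rw [hsum, map_add, map_smul, smul_eq_mul]
    ring

end Vale.Agent.P254.MP
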