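import Vale.Agent.P254.MP.Diag

/-!
P254, abstract maximum principle, G8: uniform bound of the first order part of the drift.
-/

namespace Vale.Agent.P254.MP

open Matrix Set Filter Topology Asymptotics Polynomial
open Vale.Agent.P254.L

variable {n : ℕ}

/-- entrywise derivative at `0` -/
def LbD (F : ℝ → Mat n) (F' : Mat n) : Prop :=
  ∀ i j, HasDerivAt (fun t => F t i j) (F' i j) 0

theorem lb_const (X : Mat n) : LbD (fun _ => X) 0 := fun i j => by
  simpa using hasDerivAt_const (0 : ℝ) (X i j)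

theorem lb_add {F G : ℝ → Mat n} {F' G' : Mat n} (hF : LbD F F') (hG : LbD G G') :
    LbD (fun t => F t + G t) (F' + G') := fun i j => (hF i j).add (hG i j)

theorem lb_mul {F G : ℝ → Mat n} {F' G' : Mat n} (hF : LbD F F') (hG : LbD G G') :
    LbD (fun t => F t * G t) (F' * G 0 + F 0 * G') := by
  intro i j
  have h1 : HasDerivAt (fun t => ∑ k, F t i k * G t k j)
      (∑ k, (F' i k * G 0 k j + F 0 i k * G' k j)) 0 :=
    HasDerivAt.fun_sum fun k _ => (hF i k).mul (hG k j)
  have h2 : (F' * G 0 + F 0 * G') i j = ∑ k, (F' i k * G 0 k j + F 0 i k * G' k j) := by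
    rw [Matrix.add_apply, Matrix.mul_apply, Matrix.mul_apply, Finset.sum_add_distrib]
  rw [h2]
  exact h1.congr_of_eventuallyEq (Eventually.of_forall fun t => Matrix.mul_apply)

/-- divided difference of a polynomial -/
noncomputable def lbdd (q : ℝ[X]) (x y : ℝ) : ℝ :=
  if x = y then q.derivative.eval x else (q.eval x - q.eval y) / (x - y)

theorem lbdd_C (c x y : ℝ) : lbdd (C c) x y = 0 := by
  unfold lbdd
  split_ifs <;> simp

theorem lbdd_add (p q : ℝ[X]) (x y : ℝ) : lbdd (p + q) x y = lbdd p x y + lbdd q x y := by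
  unfold lbdd
  split_ifs
  · simp
  · rw [eval_add, eval_add]; ring

theorem lbdd_X_mul (q : ℝ[X]) (x y : ℝ) : lbdd (X * q) x y = x * lbdd q x y + q.eval y := by
  unfold lbdd
  split_ifs with h
  · subst h
    simp only [derivative_mul, derivative_X, one_mul, eval_add, eval_mul, eval_X]
    ring
  · have h1 : x - y ≠ 0 := sub_ne_zero.2 h
    simp only [eval_mul, eval_X]
    field_simp
    ring

theorem lb_aeval_frame {u v : Mat n} {b : Vec n} (hvu : v * u = 1) (q : ℝ[X]) :
    aeval (u * diagonal b * v) q = u * diagonal (fun i => q.eval (b i)) * v := by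
  have huv : u * v = 1 := mul_eq_one_comm.1 hvu
  have hX : ∀ q : ℝ[X], aeval (u * diagonal b * v) q = u * diagonal (fun i => q.eval (b i)) * v →
      aeval (u * diagonal b * v) (X * q) =
        u * diagonal (fun i => (X * q).eval (b i)) * v := by
    intro q hq
    rw [map_mul, aeval_X, hq]
    have h1 : u * diagonal b * v * (u * diagonal (fun i => q.eval (b i)) * v) =
        u * (diagonal b * diagonal (fun i => q.eval (b i))) * v := by
      have h2 : u * diagonal b * v * (u * diagonal (fun i => q.eval (b i)) * v) =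
          u * diagonal b * (v * u) * diagonal (fun i => q.eval (b i)) * v := by
        simp only [Matrix.mul_assoc]
      rw [h2, hvu, Matrix.mul_one]
      simp only [Matrix.mul_assoc]
    rw [h1, diagonal_mul_diagonal]
    simp only [eval_mul, eval_X]
  have hC : ∀ c : ℝ, aeval (u * diagonal b * v) (C c) =
      u * diagonal (fun i => (C c).eval (b i)) * v := by
    intro c
    have h1 : diagonal (fun i : Fin n => (C c).eval (b i)) = c • (1 : Mat n) := by
      simp only [eval_C]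
      rw [smul_one_eq_diagonal]
    rw [aeval_C, h1, Matrix.mul_smul, Matrix.mul_one, Matrix.smul_mul, huv,
      Algebra.algebraMap_eq_smul_one]
  have hm : ∀ (k : ℕ) (c : ℝ), aeval (u * diagonal b * v) (monomial k c) =
      u * diagonal (fun i => (monomial k c).eval (b i)) * v := by
    intro k c
    induction k with
    | zero => exact hC c
    | succ k ih =>
      have h1 : monomial (k + 1) c = X * monomial k c := (X_mul_monomial k c).symm
      rw [h1]
      exact hX _ ih
  induction q using Polynomial.induction_on' with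
  | add p q hp hq =>
    rw [map_add, hp, hq, ← Matrix.add_mul, ← Matrix.mul_add, diagonal_add]
    simp only [eval_add]
  | monomial k c => exact hm k c

/-- derivative of a polynomial of a curve of matrices `M(t)` with `M(0)` diagonalisable -/
theorem lb_aeval {F : ℝ → Mat n} {F' : Mat n} (hF : LbD F F') {u v : Mat n} {b : Vec n}
    {H : Mat n} (hvu : v * u = 1) (h0 : F 0 = u * diagonal b * v) (h1 : F' = u * H * v)
    (q : ℝ[X]) : LbD (fun t => aeval (F t) q)
      (u * Matrix.of (fun i j => H i j * lbdd q (b i) (b j)) * v) := by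
  have hC : ∀ c : ℝ, LbD (fun t => aeval (F t) (C c))
      (u * Matrix.of (fun i j => H i j * lbdd (C c) (b i) (b j)) * v) := by
    intro c
    have e1 : (Matrix.of fun i j => H i j * lbdd (C c) (b i) (b j)) = 0 := by
      ext i j
      rw [of_apply, lbdd_C, mul_zero, Matrix.zero_apply]
    rw [e1, Matrix.mul_zero, Matrix.zero_mul]
    simp only [aeval_C]
    exact lb_const _
  have hX : ∀ q : ℝ[X], LbD (fun t => aeval (F t) q)
      (u * Matrix.of (fun i j => H i j * lbdd q (b i) (b j)) * v) →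
      LbD (fun t => aeval (F t) (X * q))
        (u * Matrix.of (fun i j => H i j * lbdd (X * q) (b i) (b j)) * v) := by
    intro q hq
    have h2 := lb_mul hF hq
    have e1 : (fun t => aeval (F t) (X * q)) = fun t => F t * aeval (F t) q := by
      funext t
      rw [map_mul, aeval_X]
    rw [e1]
    have e2 : F' * aeval (F 0) q + F 0 *
        (u * Matrix.of (fun i j => H i j * lbdd q (b i) (b j)) * v) =
        u * Matrix.of (fun i j => H i j * lbdd (X * q) (b i) (b j)) * v := by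
      rw [h0, h1, lb_aeval_frame hvu q]
      have e3 : u * H * v * (u * diagonal (fun i => q.eval (b i)) * v) =
          u * (H * diagonal (fun i => q.eval (b i))) * v := by
        have h2 : u * H * v * (u * diagonal (fun i => q.eval (b i)) * v) =
            u * H * (v * u) * diagonal (fun i => q.eval (b i)) * v := by
          simp only [Matrix.mul_assoc]
        rw [h2, hvu, Matrix.mul_one]
        simp only [Matrix.mul_assoc]
      have e4 : u * diagonal b * v *
          (u * Matrix.of (fun i j => H i j * lbdd q (b i) (b j)) * v) =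
          u * (diagonal b * Matrix.of (fun i j => H i j * lbdd q (b i) (b j))) * v := by
        have h2 : u * diagonal b * v *
            (u * Matrix.of (fun i j => H i j * lbdd q (b i) (b j)) * v) =
            u * diagonal b * (v * u) *
              Matrix.of (fun i j => H i j * lbdd q (b i) (b j)) * v := by
          simp only [Matrix.mul_assoc]
        rw [h2, hvu, Matrix.mul_one]
        simp only [Matrix.mul_assoc]
      rw [e3, e4, ← Matrix.add_mul, ← Matrix.mul_add]
      congr 2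
      ext i j
      rw [Matrix.add_apply, mul_diagonal, diagonal_mul, of_apply, of_apply, lbdd_X_mul]
      ring
    rw [← e2]
    exact h2
  have hm : ∀ (k : ℕ) (c : ℝ), LbD (fun t => aeval (F t) (monomial k c))
      (u * Matrix.of (fun i j => H i j * lbdd (monomial k c) (b i) (b j)) * v) := by
    intro k c
    induction k with
    | zero => exact hC c
    | succ k ih =>
      have h1 : monomial (k + 1) c = X * monomial k c := (X_mul_monomial k c).symm
      rw [h1]
      exact hX _ ih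
  induction q using Polynomial.induction_on' with
  | add p q hp hq =>
    have e1 : (fun t => aeval (F t) (p + q)) = fun t => aeval (F t) p + aeval (F t) q := by
      funext t
      rw [map_add]
    have e2 : u * Matrix.of (fun i j => H i j * lbdd (p + q) (b i) (b j)) * v =
        u * Matrix.of (fun i j => H i j * lbdd p (b i) (b j)) * v +
        u * Matrix.of (fun i j => H i j * lbdd q (b i) (b j)) * v := by
      rw [← Matrix.add_mul, ← Matrix.mul_add]
      congr 2
      ext i j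
      rw [Matrix.add_apply, of_apply, of_apply, of_apply, lbdd_add, mul_add]
    rw [e1, e2]
    exact lb_add hp hq
  | monomial k c => exact hm k c

theorem lb_line (X Y : Mat n) : LbD (fun t => X + t • Y) Y := by
  intro i j
  have h1 : HasDerivAt (fun t : ℝ => X i j + t * Y i j) (Y i j) 0 := by
    simpa using ((hasDerivAt_id (0 : ℝ)).mul_const (Y i j)).const_add (X i j)
  exact h1

theorem lb_line_neg (X Y : Mat n) : LbD (fun t => X - t • Y) (-Y) := by
  have h := lb_line X (-Y)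
  simpa only [smul_neg, ← sub_eq_add_neg] using h

/-- derivative of `S_q` along the flow, in a frame -/
theorem lb_SQ {A B g : Mat n} {b : Vec n} (h : Dg A B g b) (Q : Mat n) (q : ℝ[X]) :
    LbD (fun t => SQ q (A - t • (A * Q * A)) (B + t • Q))
      (g * Matrix.of (fun i j => (gᵀ * Q * g) i j *
        ((1 - b i) * lbdd q (b i) (b j) - q.eval (b j))) * gᵀ) := by
  have hg : g⁻¹ * g = 1 := nonsing_inv_mul g h.det
  have hvu : gᵀ * (g⁻¹)ᵀ = 1 := by rw [← transpose_mul, hg, transpose_one]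
  have huv : (g⁻¹)ᵀ * gᵀ = 1 := mul_eq_one_comm.1 hvu
  set u := (g⁻¹)ᵀ with hu
  set H := gᵀ * Q * g with hH
  have hBA : B * A = u * diagonal b * gᵀ := by
    rw [← h.hB, h.hA]
    have e1 : u * (gᵀ * B * g) * gᵀ = (u * gᵀ) * B * g * gᵀ := by
      simp only [Matrix.mul_assoc]
    rw [e1, huv, Matrix.one_mul]
    simp only [Matrix.mul_assoc]
  have hF := lb_mul (lb_line B Q) (lb_line_neg A (A * Q * A))
  simp only [zero_smul, add_zero, sub_zero] at hF
  have hF' : Q * A + B * -(A * Q * A) = u * ((1 - diagonal b) * H) * gᵀ := by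
    rw [← h.hB, hH]
    have e1 : u * ((1 - gᵀ * B * g) * (gᵀ * Q * g)) * gᵀ =
        (u * gᵀ) * Q * (g * gᵀ) - (u * gᵀ) * B * (g * gᵀ) * Q * (g * gᵀ) := by
      rw [Matrix.sub_mul, Matrix.one_mul, Matrix.mul_sub, Matrix.sub_mul]
      simp only [Matrix.mul_assoc]
    rw [e1, huv, Matrix.one_mul, Matrix.one_mul, ← h.hA, Matrix.mul_neg, ← sub_eq_add_neg]
    simp only [Matrix.mul_assoc]
  have h0 : (fun t : ℝ => (B + t • Q) * (A - t • (A * Q * A))) 0 = u * diagonal b * gᵀ := by
    simp only [zero_smul, add_zero, sub_zero]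
    exact hBA
  have h2 := lb_mul (lb_line_neg A (A * Q * A)) (lb_aeval hF hvu h0 hF' q)
  simp only [zero_smul, add_zero, sub_zero] at h2
  have e1 : -(A * Q * A) * aeval (B * A) q +
      A * (u * Matrix.of (fun i j => ((1 - diagonal b) * H) i j * lbdd q (b i) (b j)) * gᵀ) =
      g * Matrix.of (fun i j => H i j *
        ((1 - b i) * lbdd q (b i) (b j) - q.eval (b j))) * gᵀ := by
    have hAu : A * u = g := by
      rw [h.hA, Matrix.mul_assoc, hvu, Matrix.mul_one]
    rw [hBA, lb_aeval_frame hvu q]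
    have e2 : A * Q * A * (u * diagonal (fun i => q.eval (b i)) * gᵀ) =
        g * (H * diagonal (fun i => q.eval (b i))) * gᵀ := by
      have e3 : A * Q * A * (u * diagonal (fun i => q.eval (b i)) * gᵀ) =
          A * Q * (A * u) * diagonal (fun i => q.eval (b i)) * gᵀ := by
        simp only [Matrix.mul_assoc]
      rw [e3, hAu, hH]
      conv_lhs => rw [h.hA]
      simp only [Matrix.mul_assoc]
    have e4 : A * (u * Matrix.of (fun i j => ((1 - diagonal b) * H) i j *
        lbdd q (b i) (b j)) * gᵀ) =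
        g * Matrix.of (fun i j => ((1 - diagonal b) * H) i j * lbdd q (b i) (b j)) * gᵀ := by
      rw [← Matrix.mul_assoc, ← Matrix.mul_assoc, hAu]
    rw [Matrix.neg_mul, e2, e4, neg_add_eq_sub, ← Matrix.sub_mul, ← Matrix.mul_sub]
    congr 2
    ext i j
    have e5 : ((1 - diagonal b) * H) i j = (1 - b i) * H i j := by
      rw [Matrix.sub_mul, Matrix.one_mul, Matrix.sub_apply, diagonal_mul]
      ring
    rw [Matrix.sub_apply, of_apply, of_apply, mul_diagonal, e5]
    ring
  rw [← e1]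
  exact h2

/-! #### entry bounds -/

theorem lb_psd_entry {X : Mat n} (hX : X.PosSemidef) {c : ℝ} (hc : ∀ i, X i i ≤ c)
    (i j : Fin n) : |X i j| ≤ c := by
  have hs : X j i = X i j := by
    have h := hX.isHermitian.apply i j
    simpa using h
  have key : ∀ s : ℝ, 0 ≤ X i i + s * X i j + s * (X i j + s * X j j) := by
    intro s
    have h1 := (hX.submatrix ![i, j]).dotProduct_mulVec_nonneg ![1, s]
    simp only [dotProduct, mulVec, Fin.sum_univ_two, submatrix_apply, Pi.star_apply,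
      star_trivial, cons_val_zero, cons_val_one] at h1
    rw [hs] at h1
    linarith
  have h1 := key 1
  have h2 := key (-1)
  have h3 := hc i
  have h4 := hc j
  rw [abs_le]
  constructor <;> linarith

theorem lb_mul_le {X Y : Mat n} {x y : ℝ} (hx : 0 ≤ x) (hX : ∀ i j, |X i j| ≤ x)
    (hY : ∀ i j, |Y i j| ≤ y) (i j : Fin n) : |(X * Y) i j| ≤ n * (x * y) := by
  rw [Matrix.mul_apply]
  refine (Finset.abs_sum_le_sum_abs _ _).trans ?_
  have h1 : ∀ k ∈ (Finset.univ : Finset (Fin n)), |X i k * Y k j| ≤ x * y := fun k _ => by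
    rw [abs_mul]
    exact mul_le_mul (hX i k) (hY k j) (abs_nonneg _) hx
  refine (Finset.sum_le_sum h1).trans (le_of_eq ?_)
  rw [Finset.sum_const, Finset.card_univ, Fintype.card_fin, nsmul_eq_mul]

theorem lb_frame_le {A B g : Mat n} {b : Vec n} (h : Dg A B g b) {KA : ℝ}
    (hA : ∀ i j, |A i j| ≤ KA) {E : Mat n} {e : ℝ} (hE : ∀ i j, |E i j| ≤ e)
    (i j : Fin n) : |(g * E * gᵀ) i j| ≤ n * (n * (KA * e)) := by
  have hdiag : ∀ i k, g i k ^ 2 ≤ KA := by
    intro i k
    have h1 : A i i = ∑ k, g i k * g i k := by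
      rw [h.hA, Matrix.mul_apply]
      rfl
    have h2 : g i k * g i k ≤ A i i := by
      rw [h1]
      exact Finset.single_le_sum (f := fun k => g i k * g i k)
        (fun k _ => mul_self_nonneg _) (Finset.mem_univ k)
    have h3 := (le_abs_self _).trans (hA i i)
    rw [sq]
    exact h2.trans h3
  have hgg : ∀ i k j l, |g i k * g j l| ≤ KA := by
    intro i k j l
    have h1 := hdiag i k
    have h2 := hdiag j l
    rw [abs_le]
    constructor <;> nlinarith [sq_nonneg (g i k + g j l), sq_nonneg (g i k - g j l)]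
  have h1 : (g * E * gᵀ) i j = ∑ l, ∑ k, g i k * g j l * E k l := by
    rw [Matrix.mul_apply]
    refine Finset.sum_congr rfl fun l _ => ?_
    rw [Matrix.mul_apply, Finset.sum_mul, transpose_apply]
    exact Finset.sum_congr rfl fun k _ => by ring
  rw [h1]
  refine (Finset.abs_sum_le_sum_abs _ _).trans ?_
  have h2 : ∀ l ∈ (Finset.univ : Finset (Fin n)), |∑ k, g i k * g j l * E k l| ≤ n * (KA * e) := by
    intro l _
    refine (Finset.abs_sum_le_sum_abs _ _).trans ?_
    have h3 : ∀ k ∈ (Finset.univ : Finset (Fin n)), |g i k * g j l * E k l| ≤ KA * e := by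
      intro k _
      rw [abs_mul]
      exact mul_le_mul (hgg i k j l) (hE k l) (abs_nonneg _) ((abs_nonneg _).trans (hgg i k j l))
    refine (Finset.sum_le_sum h3).trans (le_of_eq ?_)
    rw [Finset.sum_const, Finset.card_univ, Fintype.card_fin, nsmul_eq_mul]
  refine (Finset.sum_le_sum h2).trans (le_of_eq ?_)
  rw [Finset.sum_const, Finset.card_univ, Fintype.card_fin, nsmul_eq_mul]

/-- diagonal entries of the inverse -/
theorem lb_inv_diag {A : Mat n} {a : ℝ} (ha : 0 < a) (hA : A.PosDef)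
    (hAa : (A - a • (1 : Mat n)).PosSemidef) (i : Fin n) : A⁻¹ i i ≤ 1 / a := by
  set y : Vec n := fun j => A⁻¹ j i with hy
  have hu : IsUnit A.det := (Matrix.isUnit_iff_isUnit_det A).1 hA.isUnit
  have h1 : A *ᵥ y = fun j => (1 : Mat n) j i := by
    funext j
    rw [← Matrix.mul_nonsing_inv A hu]
    rfl
  have h2 := hAa.dotProduct_mulVec_nonneg y
  rw [sub_mulVec, h1, smul_mulVec, one_mulVec, dotProduct_sub, dotProduct_smul] at h2
  have h3 : star y ⬝ᵥ (fun j => (1 : Mat n) j i) = y i := by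
    simp [dotProduct, Matrix.one_apply]
  have h4 : y i * y i ≤ star y ⬝ᵥ y := by
    have h5 : star y ⬝ᵥ y = ∑ j, y j * y j := by simp [dotProduct]
    rw [h5]
    exact Finset.single_le_sum (f := fun j => y j * y j)
      (fun j _ => mul_self_nonneg _) (Finset.mem_univ i)
  rw [h3, smul_eq_mul] at h2
  have h5 : a * (y i * y i) ≤ y i := by nlinarith
  change y i ≤ 1 / a
  rw [le_div_iff₀ ha]
  by_contra h6
  push Not at h6
  have h7 : 0 < y i := by
    by_contra h8
    push Not at h8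
    nlinarith
  nlinarith

/-! #### constants -/

theorem lb_consts {p : ℝ → ℝ} (hp : ContDiffOn ℝ 2 p (Ioo 0 1)) {β₀ β₁ : ℝ} (hβ₀ : 0 < β₀)
    (hβ₁ : β₁ < 1) : ∃ K₀ K₁ : ℝ, 0 ≤ K₀ ∧ 0 ≤ K₁ ∧ (∀ x ∈ Icc β₀ β₁, |p x| ≤ K₀) ∧
      (∀ x ∈ Icc β₀ β₁, |deriv p x| ≤ K₁) ∧
      ∀ x ∈ Icc β₀ β₁, ∀ y ∈ Icc β₀ β₁, |p x - p y| ≤ K₁ * |x - y| := by
  have hsub : Icc β₀ β₁ ⊆ Ioo (0 : ℝ) 1 := fun x hx =>
    ⟨hβ₀.trans_le hx.1, hx.2.trans_lt hβ₁⟩
  have h1 : ContinuousOn p (Icc β₀ β₁) := hp.continuousOn.mono hsub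
  have h2 : ContinuousOn (deriv p) (Icc β₀ β₁) :=
    (hp.continuousOn_deriv_of_isOpen isOpen_Ioo (by norm_num)).mono hsub
  obtain ⟨c₀, hc₀⟩ := isCompact_Icc.exists_bound_of_continuousOn h1
  obtain ⟨c₁, hc₁⟩ := isCompact_Icc.exists_bound_of_continuousOn h2
  have e1 : ∀ x ∈ Icc β₀ β₁, |p x| ≤ max c₀ 0 := fun x hx =>
    (hc₀ x hx).trans (le_max_left _ _)
  have e2 : ∀ x ∈ Icc β₀ β₁, |deriv p x| ≤ max c₁ 0 := fun x hx =>
    (hc₁ x hx).trans (le_max_left _ _)
  refine ⟨max c₀ 0, max c₁ 0, le_max_right _ _, le_max_right _ _, e1, e2, fun x hx y hy => ?_⟩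
  have h3 : ∀ z ∈ Icc β₀ β₁, DifferentiableAt ℝ p z := fun z hz =>
    ((hp.differentiableOn (by norm_num)) z (hsub hz)).differentiableAt
      (isOpen_Ioo.mem_nhds (hsub hz))
  exact Convex.norm_image_sub_le_of_norm_deriv_le h3 e2 (convex_Icc _ _) hy hx

theorem lb_dd_le {p : ℝ → ℝ} {q : ℝ[X]} {β₀ β₁ K₀ K₁ : ℝ} (hβ₀ : 0 < β₀) (hβ₁ : β₁ < 1)
    (h0 : ∀ x ∈ Icc β₀ β₁, |p x| ≤ K₀)
    (h1 : ∀ x ∈ Icc β₀ β₁, |deriv p x| ≤ K₁)
    (h2 : ∀ x ∈ Icc β₀ β₁, ∀ y ∈ Icc β₀ β₁, |p x - p y| ≤ K₁ * |x - y|) {x y : ℝ}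
    (hx : x ∈ Icc β₀ β₁) (hy : y ∈ Icc β₀ β₁) (hqx : Her p q x) (hqy : Her p q y) :
    |(1 - x) * lbdd q x y - q.eval y| ≤ K₁ + K₀ := by
  have h3 : |lbdd q x y| ≤ K₁ := by
    unfold lbdd
    split_ifs with h
    · rw [hqx.2.1]
      exact h1 x hx
    · rw [hqx.1, hqy.1, abs_div]
      have h4 : 0 < |x - y| := abs_pos.2 (sub_ne_zero.2 h)
      rw [div_le_iff₀ h4]
      exact h2 x hx y hy
  have h4 : |1 - x| ≤ 1 := by
    rw [abs_le]
    constructor <;> linarith [hx.1, hx.2]
  have h5 : |(1 - x) * lbdd q x y| ≤ K₁ := by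
    rw [abs_mul]
    calc |1 - x| * |lbdd q x y| ≤ 1 * K₁ :=
          mul_le_mul h4 h3 (abs_nonneg _) zero_le_one
      _ = K₁ := one_mul _
  have h6 : |q.eval y| ≤ K₀ := by
    rw [hqy.1]
    exact h0 y hy
  calc |(1 - x) * lbdd q x y - q.eval y| ≤ |(1 - x) * lbdd q x y| + |q.eval y| := abs_sub _ _
    _ ≤ K₁ + K₀ := add_le_add h5 h6

theorem lb_sum_le {f : Fin n → ℝ} {c : ℝ} (h : ∀ i, |f i| ≤ c) : |∑ i, f i| ≤ n * c := by
  refine (Finset.abs_sum_le_sum_abs _ _).trans ((Finset.sum_le_sum fun i _ => h i).trans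
    (le_of_eq ?_))
  rw [Finset.sum_const, Finset.card_univ, Fintype.card_fin, nsmul_eq_mul]

/-- the derivative of the cube term -/
theorem lb_cube {S : ℝ → Mat n} {S' P : Mat n} (hS : LbD S S') {s s' : ℝ} (hs : 0 ≤ s)
    (hs' : 0 ≤ s') (h1 : ∀ i j, |S 0 i j| ≤ s) (h2 : ∀ i j, |S' i j| ≤ s')
    (hP : ∀ i j, |P i j| ≤ 1) :
    ∃ d : ℝ, HasDerivAt (fun t => ((S t * P) ^ 3).trace) d 0 ∧
      |d| ≤ n * (3 * (n * (n * ((n * (s * 1)) * (n * (s * 1))) * (n * (s' * 1))))) := by
  have hW := lb_mul hS (lb_const P)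
  have hW' : S' * P + S 0 * 0 = S' * P := by rw [Matrix.mul_zero, add_zero]
  rw [hW'] at hW
  have hW2 := lb_mul hW hW
  have hW3 := lb_mul hW2 hW
  set D : Mat n := (S' * P * (S 0 * P) + S 0 * P * (S' * P)) * (S 0 * P) +
    S 0 * P * (S 0 * P) * (S' * P) with hD
  refine ⟨D.trace, ?_, ?_⟩
  · have h3 : HasDerivAt (fun t => ∑ i, (S t * P * (S t * P) * (S t * P)) i i)
        (∑ i, D i i) 0 := HasDerivAt.fun_sum fun i _ => hW3 i i
    have h4 : (fun t => ((S t * P) ^ 3).trace) =
        fun t => ∑ i, (S t * P * (S t * P) * (S t * P)) i i := by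
      funext t
      rw [pow_succ, pow_two]
      rfl
    rw [h4]
    exact h3
  · have w0 : (0 : ℝ) ≤ n * (s * 1) := by positivity
    have w1 : (0 : ℝ) ≤ n * (s' * 1) := by positivity
    have hw : ∀ i j, |(S 0 * P) i j| ≤ n * (s * 1) := lb_mul_le hs h1 hP
    have hw' : ∀ i j, |(S' * P) i j| ≤ n * (s' * 1) := lb_mul_le hs' h2 hP
    have ww : ∀ i j, |(S 0 * P * (S 0 * P)) i j| ≤ n * ((n * (s * 1)) * (n * (s * 1))) :=
      lb_mul_le w0 hw hw
    have w'w : ∀ i j, |(S' * P * (S 0 * P)) i j| ≤ n * ((n * (s' * 1)) * (n * (s * 1))) :=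
      lb_mul_le w1 hw' hw
    have ww' : ∀ i j, |(S 0 * P * (S' * P)) i j| ≤ n * ((n * (s * 1)) * (n * (s' * 1))) :=
      lb_mul_le w0 hw hw'
    have a1 : ∀ i j, |(S' * P * (S 0 * P) * (S 0 * P)) i j| ≤
        n * (n * ((n * (s' * 1)) * (n * (s * 1))) * (n * (s * 1))) :=
      lb_mul_le (by positivity) w'w hw
    have a2 : ∀ i j, |(S 0 * P * (S' * P) * (S 0 * P)) i j| ≤
        n * (n * ((n * (s * 1)) * (n * (s' * 1))) * (n * (s * 1))) :=
      lb_mul_le (by positivity) ww' hw
    have a3 : ∀ i j, |(S 0 * P * (S 0 * P) * (S' * P)) i j| ≤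
        n * (n * ((n * (s * 1)) * (n * (s * 1))) * (n * (s' * 1))) :=
      lb_mul_le (by positivity) ww hw'
    have hDi : ∀ i, |D i i| ≤
        3 * (n * (n * ((n * (s * 1)) * (n * (s * 1))) * (n * (s' * 1)))) := by
      intro i
      rw [hD, Matrix.add_mul, Matrix.add_apply, Matrix.add_apply]
      refine (abs_add_le _ _).trans ((add_le_add (abs_add_le _ _) le_rfl).trans ?_)
      refine (add_le_add (add_le_add (a1 i i) (a2 i i)) (a3 i i)).trans (le_of_eq ?_)
      ring
    exact lb_sum_le hDi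

/-- the derivative of the numerator -/
theorem lb_num {P : Mat n} {T U : Ten n} {k u : ℝ} (hk : 0 ≤ k) (hu : 0 ≤ u)
    (hP : ∀ i j, |P i j| ≤ 1) (hT : ∀ i j l, |T i j l| ≤ k) (hU : ∀ i j l, |U i j l| ≤ u) :
    ∃ d : ℝ, HasDerivAt (fun t : ℝ => NN P (T - t • U) (T - t • U)) d 0 ∧
      |d| ≤ n * (n * (n * (n * (n * (n * (2 * (u * k))))))) := by
  have hT' : ∀ i j l, HasDerivAt (fun t : ℝ => (T - t • U) i j l) (-U i j l) 0 := by
    intro i j l
    have h1 : HasDerivAt (fun t : ℝ => T i j l - t * U i j l) (-U i j l) 0 := by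
      simpa using ((hasDerivAt_id (0 : ℝ)).mul_const (U i j l)).const_sub (T i j l)
    exact h1
  refine ⟨∑ a, ∑ b, ∑ c, ∑ a', ∑ b', ∑ c', (P a a' * P b b' * P c c' * -U a b c * T a' b' c' +
    P a a' * P b b' * P c c' * T a b c * -U a' b' c'), ?_, ?_⟩
  · unfold NN L.N3
    refine HasDerivAt.fun_sum fun a _ => HasDerivAt.fun_sum fun b _ =>
      HasDerivAt.fun_sum fun c _ => HasDerivAt.fun_sum fun a' _ =>
      HasDerivAt.fun_sum fun b' _ => HasDerivAt.fun_sum fun c' _ => ?_
    have h1 := ((hT' a b c).const_mul (P a a' * P b b' * P c c')).mul (hT' a' b' c')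
    simp only [zero_smul, sub_zero] at h1
    exact h1
  · refine lb_sum_le fun a => lb_sum_le fun b => lb_sum_le fun c => lb_sum_le fun a' =>
      lb_sum_le fun b' => lb_sum_le fun c' => ?_
    have hPPP : |P a a' * P b b' * P c c'| ≤ 1 := by
      rw [abs_mul, abs_mul]
      have h1 : |P a a'| * |P b b'| ≤ 1 := mul_le_one₀ (hP _ _) (abs_nonneg _) (hP _ _)
      exact mul_le_one₀ h1 (abs_nonneg _) (hP _ _)
    have h1 : |P a a' * P b b' * P c c' * -U a b c * T a' b' c'| ≤ 1 * u * k := by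
      rw [abs_mul, abs_mul, abs_neg]
      exact mul_le_mul (mul_le_mul hPPP (hU _ _ _) (abs_nonneg _) zero_le_one) (hT _ _ _)
        (abs_nonneg _) (by positivity)
    have h2 : |P a a' * P b b' * P c c' * T a b c * -U a' b' c'| ≤ 1 * k * u := by
      rw [abs_mul, abs_mul, abs_neg]
      exact mul_le_mul (mul_le_mul hPPP (hT _ _ _) (abs_nonneg _) zero_le_one) (hU _ _ _)
        (abs_nonneg _) (by positivity)
    refine (abs_add_le _ _).trans ((add_le_add h1 h2).trans (le_of_eq ?_))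
    ring

theorem lin_bound {p : ℝ → ℝ} (hp : ContDiffOn ℝ 2 p (Ioo 0 1)) (a KA KT C₀ β₀ β₁ : ℝ)
    (ha : 0 < a) (hβ₀ : 0 < β₀) (hβ₁ : β₁ < 1) :
    ∃ C' : ℝ, 0 ≤ C' ∧ ∀ (A B : Mat n) (T : Ten n) (P Q : Mat n) (q : ℝ[X]),
      A.PosDef → B.PosSemidef → (A - a • (1 : Mat n)).PosSemidef → (∀ i j, |A i j| ≤ KA) →
      (∀ i j k, |T i j k| ≤ KT) → P.PosSemidef → P.trace = 1 → Q.PosSemidef →
      (C₀ • A⁻¹ - Q).PosSemidef → (∀ x ∈ (B * A).charpoly.roots, x ∈ Icc β₀ β₁ ∧ Her p q x) →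
      |lin q 1 A B T P Q| ≤ C' := by
  obtain ⟨K₀, K₁, hK₀, hK₁, b0, b1, b2⟩ := lb_consts hp hβ₀ hβ₁
  set kA := max KA 0 with hkA
  set kT := max KT 0 with hkT
  set c₀ := max C₀ 0 with hc₀
  have kA0 : 0 ≤ kA := le_max_right _ _
  have kT0 : 0 ≤ kT := le_max_right _ _
  have c₀0 : 0 ≤ c₀ := le_max_right _ _
  set s : ℝ := n * (n * (kA * K₀)) with hs
  set s' : ℝ := n * (n * (kA * (c₀ * (K₁ + K₀)))) with hs'
  set r : ℝ := n * (kA * (c₀ * (1 / a))) with hr
  set u : ℝ := n * (3 * (r * kT)) with hu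
  have s0 : 0 ≤ s := by positivity
  have s'0 : 0 ≤ s' := by positivity
  have r0 : 0 ≤ r := by positivity
  have u0 : 0 ≤ u := by positivity
  refine ⟨n * (n * (n * (n * (n * (n * (2 * (u * kT))))))) +
    n * (3 * (n * (n * ((n * (s * 1)) * (n * (s * 1))) * (n * (s' * 1))))), by positivity, ?_⟩
  intro A B T P Q q hA hB hAa hAK hTK hP hPtr hQ hQC hq
  have hAK' : ∀ i j, |A i j| ≤ kA := fun i j => (hAK i j).trans (le_max_left _ _)
  have hTK' : ∀ i j k, |T i j k| ≤ kT := fun i j k => (hTK i j k).trans (le_max_left _ _)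
  have hBs : B.IsSymm := by
    have h := hB.isHermitian
    rwa [IsHermitian, conjTranspose_eq_transpose_of_trivial] at h
  obtain ⟨g, b, h⟩ := exists_dg hA hBs
  have hb : ∀ i, b i ∈ Icc β₀ β₁ ∧ Her p q (b i) := fun i =>
    hq _ ((dg_roots h (b i)).2 ⟨i, rfl⟩)
  -- entries of `P`
  have hP1 : ∀ i j, |P i j| ≤ 1 := by
    refine lb_psd_entry hP fun i => ?_
    rw [← hPtr]
    exact Finset.single_le_sum (f := fun i => P i i) (fun i _ => hP.diag_nonneg)
      (Finset.mem_univ i)
  -- entries of `Q`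
  have hQ1 : ∀ i j, |Q i j| ≤ c₀ * (1 / a) := by
    refine lb_psd_entry hQ fun i => ?_
    have h1 := hQC.diag_nonneg (i := i)
    rw [Matrix.sub_apply, Matrix.smul_apply, smul_eq_mul] at h1
    have h2 := lb_inv_diag ha hA hAa i
    have h3 : 0 ≤ A⁻¹ i i := hA.inv.posSemidef.diag_nonneg
    calc Q i i ≤ C₀ * A⁻¹ i i := by linarith
      _ ≤ c₀ * A⁻¹ i i := mul_le_mul_of_nonneg_right (le_max_left _ _) h3
      _ ≤ c₀ * (1 / a) := mul_le_mul_of_nonneg_left h2 c₀0
  have hAQ : ∀ i j, |(A * Q) i j| ≤ r := lb_mul_le kA0 hAK' hQ1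
  -- entries of `H`
  have hH : ∀ i j, |(gᵀ * Q * g) i j| ≤ c₀ := by
    have e1 : (gᵀ * Q * g).PosSemidef := by
      have h1 := hQ.conjTranspose_mul_mul_same g
      rwa [conjTranspose_eq_transpose_of_trivial] at h1
    refine lb_psd_entry e1 fun i => ?_
    have h1 := hQC.conjTranspose_mul_mul_same g
    rw [conjTranspose_eq_transpose_of_trivial, Matrix.mul_sub, Matrix.sub_mul,
      Matrix.mul_smul, Matrix.smul_mul] at h1
    have h2 : gᵀ * A⁻¹ * g = 1 := by
      have hgt : IsUnit gᵀ.det := by rw [det_transpose]; exact h.det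
      rw [h.hA, Matrix.mul_inv_rev, ← Matrix.mul_assoc, Matrix.mul_nonsing_inv _ hgt,
        Matrix.one_mul, Matrix.nonsing_inv_mul _ h.det]
    rw [h2] at h1
    have h3 := h1.diag_nonneg (i := i)
    rw [Matrix.sub_apply, Matrix.smul_apply, Matrix.one_apply_eq, smul_eq_mul, mul_one] at h3
    calc (gᵀ * Q * g) i i ≤ C₀ := by linarith
      _ ≤ c₀ := le_max_left _ _
  -- the derivative of `S`
  have hS := lb_SQ h Q q
  have hS0 : SQ q (A - (0 : ℝ) • (A * Q * A)) (B + (0 : ℝ) • Q) =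
      g * diagonal (fun i => q.eval (b i)) * gᵀ := by
    rw [zero_smul, zero_smul, sub_zero, add_zero]
    exact dg_SQ h q
  have hS1 : ∀ i j, |SQ q (A - (0 : ℝ) • (A * Q * A)) (B + (0 : ℝ) • Q) i j| ≤ s := by
    rw [hS0]
    refine lb_frame_le h hAK' fun i j => ?_
    by_cases hij : i = j
    · subst hij
      rw [diagonal_apply_eq, (hb i).2.1]
      exact b0 _ (hb i).1
    · rw [diagonal_apply_ne _ hij, abs_zero]
      exact hK₀
  have hS2 : ∀ i j, |(g * Matrix.of (fun i j => (gᵀ * Q * g) i j *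
        ((1 - b i) * lbdd q (b i) (b j) - q.eval (b j))) * gᵀ) i j| ≤ s' := by
    refine lb_frame_le h hAK' fun i j => ?_
    rw [of_apply, abs_mul]
    exact mul_le_mul (hH i j)
      (lb_dd_le hβ₀ hβ₁ b0 b1 b2 (hb i).1 (hb j).1 (hb i).2 (hb j).2) (abs_nonneg _) c₀0
  obtain ⟨d₂, hd₂, hd₂'⟩ := lb_cube hS s0 s'0 hS1 hS2 hP1
  -- the derivative of the numerator
  have hU : ∀ i j k, |aq A Q T i j k| ≤ u := by
    intro i j k
    refine lb_sum_le fun l => ?_
    have h1 : ∀ x y : ℝ, |x| ≤ r → |y| ≤ kT → |x * y| ≤ r * kT := fun x y hx hy => by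
      rw [abs_mul]
      exact mul_le_mul hx hy (abs_nonneg _) r0
    refine (abs_add_le _ _).trans ((add_le_add (abs_add_le _ _) le_rfl).trans ?_)
    refine (add_le_add (add_le_add (h1 _ _ (hAQ i l) (hTK' l j k))
      (h1 _ _ (hAQ j l) (hTK' i l k))) (h1 _ _ (hAQ k l) (hTK' i j l))).trans (le_of_eq ?_)
    ring
  obtain ⟨d₁, hd₁, hd₁'⟩ := lb_num (U := aq A Q T) kT0 u0 hP1 hTK' hU
  have hlin : lin q 1 A B T P Q = d₁ - d₂ := by
    unfold lin
    have h1 := hd₁.sub hd₂
    have h2 : (fun t : ℝ => FF q 1 (A - t • (A * Q * A)) (B + t • Q) (T - t • aq A Q T) P) =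
        (fun t : ℝ => NN P (T - t • aq A Q T) (T - t • aq A Q T)) -
          fun t : ℝ => ((SQ q (A - t • (A * Q * A)) (B + t • Q) * P) ^ 3).trace := by
      funext t
      unfold FF
      rw [one_mul]
      rfl
    rw [h2]
    exact h1.deriv
  rw [hlin]
  exact (abs_sub _ _).trans (add_le_add hd₁' hd₂')

end Vale.Agent.P254.MP
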