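import Vale.Agent.P254.MP.Defs

/-!
P254, abstract maximum principle, G9: invariance of the region and compactness.
-/

namespace Vale.Agent.P254.MP

open Matrix Set Filter Topology Asymptotics Polynomial
open Vale.Agent.P254.L

variable {n : ℕ}

theorem reg_step {B₀ B A Q : Mat n} {m M M' η C₀ u t : ℝ} (hB₀ : B₀.PosSemidef) (hm : 0 ≤ m)
    (hη : 0 < η) (hηC : η ≤ C₀) (hM' : (M' • (1 : Mat n) - (B₀ + M • (1 : Mat n))).PosSemidef)
    (hM'0 : 0 ≤ M') (hu : 1 ≤ u) (h : Reg B₀ m M' (C₀ / η) u B)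
    (lo : (B + M • (1 : Mat n) - A⁻¹).PosSemidef) (up : (A⁻¹ - (B + m • (1 : Mat n))).PosSemidef)
    (hQ1 : (Q - η • A⁻¹).PosSemidef) (hQ2 : (C₀ • A⁻¹ - Q).PosSemidef) (ht : 0 ≤ t) :
    Reg B₀ m M' (C₀ / η) (u * (1 + η * t)) (B + t • Q) := by
  have hC₀ : 0 ≤ C₀ := hη.le.trans hηC
  constructor
  · have h1 : (B - (m * (u - 1)) • (1 : Mat n)).PosSemidef := by
      have := h.lo.add hB₀
      have e : B - (m * (u - 1)) • (1 : Mat n) =
          B - (B₀ + (m * (u - 1)) • (1 : Mat n)) + B₀ := by abel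
      rw [e]; exact this
    have h2 := ((h.lo.add (hQ1.smul ht)).add (up.smul (mul_nonneg ht hη.le))).add
      (h1.smul (mul_nonneg ht hη.le))
    have e : B + t • Q - (B₀ + (m * (u * (1 + η * t) - 1)) • (1 : Mat n)) =
        B - (B₀ + (m * (u - 1)) • (1 : Mat n)) + t • (Q - η • A⁻¹) +
          (t * η) • (A⁻¹ - (B + m • (1 : Mat n))) + (t * η) • (B - (m * (u - 1)) • (1 : Mat n)) := by
      module
    rw [e]; exact h2
  · have hr : 1 ≤ C₀ / η := by rwa [le_div_iff₀ hη, one_mul]
    have hu0 : 0 ≤ u := zero_le_one.trans hu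
    have ht1 : 0 ≤ η * t := mul_nonneg hη.le ht
    have hbern : 1 + C₀ * t ≤ (1 + η * t) ^ (C₀ / η) := by
      have := one_add_mul_self_le_rpow_one_add (s := η * t) (by linarith) hr
      have e : C₀ / η * (η * t) = C₀ * t := by field_simp
      rw [e] at this
      exact this
    have hpow : u ^ (C₀ / η) * (1 + C₀ * t) ≤ (u * (1 + η * t)) ^ (C₀ / η) := by
      rw [Real.mul_rpow hu0 (by linarith)]
      exact mul_le_mul_of_nonneg_left hbern (Real.rpow_nonneg hu0 _)
    set v := u ^ (C₀ / η) with hv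
    set v' := (u * (1 + η * t)) ^ (C₀ / η) with hv'
    have hd : 0 ≤ M' * (v' - v * (1 + C₀ * t)) := mul_nonneg hM'0 (by linarith)
    have h1 : ((M' * v) • (1 : Mat n) - B - M • (1 : Mat n)).PosSemidef := by
      have := h.hi.add hM'
      rw [← hv] at this
      have e : (M' * v) • (1 : Mat n) - B - M • (1 : Mat n) =
          B₀ + (M' * (v - 1)) • (1 : Mat n) - B + (M' • (1 : Mat n) - (B₀ + M • (1 : Mat n))) := by
        module
      rw [e]; exact this
    have h2 := ((((h.hi.add ((PosSemidef.one (n := Fin n) (R := ℝ)).smul hd)).add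
      (hQ2.smul ht)).add (lo.smul (mul_nonneg ht hC₀))).add (h1.smul (mul_nonneg ht hC₀)))
    have e : B₀ + (M' * (v' - 1)) • (1 : Mat n) - (B + t • Q) =
        B₀ + (M' * (v - 1)) • (1 : Mat n) - B +
          (M' * (v' - v * (1 + C₀ * t))) • (1 : Mat n) + t • (C₀ • A⁻¹ - Q) +
          (t * C₀) • (B + M • (1 : Mat n) - A⁻¹) +
          (t * C₀) • ((M' * v) • (1 : Mat n) - B - M • (1 : Mat n)) := by
      module
    rw [e]; exact h2

theorem region_entry {N : Mat n} (h : N.PosSemidef) (i j : Fin n) : |N i j| ≤ N.trace := by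
  have hd : ∀ k, 0 ≤ N k k := fun k => h.diag_nonneg
  have hs : N j i = N i j := by simpa using h.1.apply i j
  have htr : ∀ k, N k k ≤ N.trace := fun k =>
    Finset.single_le_sum (f := fun k => N k k) (fun k _ => hd k) (Finset.mem_univ k)
  have key : ∀ s : ℝ, 0 ≤ N i i + s * N i j + s * N j i + s * s * N j j := by
    intro s
    have := h.dotProduct_mulVec_nonneg (Pi.single i 1 + s • Pi.single j 1)
    rw [star_trivial, mulVec_add, mulVec_smul, mulVec_single_one, mulVec_single_one,
      add_dotProduct, dotProduct_add, dotProduct_add, smul_dotProduct, smul_dotProduct,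
      dotProduct_smul, dotProduct_smul, single_one_dotProduct, single_one_dotProduct,
      single_one_dotProduct, single_one_dotProduct] at this
    simp only [Matrix.col_apply, smul_eq_mul] at this
    linarith
  rw [abs_le]
  have k1 := key 1
  have k2 := key (-1)
  have t1 := htr i
  have t2 := htr j
  constructor <;> linarith

theorem region_closed : IsClosed {N : Mat n | N.PosSemidef} := by
  have e : {N : Mat n | N.PosSemidef} =
      {N | Nᴴ = N} ∩ ⋂ x : Fin n → ℝ, {N : Mat n | 0 ≤ star x ⬝ᵥ (N *ᵥ x)} := by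
    ext N
    simp only [mem_inter_iff, mem_ofPred_eq, mem_iInter]
    exact posSemidef_iff_dotProduct_mulVec
  rw [e]
  refine IsClosed.inter (isClosed_eq continuous_id.matrix_conjTranspose continuous_id)
    (isClosed_iInter fun x => isClosed_le continuous_const ?_)
  exact continuous_const.dotProduct (continuous_id.matrix_mulVec continuous_const)

theorem region_box (C : ℝ) : IsCompact {B : Mat n | ∀ i j, B i j ∈ Icc (-C) C} := by
  have h := isCompact_univ_pi (fun _ : Fin n => isCompact_univ_pi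
    (fun _ : Fin n => isCompact_Icc (a := -C) (b := C)))
  have e : {B : Mat n | ∀ i j, B i j ∈ Icc (-C) C} =
      (Set.univ.pi fun _ : Fin n => Set.univ.pi fun _ : Fin n => Icc (-C) C) := by
    ext B
    constructor
    · intro hB i _ j _
      exact hB i j
    · intro hB i j
      exact hB i (Set.mem_univ i) j (Set.mem_univ j)
  rw [e]
  exact h

theorem compact_region (B₀ : Mat n) (m M' r U R : ℝ) :
    IsCompact {x : ℝ × Mat n × Vec n × Mat n | x.1 ∈ Icc 1 U ∧ Reg B₀ m M' r x.1 x.2.1 ∧
      ‖x.2.2.1‖ ≤ R ∧ x.2.2.2.PosSemidef ∧ x.2.2.2.trace = 1} := by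
  set φ : ℝ → ℝ := fun u => (M' * ((max u 1) ^ r - 1) - m * (u - 1)) * n + |m * (u - 1)| with hφ
  have hpc : Continuous fun u : ℝ => (max u 1) ^ r :=
    (continuous_id.max continuous_const).rpow_const
      (fun u => Or.inl (by have : (1:ℝ) ≤ max (id u) 1 := le_max_right _ _; linarith))
  have hφc : Continuous φ := by
    have := hpc
    fun_prop
  obtain ⟨C, hC⟩ := (isCompact_Icc (a := (1 : ℝ)) (b := U)).exists_bound_of_continuousOn
    hφc.continuousOn
  set C₁ : ℝ := C + ∑ i, ∑ j, |B₀ i j| with hC₁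
  refine IsCompact.of_isClosed_subset (s := (Icc 1 U) ×ˢ {B : Mat n | ∀ i j, B i j ∈ Icc (-C₁) C₁} ×ˢ
    Metric.closedBall (0 : Vec n) R ×ˢ {B : Mat n | ∀ i j, B i j ∈ Icc (-1) 1})
    (isCompact_Icc.prod ((region_box _).prod ((isCompact_closedBall _ _).prod (region_box _)))) ?_ ?_
  · have e : {x : ℝ × Mat n × Vec n × Mat n | x.1 ∈ Icc 1 U ∧ Reg B₀ m M' r x.1 x.2.1 ∧
        ‖x.2.2.1‖ ≤ R ∧ x.2.2.2.PosSemidef ∧ x.2.2.2.trace = 1} =
        {x | x.1 ∈ Icc 1 U} ∩ ({x | (x.2.1 - (B₀ + (m * (x.1 - 1)) • (1 : Mat n))).PosSemidef} ∩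
          ({x | (B₀ + (M' * ((max x.1 1) ^ r - 1)) • (1 : Mat n) - x.2.1).PosSemidef} ∩
          ({x | ‖x.2.2.1‖ ≤ R} ∩ ({x | x.2.2.2.PosSemidef} ∩ {x | x.2.2.2.trace = 1})))) := by
      ext x
      simp only [mem_ofPred_eq, mem_inter_iff]
      constructor
      · rintro ⟨h1, h2, h3⟩
        refine ⟨h1, h2.lo, ?_, h3⟩
        rw [max_eq_left h1.1]
        exact h2.hi
      · rintro ⟨h1, h2, h3, h4⟩
        rw [max_eq_left h1.1] at h3
        exact ⟨h1, ⟨h2, h3⟩, h4⟩
    rw [e]
    have c1 : Continuous fun x : ℝ × Mat n × Vec n × Mat n =>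
        x.2.1 - (B₀ + (m * (x.1 - 1)) • (1 : Mat n)) := by fun_prop
    have c2 : Continuous fun x : ℝ × Mat n × Vec n × Mat n =>
        B₀ + (M' * ((max x.1 1) ^ r - 1)) • (1 : Mat n) - x.2.1 := by
      have h1 : Continuous fun x : ℝ × Mat n × Vec n × Mat n => (max x.1 1) ^ r :=
        hpc.comp continuous_fst
      fun_prop
    have c3 : Continuous fun x : ℝ × Mat n × Vec n × Mat n => ‖x.2.2.1‖ := by fun_prop
    have c4 : Continuous fun x : ℝ × Mat n × Vec n × Mat n => x.2.2.2 := by fun_prop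
    refine (isClosed_Icc.preimage continuous_fst).inter ((region_closed.preimage c1).inter
      ((region_closed.preimage c2).inter ((isClosed_le c3 continuous_const).inter
      ((region_closed.preimage c4).inter ?_))))
    exact isClosed_eq c4.matrix_trace continuous_const
  · rintro ⟨u, B, c, P⟩ ⟨h1, h2, h3, h4, h5⟩
    simp only at h1 h2 h3 h4 h5
    refine ⟨h1, ?_, ?_, ?_⟩
    · intro i j
      have hN := region_entry h2.lo i j
      have hH := h2.hi
      have htr : 0 ≤ (B₀ + (M' * (u ^ r - 1)) • (1 : Mat n) - B).trace :=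
        Finset.sum_nonneg (fun k _ => hH.diag_nonneg)
      rw [trace_sub, trace_add, trace_smul, trace_one, Fintype.card_fin, smul_eq_mul] at htr
      rw [trace_sub, trace_add, trace_smul, trace_one, Fintype.card_fin, smul_eq_mul] at hN
      have hb := hC u h1
      rw [Real.norm_eq_abs] at hb
      have hb' := (le_abs_self _).trans hb
      simp only [hφ] at hb'
      rw [max_eq_left h1.1] at hb'
      have e : (B - (B₀ + (m * (u - 1)) • (1 : Mat n))) i j =
          B i j - B₀ i j - (m * (u - 1)) * (1 : Mat n) i j := by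
        simp only [Matrix.sub_apply, Matrix.add_apply, Matrix.smul_apply, smul_eq_mul]
        ring
      rw [e] at hN
      have h6 : |(m * (u - 1)) * (1 : Mat n) i j| ≤ |m * (u - 1)| := by
        rw [abs_mul]
        refine mul_le_of_le_one_right (abs_nonneg _) ?_
        rw [Matrix.one_apply]
        split_ifs <;> simp
      have h7 : |B₀ i j| ≤ ∑ i, ∑ j, |B₀ i j| :=
        (Finset.single_le_sum (f := fun j => |B₀ i j|) (fun _ _ => abs_nonneg _)
          (Finset.mem_univ j)).trans
        (Finset.single_le_sum (f := fun i => ∑ j, |B₀ i j|)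
          (fun _ _ => Finset.sum_nonneg fun _ _ => abs_nonneg _) (Finset.mem_univ i))
      have h8 : |B i j| ≤ C₁ := by
        have h9 : |B i j| ≤ |B i j - B₀ i j - (m * (u - 1)) * (1 : Mat n) i j| + |B₀ i j| +
            |(m * (u - 1)) * (1 : Mat n) i j| := by
          have := abs_add_three (B i j - B₀ i j - (m * (u - 1)) * (1 : Mat n) i j) (B₀ i j)
            ((m * (u - 1)) * (1 : Mat n) i j)
          refine le_trans (le_of_eq ?_) this
          congr 1
          ring
        linarith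
      exact ⟨(abs_le.1 h8).1, (abs_le.1 h8).2⟩
    · rw [mem_closedBall_zero_iff]
      exact h3
    · intro i j
      have := region_entry h4 i j
      rw [h5] at this
      exact ⟨(abs_le.1 this).1, (abs_le.1 this).2⟩

end Vale.Agent.P254.MP
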