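import Vale.Agent.P254.MP.Defs

/-!
P254, abstract maximum principle, G7: scaling of `quad` and `lin` (helper399).
-/

namespace Vale.Agent.P254.MP

open Matrix Set Filter Topology Asymptotics Polynomial
open Vale.Agent.P254.L

variable {n : ℕ}

theorem Scale_NN (s : ℝ) (P : Mat n) (T : Ten n) :
    NN P (s • T) (s • T) = s * s * NN P T T := by
  unfold NN Vale.Agent.P254.L.N3
  simp only [Finset.mul_sum, Pi.smul_apply, smul_eq_mul]
  refine Finset.sum_congr rfl fun a _ => Finset.sum_congr rfl fun b _ =>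
    Finset.sum_congr rfl fun c _ => Finset.sum_congr rfl fun a' _ =>
    Finset.sum_congr rfl fun b' _ => Finset.sum_congr rfl fun c' _ => ?_
  ring

theorem Scale_FF (q : ℝ[X]) {μ : ℝ} (hμ : 0 < μ) (A B : Mat n) (T : Ten n) (P : Mat n) :
    FF q μ A B (√μ • T) P = μ * FF q 1 A B T P := by
  unfold FF
  rw [Scale_NN, Real.mul_self_sqrt hμ.le]
  ring

theorem Scale_c3 (s : ℝ) (T : Ten n) (e : Vec n) : c3 (s • T) e = s • c3 T e := by
  ext i j
  simp only [c3, Matrix.of_apply, Matrix.smul_apply, Pi.smul_apply, smul_eq_mul, Finset.mul_sum]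
  exact Finset.sum_congr rfl fun k _ => by ring

theorem Scale_c4 (s : ℝ) (K : Ten4 n) (e : Vec n) : c4 (s • K) e = s • c4 K e := by
  funext i j k
  simp only [c4, Pi.smul_apply, smul_eq_mul, Finset.mul_sum]
  exact Finset.sum_congr rfl fun l _ => by ring

theorem Scale_aq (s : ℝ) (A Q : Mat n) (T : Ten n) : aq A Q (s • T) = s • aq A Q T := by
  funext i j k
  simp only [aq, Pi.smul_apply, smul_eq_mul, Finset.mul_sum]
  exact Finset.sum_congr rfl fun l _ => by ring

theorem quad_scale (q : ℝ[X]) {μ : ℝ} (hμ : 0 < μ) (A B : Mat n) (T : Ten n) (P : Mat n)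
    (K : Ten4 n) (e : Vec n) (X : Mat n) :
    quad q μ A B (√μ • T) P (μ • K) e (√μ • X) = μ ^ 2 * quad q 1 A B T P K e X := by
  set G : ℝ → ℝ := fun τ => FF q 1 (A + τ • c3 T e) B (T + τ • c4 K e) (P + τ • X) with hG
  have hs : √μ * √μ = μ := Real.mul_self_sqrt hμ.le
  have h1 : (fun τ : ℝ => FF q μ (A + τ • c3 (√μ • T) e) B (√μ • T + τ • c4 (μ • K) e)
      (P + τ • (√μ • X))) = fun τ => μ * G (√μ * τ) := by
    funext τ
    have e1 : √μ • T + τ • c4 (μ • K) e = √μ • (T + (√μ * τ) • c4 K e) := by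
      rw [Scale_c4, smul_add, smul_smul, smul_smul, ← mul_assoc, hs, mul_comm τ μ]
    rw [Scale_c3, e1, Scale_FF q hμ, smul_smul, smul_smul, mul_comm τ (√μ)]
  have h2 : deriv (fun τ : ℝ => μ * G (√μ * τ)) = fun τ => (μ * √μ) * deriv G (√μ * τ) := by
    funext τ
    have h3 : deriv (fun τ : ℝ => μ * G (√μ * τ)) τ = μ * deriv (fun τ : ℝ => G (√μ * τ)) τ := by
      rw [deriv_const_mul_field']
    rw [h3, deriv_comp_mul_left, smul_eq_mul, mul_assoc]
  show deriv (deriv fun τ : ℝ => FF q μ (A + τ • c3 (√μ • T) e) B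
    (√μ • T + τ • c4 (μ • K) e) (P + τ • (√μ • X))) 0 = μ ^ 2 * deriv (deriv G) 0
  have h4 : deriv (fun τ : ℝ => μ * √μ * deriv G (√μ * τ)) 0 =
      μ * √μ * deriv (fun τ : ℝ => deriv G (√μ * τ)) 0 := by
    rw [deriv_const_mul_field']
  rw [h1, h2, h4, deriv_comp_mul_left, smul_eq_mul, mul_zero, ← mul_assoc]
  congr 1
  calc μ * √μ * √μ = μ * (√μ * √μ) := by ring
    _ = μ ^ 2 := by rw [hs]; ring

theorem lin_scale (q : ℝ[X]) {μ : ℝ} (hμ : 0 < μ) (A B : Mat n) (T : Ten n) (P Q : Mat n) :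
    lin q μ A B (√μ • T) P Q = μ * lin q 1 A B T P Q := by
  unfold lin
  have h1 : (fun t : ℝ => FF q μ (A - t • (A * Q * A)) (B + t • Q)
      (√μ • T - t • aq A Q (√μ • T)) P) =
      fun t : ℝ => μ * FF q 1 (A - t • (A * Q * A)) (B + t • Q) (T - t • aq A Q T) P := by
    funext t
    rw [Scale_aq, smul_comm t (√μ), ← smul_sub, Scale_FF q hμ]
  rw [h1, deriv_const_mul_field']

end Vale.Agent.P254.MP
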