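import Vale.Agent.P254.MP.Help
import Vale.Agent.P254.MP.Hermite
import Vale.Agent.P254.MP.Compare
import Vale.Agent.P254.MP.Cube
import Vale.Agent.P254.MP.ContactP
import Vale.Agent.P254.MP.Ito
import Vale.Agent.P254.MP.Scale
import Vale.Agent.P254.MP.LinBound
import Vale.Agent.P254.MP.Region

/-!
P254, abstract maximum principle: the argument at the maximum (helper649).
-/

namespace Vale.Agent.P254.MP

open Matrix Set Filter Topology Asymptotics Polynomial
open Vale.Agent.P254.L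

variable {n : ℕ}

/-! ### consequences of the frame lemmas -/

theorem diag_sub (s : ℝ) (d : Vec n) :
    diagonal (fun i => s - d i) = s • (1 : Mat n) - diagonal d := by
  ext i j
  by_cases h : i = j
  · subst h; simp
  · simp [h]

theorem diag_sub' (s : ℝ) (d : Vec n) :
    diagonal (fun i => d i - s) = diagonal d - s • (1 : Mat n) := by
  ext i j
  by_cases h : i = j
  · subst h; simp
  · simp [h]

theorem exists_upper {X : Mat n} (hX : X.IsSymm) :
    ∃ b : ℝ, 0 < b ∧ (b • (1 : Mat n) - X).PosSemidef := by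
  obtain ⟨g, d, h⟩ := exists_dg (Matrix.PosDef.one : (1 : Mat n).PosDef) hX
  have h1 : g * gᵀ = 1 := h.hA.symm
  have hX' : X = g * diagonal d * gᵀ := by
    rw [← h.hB]
    calc X = (g * gᵀ) * X * (g * gᵀ) := by rw [h1, one_mul, mul_one]
      _ = _ := by simp only [mul_assoc]
  refine ⟨1 + ∑ i, |d i|, by positivity, ?_⟩
  have hd : ∀ i, d i ≤ 1 + ∑ i, |d i| := fun i => by
    have := Finset.single_le_sum (f := fun i => |d i|) (fun j _ => abs_nonneg _)
      (Finset.mem_univ i)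
    have h2 := le_abs_self (d i)
    linarith
  have e : (1 + ∑ i, |d i|) • (1 : Mat n) - X =
      g * diagonal (fun i => (1 + ∑ i, |d i|) - d i) * gᵀ := by
    rw [diag_sub, mul_sub, sub_mul, ← hX', Matrix.mul_smul, mul_one, Matrix.smul_mul, h1]
  rw [e]
  exact psd_conj (Matrix.PosSemidef.diagonal fun i => sub_nonneg.2 (hd i)) g

theorem exists_lower {B : Mat n} (hB : B.PosDef) :
    ∃ ε : ℝ, 0 < ε ∧ (B - ε • (1 : Mat n)).PosSemidef := by
  obtain ⟨g, d, h⟩ := exists_dg (Matrix.PosDef.one : (1 : Mat n).PosDef)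
    (psd_symm hB.posSemidef)
  have h1 : g * gᵀ = 1 := h.hA.symm
  have hB' : B = g * diagonal d * gᵀ := by
    rw [← h.hB]
    calc B = (g * gᵀ) * B * (g * gᵀ) := by rw [h1, one_mul, mul_one]
      _ = _ := by simp only [mul_assoc]
  obtain ⟨ε, hε, hd⟩ : ∃ ε : ℝ, 0 < ε ∧ ∀ i, ε ≤ d i := by
    rcases isEmpty_or_nonempty (Fin n) with hn | hn
    · exact ⟨1, one_pos, fun i => (IsEmpty.false i).elim⟩
    · obtain ⟨i, hi⟩ := Finite.exists_min d
      exact ⟨d i, dg_pos h hB i, hi⟩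
  refine ⟨ε, hε, ?_⟩
  have e : B - ε • (1 : Mat n) = g * diagonal (fun i => d i - ε) * gᵀ := by
    rw [diag_sub', mul_sub, sub_mul, ← hB', Matrix.mul_smul, mul_one, Matrix.smul_mul, h1]
  rw [e]
  exact psd_conj (Matrix.PosSemidef.diagonal fun i => sub_nonneg.2 (hd i)) g

theorem SQ_eq_Sf {A B : Mat n} (hA : A.PosDef) (hB : B.IsSymm) {p : ℝ → ℝ} {q : ℝ[X]}
    (hq : ∀ x ∈ (B * A).charpoly.roots, Her p q x) : SQ q A B = Sf p A B := by
  obtain ⟨g, b, h⟩ := exists_dg hA hB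
  rw [dg_SQ h, dg_Sf h]
  congr 3
  funext i
  exact (hq (b i) ((dg_roots h _).2 ⟨i, rfl⟩)).1

theorem continuous_SQ (q : ℝ[X]) : Continuous fun x : Mat n × Mat n => SQ q x.1 x.2 := by
  unfold SQ
  refine continuous_fst.mul ?_
  exact (Polynomial.continuous_aeval q).comp (continuous_snd.mul continuous_fst)

theorem FF_eq (q : ℝ[X]) (μ : ℝ) (A B : Mat n) (T : Ten n) (P : Mat n) :
    FF q μ A B T P = NN P T T - μ * ((SQ q A B * P) ^ 3).trace := rfl

theorem core_c3_smul (s : ℝ) (T : Ten n) (e : Vec n) : c3 (s • T) e = s • c3 T e := by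
  ext i j
  simp only [c3, Matrix.of_apply, Matrix.smul_apply, Pi.smul_apply, smul_eq_mul, Finset.mul_sum]
  exact Finset.sum_congr rfl fun k _ => by ring

theorem c4_smul (s : ℝ) (K : Ten4 n) (e : Vec n) : c4 (s • K) e = s • c4 K e := by
  funext i j k
  simp only [c4, Pi.smul_apply, smul_eq_mul, Finset.mul_sum]
  exact Finset.sum_congr rfl fun l _ => by ring

/-- scaling of the functional along a direction in `c` (with `P` fixed). -/
theorem FF_scale (q : ℝ[X]) {μ : ℝ} (hμ : 0 < μ) (A B : Mat n) (T : Ten n) (P : Mat n)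
    (K : Ten4 n) (e : Vec n) (τ : ℝ) :
    FF q μ (A + τ • c3 (√μ • T) e) B (√μ • T + τ • c4 (μ • K) e) P =
      μ * FF q 1 (A + (√μ * τ) • c3 T e) B (T + (√μ * τ) • c4 K e) P := by
  have hs : √μ * √μ = μ := Real.mul_self_sqrt hμ.le
  have e1 : A + τ • c3 (√μ • T) e = A + (√μ * τ) • c3 T e := by
    rw [core_c3_smul, smul_smul, mul_comm]
  have e2 : √μ • T + τ • c4 (μ • K) e = √μ • (T + (√μ * τ) • c4 K e) := by
    rw [c4_smul, smul_add, smul_smul, smul_smul, ← mul_assoc, hs, mul_comm τ μ]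
  rw [e1, e2, FF_eq, FF_eq, NN_smul_T, Real.sq_sqrt hμ.le]
  ring

theorem tsymm_smul {T : Ten n} (h : TSymm T) (s : ℝ) : TSymm (s • T) :=
  ⟨fun i j k => by simp only [Pi.smul_apply, h.1 i j k], fun i j k => by
    simp only [Pi.smul_apply, h.2 i j k]⟩

theorem core (D : TiltData n) {p : ℝ → ℝ} (hp : ContDiffOn ℝ 2 p (Ioo 0 1))
    (hpos : ∀ x ∈ Ioo (0 : ℝ) 1, 0 < p x) {η C₀ : ℝ} (hη : 0 < η) (hηC : η ≤ C₀)
    (hALG : ALG n p η C₀) {B₀ : Mat n} {M' : ℝ} (hM'0 : 0 ≤ M') (hB₀ : B₀.PosSemidef)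
    (hM' : (M' • (1 : Mat n) - (B₀ + D.M • (1 : Mat n))).PosSemidef) {U u : ℝ} (hu1 : 1 ≤ u)
    (huU : u < U) {B : Mat n} (hReg : Reg B₀ D.m M' (C₀ / η) u B) (hB : B.PosDef) {c : Vec n}
    {R : ℝ} (hc : ‖c‖ < R) {P : Mat n} (hP : P.PosSemidef) (hP0 : P ≠ 0) {lam : ℝ}
    (hlam : 0 < lam) {N : ℕ}
    (LI : ∀ (u' : ℝ) (B' : Mat n) (c' : Vec n) (P' : Mat n), 1 ≤ u' → u' ≤ U →
      Reg B₀ D.m M' (C₀ / η) u' B' → ‖c'‖ ≤ R → P'.PosSemidef →
      NN P' (D.T B' c') (D.T B' c') ≤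
        (1 + lam * (u / u') ^ N) * ((Sf p (D.A B' c') B' * P') ^ 3).trace)
    (heq : NN P (D.T B c) (D.T B c) = (1 + lam) * ((Sf p (D.A B c) B * P) ^ 3).trace)
    {C' : ℝ} (hC' : ∀ (Q : Mat n) (q : ℝ[X]), Q.PosSemidef → (C₀ • (D.A B c)⁻¹ - Q).PosSemidef →
      (∀ x ∈ (B * D.A B c).charpoly.roots, Her p q x) →
      |lin q 1 (D.A B c) B ((√(1 + lam))⁻¹ • D.T B c) P Q| ≤ C') :
    N * η * ((Sf p (D.A B c) B * P) ^ 3).trace ≤ (1 + lam) * C' := by
  set μ : ℝ := 1 + lam with hμdef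
  have hμ : 0 < μ := by linarith
  have hs0 : √μ ≠ 0 := (Real.sqrt_pos.2 hμ).ne'
  set A : Mat n := D.A B c with hA
  set T : Ten n := D.T B c with hT
  set K : Ten4 n := D.K B c with hK
  set S : Mat n := Sf p A B with hSdef
  have hBs : B.PosSemidef := hB.posSemidef
  have hApos : A.PosDef := D.posA B hBs c
  have hAB : (A⁻¹ - B).PosDef := by
    have h1 := D.up B hBs c
    have h2 : (D.m • (1 : Mat n)).PosDef := Matrix.PosDef.one.smul D.hm
    have h3 : A⁻¹ - B = (A⁻¹ - (B + D.m • (1 : Mat n))) + D.m • (1 : Mat n) := by abel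
    rw [h3]
    exact Matrix.PosDef.posSemidef_add h1 h2
  have hS : S.PosDef := Sf_posDef hpos hApos hB hAB
  have hTs : TSymm T := D.T_symm B c
  have hmax : ∀ P' : Mat n, P'.PosSemidef → NN P' T T ≤ μ * ((S * P') ^ 3).trace := by
    intro P' hP'
    have h1 := LI u B c P' hu1 huU.le hReg hc.le hP'
    rwa [div_self (by linarith : u ≠ 0), one_pow, mul_one] at h1
  obtain ⟨hfirst, hsecond⟩ := contact_of_max hS hTs hP hP0 hμ hmax heq
  obtain ⟨g₀, b, hdg⟩ := exists_dg hApos (psd_symm hBs)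
  have hroots : ∀ x ∈ (B * A).charpoly.roots, x ∈ Ioo (0 : ℝ) 1 := by
    intro x hx
    obtain ⟨i, rfl⟩ := (dg_roots hdg x).1 hx
    exact ⟨dg_pos hdg hB i, dg_lt_one hdg hAB i⟩
  set T' : Ten n := (√μ)⁻¹ • T with hT'
  have hTT' : T = √μ • T' := by rw [hT', smul_smul, mul_inv_cancel₀ hs0, one_smul]
  set K' : Ten4 n := μ⁻¹ • K with hK'
  have hKK' : K = μ • K' := by rw [hK', smul_smul, mul_inv_cancel₀ hμ.ne', one_smul]
  have hinv : ((√μ)⁻¹) ^ 2 = μ⁻¹ := by rw [inv_pow, Real.sq_sqrt hμ.le]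
  -- the contact data
  have hcont : Contact p A B T' P := by
    refine ⟨hApos, hB, hAB, tsymm_smul hTs _, hP, hP0, ?_, ?_, ?_⟩
    · intro P' hP'
      rw [hT', NN_smul_T, hinv, inv_mul_le_iff₀ hμ]
      exact hmax P' hP'
    · intro X hX
      rw [hT', N3_smul_T, hinv, hfirst X hX, inv_mul_cancel_left₀ hμ.ne']
    · intro X hX
      rw [hT', N3_smul_T, hinv, inv_mul_le_iff₀ hμ]
      exact hsecond X hX
  have hKs : KSymm K' := by
    refine ⟨fun i j k l => ?_, fun i j k l => ?_, fun i j k l => ?_⟩ <;>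
      simp only [hK', Pi.smul_apply, hK]
    · rw [D.K_symm1 B c i j k l]
    · rw [D.K_symm2 B c i j k l]
    · rw [D.K_symm3 B c i j k l]
  have hFF0 : ∀ q : ℝ[X], (∀ x ∈ (B * A).charpoly.roots, Her p q x) → FF q μ A B T P = 0 := by
    intro q hq
    rw [FF_eq, SQ_eq_Sf hApos (psd_symm hBs) hq, heq]
    ring
  -- second order test in the directions `c`
  have hdir : ∀ q : ℝ[X], (∀ x ∈ (B * A).charpoly.roots, Her p q x) → ∀ (e : Vec n) (L : Mat n)
      (f₁ f₂ : ℝ), ((fun τ : ℝ => FF q μ (D.A B (c + τ • e)) B (D.T B (c + τ • e))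
        ((1 + τ • L) * P * (1 + τ • L)ᵀ) - (FF q μ A B T P + τ * f₁ + τ ^ 2 * f₂))
        =o[𝓝 0] fun τ => τ ^ 2) → f₁ = 0 ∧ f₂ ≤ 0 := by
    intro q hq e L f₁ f₂ ht
    have hSdiff : Mo (𝓝 0) (fun τ : ℝ => τ ^ 2)
        fun τ => Sf p (D.A B (c + τ • e)) B - SQ q (D.A B (c + τ • e)) B := by
      intro i j
      refine Sf_sub_SQ (A := fun τ => D.A B (c + τ • e)) (B := fun _ => B) (A₀ := A) (B₀ := B)
        le_rfl hApos (psd_symm hBs) ?_ ?_ ?_ ?_ hp q
        (fun x hx => ⟨hroots x hx, hq x hx⟩) i j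
      · intro i j
        have h1 := (D.dA B hBs c e i j 0).isBigO_sub
        simpa using h1
      · intro i j
        simp only [sub_self]
        exact isBigO_zero _ _
      · exact Eventually.of_forall fun t => D.posA B hBs _
      · exact Eventually.of_forall fun t => psd_symm hBs
    have hAt : Tendsto (fun τ : ℝ => D.A B (c + τ • e)) (𝓝 0) (𝓝 A) := by
      refine tendsto_pi_nhds.2 fun i => tendsto_pi_nhds.2 fun j => ?_
      have h1 := (D.dA B hBs c e i j 0).continuousAt.tendsto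
      simpa using h1
    have hSQO : MO (𝓝 0) fun τ : ℝ => SQ q (D.A B (c + τ • e)) B := by
      refine MO.of_tendsto (X₀ := SQ q A B) ?_
      exact ((continuous_SQ q).tendsto (A, B)).comp (hAt.prodMk_nhds tendsto_const_nhds)
    have hPO : MO (𝓝 0) fun τ : ℝ => (1 + τ • L) * P * (1 + τ • L)ᵀ := by
      refine MO.of_tendsto (X₀ := (1 + (0 : ℝ) • L) * P * (1 + (0 : ℝ) • L)ᵀ) ?_
      have : Continuous fun τ : ℝ => (1 + τ • L) * P * (1 + τ • L)ᵀ := by fun_prop
      exact this.tendsto 0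
    have hφ : (fun τ : ℝ => τ ^ 2) =O[𝓝 0] fun _ => (1 : ℝ) := by
      have : Tendsto (fun τ : ℝ => τ ^ 2) (𝓝 0) (𝓝 (0 ^ 2)) := tendsto_id.pow 2
      exact this.isBigO_one ℝ
    have hG := (cube_diff hSdiff hφ hSQO hPO).const_mul_left μ
    refine taylor_test (F := fun τ => FF q μ (D.A B (c + τ • e)) B (D.T B (c + τ • e))
      ((1 + τ • L) * P * (1 + τ • L)ᵀ)) ?_ hG ?_
    · refine ht.congr_left fun τ => ?_
      rw [hFF0 q hq, zero_add]
    · have hcont' : ∀ᶠ τ : ℝ in 𝓝 0, ‖c + τ • e‖ ≤ R := by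
        have h1 : Continuous fun τ : ℝ => ‖c + τ • e‖ := by fun_prop
        have h2 : ‖c + (0 : ℝ) • e‖ < R := by simpa using hc
        filter_upwards [(h1.tendsto 0).eventually (gt_mem_nhds h2)] with τ hτ using le_of_lt hτ
      filter_upwards [hcont'] with τ hτ
      have h1 := LI u B (c + τ • e) ((1 + τ • L) * P * (1 + τ • L)ᵀ) hu1 huU.le hReg hτ
        (psd_conj hP _)
      rw [div_self (by linarith : u ≠ 0), one_pow, mul_one, ← hμdef] at h1
      rw [FF_eq]
      linarith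
  have hgrad : ∀ q : ℝ[X], (∀ x ∈ (B * A).charpoly.roots, Her p q x) → ∀ X : Mat n, X.IsSymm →
      N3 X P P T T = μ * (X * (SQ q A B * P * SQ q A B * P * SQ q A B)).trace := by
    intro q hq X hX
    rw [SQ_eq_Sf hApos (psd_symm hBs) hq]
    exact hfirst X hX
  have hne : Nonempty (Fin n) := by
    by_contra h
    rw [not_nonempty_iff] at h
    exact hP0 (Subsingleton.elim _ _)
  -- stationarity
  have hstat : Stat p A B T' P K' := by
    intro q hq e
    obtain ⟨f₁, f₂, s, h1, h2, -, -⟩ := ito D q μ hBs c (psd_symm hP) (Matrix.of fun i _ => e i)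
      (fun _ => 0) (hgrad q hq)
    obtain ⟨k⟩ := hne
    have h3 : f₁ k = 0 := (hdir q hq e 0 (f₁ k) (f₂ k) (h1 k)).1
    rw [h2 k] at h3
    have h4 : (fun τ : ℝ => FF q μ (A + τ • c3 T e) B (T + τ • c4 K e) P) =
        fun τ => μ * FF q 1 (A + (√μ * τ) • c3 T' e) B (T' + (√μ * τ) • c4 K' e) P := by
      funext τ
      have := FF_scale q hμ A B T' P K' e τ
      rw [← hTT', ← hKK'] at this
      exact this
    have h5 : deriv (fun τ : ℝ => FF q μ (A + τ • c3 T e) B (T + τ • c4 K e) P) 0 = 0 := by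
      have e1 : (fun i => Matrix.of (fun i (_ : Fin n) => e i) i k) = e := rfl
      simpa [e1] using h3
    rw [h4, deriv_const_mul_field] at h5
    have h6 := deriv_comp_mul_left (√μ)
      (fun τ : ℝ => FF q 1 (A + τ • c3 T' e) B (T' + τ • c4 K' e) P) 0
    rw [mul_zero] at h6
    rw [h6, smul_eq_mul] at h5
    rcases mul_eq_zero.1 h5 with h7 | h7
    · exact absurd h7 hμ.ne'
    · rcases mul_eq_zero.1 h7 with h8 | h8
      · exact absurd h8 hs0
      · exact h8
  obtain ⟨g, L', hQ1, hQ2, hdrift⟩ := hALG A B T' P K' hcont hKs hstat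
  obtain ⟨q, hq⟩ := exists_her p (B * A).charpoly.roots.toFinset
  have hq' : ∀ x ∈ (B * A).charpoly.roots, Her p q x := fun x hx =>
    hq x (Multiset.mem_toFinset.2 hx)
  have hdr := hdrift q hq'
  set Q : Mat n := g * gᵀ with hQ
  have hQpsd : Q.PosSemidef := by
    have := psd_conj (one_psd (n := n)) g
    rwa [mul_one] at this
  obtain ⟨f₁, f₂, s, h1, -, h3, h4⟩ := ito D q μ hBs c (psd_symm hP) g (fun k => √μ • L' k)
    (hgrad q hq')
  have hf₂ : ∀ k, f₂ k ≤ 0 := fun k => (hdir q hq' _ _ (f₁ k) (f₂ k) (h1 k)).2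
  -- the time direction
  set D₀ : ℝ := ((S * P) ^ 3).trace with hD₀
  have hs : s ≤ lam * (-(N * η)) * D₀ := by
    set v : Vec n := Q *ᵥ D.mu B c with hv
    have hBt : ∀ t : ℝ, 0 ≤ t → (B + t • Q).PosSemidef := fun t ht =>
      hBs.add (psd_smul hQpsd ht)
    have hge : ∀ᶠ t : ℝ in 𝓝[≥] 0, 0 ≤ t := self_mem_nhdsWithin
    have hSdiff : Mo (𝓝[≥] 0) (fun t : ℝ => t ^ 2) fun t =>
        Sf p (D.A (B + t • Q) (c + t • v)) (B + t • Q) -
          SQ q (D.A (B + t • Q) (c + t • v)) (B + t • Q) := by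
      intro i j
      refine Sf_sub_SQ (A := fun t => D.A (B + t • Q) (c + t • v)) (B := fun t => B + t • Q)
        (A₀ := A) (B₀ := B) nhdsWithin_le_nhds hApos (psd_symm hBs) ?_ ?_ ?_ ?_ hp q
        (fun x hx => ⟨hroots x hx, hq' x hx⟩) i j
      · intro i j
        have h1 := (D.fA B hBs c Q hQpsd i j).hasFDerivWithinAt.isBigO_sub
        simpa using h1
      · intro i j
        have h1 : (fun t : ℝ => (B + t • Q) i j - B i j) = fun t => Q i j * t := by
          funext t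
          simp [mul_comm]
        rw [h1]
        exact (isBigO_refl _ _).const_mul_left _
      · exact hge.mono fun t ht => D.posA _ (hBt t ht) _
      · exact hge.mono fun t ht => psd_symm (hBt t ht)
    have hAt : Tendsto (fun t : ℝ => D.A (B + t • Q) (c + t • v)) (𝓝[≥] 0) (𝓝 A) := by
      refine tendsto_pi_nhds.2 fun i => tendsto_pi_nhds.2 fun j => ?_
      have h1 := (D.fA B hBs c Q hQpsd i j).continuousWithinAt.tendsto
      simpa using h1
    have hBt' : Tendsto (fun t : ℝ => B + t • Q) (𝓝[≥] 0) (𝓝 B) := by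
      have h1 : Continuous fun t : ℝ => B + t • Q := by fun_prop
      have h2 := h1.tendsto 0
      rw [zero_smul, add_zero] at h2
      exact h2.mono_left nhdsWithin_le_nhds
    have hSQt : Tendsto (fun t : ℝ => SQ q (D.A (B + t • Q) (c + t • v)) (B + t • Q))
        (𝓝[≥] 0) (𝓝 S) := by
      have h1 := ((continuous_SQ q).tendsto (A, B)).comp (hAt.prodMk_nhds hBt')
      rwa [show SQ q (A, B).1 (A, B).2 = S from SQ_eq_Sf hApos (psd_symm hBs) hq'] at h1
    have hSQO := MO.of_tendsto hSQt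
    have hPO : MO (𝓝[≥] 0) fun _ : ℝ => P := MO.of_tendsto tendsto_const_nhds
    have hφ : (fun t : ℝ => t ^ 2) =O[𝓝[≥] 0] fun _ => (1 : ℝ) := by
      have : Tendsto (fun t : ℝ => t ^ 2) (𝓝 0) (𝓝 (0 ^ 2)) := tendsto_id.pow 2
      exact (this.mono_left nhdsWithin_le_nhds).isBigO_one ℝ
    have hφ' : (fun t : ℝ => t ^ 2) =o[𝓝[≥] 0] fun t : ℝ => t := by
      have h1 : (fun t : ℝ => t ^ 2) =o[𝓝 0] fun t : ℝ => t := by
        simpa using (isLittleO_pow_pow (𝕜 := ℝ) (show 1 < 2 by norm_num))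
      exact h1.mono nhdsWithin_le_nhds
    have hd := cube_diff hSdiff hφ hSQO hPO
    -- the value of the denominator tends to `D₀`
    have hDt : Tendsto (fun t : ℝ => ((Sf p (D.A (B + t • Q) (c + t • v)) (B + t • Q) * P) ^ 3).trace
        - D₀) (𝓝[≥] 0) (𝓝 0) := by
      have h1 : Tendsto (fun t : ℝ =>
          ((SQ q (D.A (B + t • Q) (c + t • v)) (B + t • Q) * P) ^ 3).trace - D₀) (𝓝[≥] 0) (𝓝 0) := by
        have hc1 : Continuous fun X : Mat n => ((X * P) ^ 3).trace - D₀ := by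
          refine Continuous.sub (Continuous.matrix_trace ?_) continuous_const
          fun_prop
        have h2 := (hc1.tendsto S).comp hSQt
        rwa [show ((S * P) ^ 3).trace - D₀ = 0 by rw [hD₀, sub_self]] at h2
      have h2 : Tendsto (fun t : ℝ =>
          ((Sf p (D.A (B + t • Q) (c + t • v)) (B + t • Q) * P) ^ 3).trace -
          ((SQ q (D.A (B + t • Q) (c + t • v)) (B + t • Q) * P) ^ 3).trace) (𝓝[≥] 0) (𝓝 0) := by
        refine (hd.trans_tendsto ?_)
        have : Tendsto (fun t : ℝ => t ^ 2) (𝓝 0) (𝓝 (0 ^ 2)) := tendsto_id.pow 2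
        simpa using this.mono_left (nhdsWithin_le_nhds (s := Ici (0 : ℝ)))
      have h3 := h2.add h1
      rw [add_zero] at h3
      refine h3.congr fun t => ?_
      ring
    have hw : HasDerivAt (fun t : ℝ => ((1 + η * t)⁻¹) ^ N - 1) (-(N * η)) 0 := by
      have h1 : HasDerivAt (fun t : ℝ => 1 + η * t) η 0 := by
        simpa using ((hasDerivAt_id (0 : ℝ)).const_mul η).const_add 1
      have h2 := h1.fun_inv (by simp)
      have h3 := (h2.fun_pow N).sub_const 1
      refine h3.congr_deriv ?_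
      simp
    have hwO : (fun t : ℝ => ((1 + η * t)⁻¹) ^ N - 1) =O[𝓝[≥] 0] fun t : ℝ => t := by
      have h1 := hw.isBigO_sub
      have h2 : (fun t : ℝ => ((1 + η * t)⁻¹) ^ N - 1) =O[𝓝 0] fun t : ℝ => t := by simpa using h1
      exact h2.mono nhdsWithin_le_nhds
    refine time_test (F := fun t : ℝ => FF q μ (D.A (B + t • Q) (c + t • v)) (B + t • Q)
        (D.T (B + t • Q) (c + t • v)) P)
      (W := fun t => lam * ((((1 + η * t)⁻¹) ^ N - 1)) * D₀)
      (G := fun t => μ * (((Sf p (D.A (B + t • Q) (c + t • v)) (B + t • Q) * P) ^ 3).trace -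
          ((SQ q (D.A (B + t • Q) (c + t • v)) (B + t • Q) * P) ^ 3).trace) +
        lam * ((((1 + η * t)⁻¹) ^ N - 1) *
          (((Sf p (D.A (B + t • Q) (c + t • v)) (B + t • Q) * P) ^ 3).trace - D₀)))
      ?_ h3 ?_ ?_ ?_ ?_
    · simp only [zero_smul, add_zero]
      exact hFF0 q hq'
    · refine IsLittleO.add ((hd.const_mul_left μ).trans hφ') (IsLittleO.const_mul_left ?_ _)
      have h1 : (fun t : ℝ => ((Sf p (D.A (B + t • Q) (c + t • v)) (B + t • Q) * P) ^ 3).trace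
        - D₀) =o[𝓝[≥] 0] fun _ => (1 : ℝ) := (isLittleO_one_iff ℝ).2 hDt
      simpa using hwO.mul_isLittleO h1
    · simp
    · exact ((hw.const_mul lam).mul_const D₀).hasDerivWithinAt
    · have ev1 : ∀ᶠ t : ℝ in 𝓝[≥] 0, ‖c + t • v‖ ≤ R := by
        have h1 : Continuous fun t : ℝ => ‖c + t • v‖ := by fun_prop
        have h2 : ‖c + (0 : ℝ) • v‖ < R := by simpa using hc
        refine nhdsWithin_le_nhds ?_
        filter_upwards [(h1.tendsto 0).eventually (gt_mem_nhds h2)] with t ht using le_of_lt ht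
      have ev2 : ∀ᶠ t : ℝ in 𝓝[≥] 0, u * (1 + η * t) ≤ U := by
        have h1 : Continuous fun t : ℝ => u * (1 + η * t) := by fun_prop
        have h2 : u * (1 + η * (0 : ℝ)) < U := by simpa using huU
        refine nhdsWithin_le_nhds ?_
        filter_upwards [(h1.tendsto 0).eventually (gt_mem_nhds h2)] with t ht using le_of_lt ht
      filter_upwards [ev1, ev2, hge] with t t1 t2 t3
      have hstep := reg_step hB₀ D.hm.le hη hηC hM' hM'0 hu1 hReg (D.lo B hBs c) (D.up B hBs c)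
        hQ1 hQ2 t3
      have h1t : 0 ≤ η * t := mul_nonneg hη.le t3
      have h1 := LI (u * (1 + η * t)) (B + t • Q) (c + t • v) P (by nlinarith) t2 hstep t1 hP
      have e1 : u / (u * (1 + η * t)) = (1 + η * t)⁻¹ := by
        have hu0 : u ≠ 0 := by linarith
        field_simp
      rw [e1] at h1
      rw [FF_eq]
      rw [hμdef]
      nlinarith [h1]
  -- the combination
  have hquad : ∀ k, quad q μ A B T P K (fun i => g i k)
      (√μ • L' k * P + P * (√μ • L' k)ᵀ) =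
      μ ^ 2 * quad q 1 A B T' P K' (fun i => g i k) (L' k * P + P * (L' k)ᵀ) := by
    intro k
    have e1 : √μ • L' k * P + P * (√μ • L' k)ᵀ = √μ • (L' k * P + P * (L' k)ᵀ) := by
      rw [Matrix.transpose_smul, Matrix.smul_mul, Matrix.mul_smul, smul_add]
    have := quad_scale q hμ A B T' P K' (fun i => g i k) (L' k * P + P * (L' k)ᵀ)
    rw [← hTT', ← hKK'] at this
    rw [e1, this]
  have hlin : lin q μ A B T P Q = μ * lin q 1 A B T' P Q := by
    have := lin_scale q hμ A B T' P Q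
    rwa [← hTT'] at this
  have hsum : ∑ k, quad q μ A B T P K (fun i => g i k) (√μ • L' k * P + P * (√μ • L' k)ᵀ) =
      μ ^ 2 * ∑ k, quad q 1 A B T' P K' (fun i => g i k) (L' k * P + P * (L' k)ᵀ) := by
    rw [Finset.mul_sum]
    exact Finset.sum_congr rfl fun k _ => hquad k
  have hlinb : lin q 1 A B T' P Q ≤ C' := (le_abs_self _).trans (hC' Q q hQpsd hQ2 hq')
  rw [hsum, hlin] at h4
  unfold drift at hdr
  have hfs : ∑ k, f₂ k ≤ 0 := Finset.sum_nonpos fun k _ => hf₂ k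
  set qs := ∑ k, quad q 1 A B T' P K' (fun i => g i k) (L' k * P + P * (L' k)ᵀ) with hqs
  set ℓ := lin q 1 A B T' P Q with hℓ
  have h5 : 0 ≤ 1 / 2 * qs + ℓ := hdr
  have h6 : μ ^ 2 * (1 / 2 * qs + ℓ) ≥ 0 := mul_nonneg (by positivity) h5
  have h7 : μ * lam * ℓ ≥ lam * (N * η) * D₀ := by
    have : μ ^ 2 - μ = μ * lam := by rw [hμdef]; ring
    nlinarith
  have h8 : lam * (N * η * D₀) ≤ lam * (μ * ℓ) := by linarith
  have h9 : N * η * D₀ ≤ μ * ℓ := le_of_mul_le_mul_left h8 hlam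
  exact h9.trans (mul_le_mul_of_nonneg_left hlinb hμ.le)

end Vale.Agent.P254.MP
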