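import Vale.Agent.P254.L.Tilt

/-!
P254, abstract maximum principle: definitions (helper649).

`S_q(A,B) = A q(BA)`; `(P)` : `⟨T,P³T⟩ ≤ tr (S P)³` for all positive semidefinite `P`.
-/

namespace Vale.Agent.P254.MP

open Matrix Set Filter Topology Asymptotics Polynomial
open Vale.Agent.P254.L

variable {n : ℕ}

/-- 4-tensors -/
abbrev Ten4 (n : ℕ) := Fin n → Fin n → Fin n → Fin n → ℝ

/-- `S_q(A,B) = A q(BA)` for a polynomial `q` -/
noncomputable def SQ (q : ℝ[X]) (A B : Mat n) : Mat n := A * aeval (B * A) q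

/-- `S_p(A,B) = A p(BA)` for a function `p` (interpolation at the eigenvalues of `BA`) -/
noncomputable def Sf (p : ℝ → ℝ) (A B : Mat n) : Mat n :=
  SQ (Lagrange.interpolate (B * A).charpoly.roots.toFinset id p) A B

/-- simultaneous diagonalisation `A = g gᵀ`, `gᵀ B g = diag b` -/
structure Dg (A B g : Mat n) (b : Vec n) : Prop where
  det : IsUnit g.det
  hA : A = g * gᵀ
  hB : gᵀ * B * g = diagonal b

/-- the polynomial `q` agrees with `p` up to second order at `x` -/
def Her (p : ℝ → ℝ) (q : ℝ[X]) (x : ℝ) : Prop :=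
  q.eval x = p x ∧ q.derivative.eval x = deriv p x ∧
    q.derivative.derivative.eval x = deriv (deriv p) x

/-- contraction of the last slot of a 3-tensor -/
def c3 (T : Ten n) (e : Vec n) : Mat n := Matrix.of fun i j => ∑ k, e k * T i j k

/-- contraction of the last slot of a 4-tensor -/
def c4 (K : Ten4 n) (e : Vec n) : Ten n := fun i j k => ∑ l, e l * K i j k l

/-- `A Q` acting on the three slots of `T` -/
def aq (A Q : Mat n) (T : Ten n) : Ten n := fun i j k =>
  ∑ l, ((A * Q) i l * T l j k + (A * Q) j l * T i l k + (A * Q) k l * T i j l)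

/-- symmetric 4-tensors -/
def KSymm (K : Ten4 n) : Prop := (∀ i j k l, K i j k l = K j i k l) ∧
  (∀ i j k l, K i j k l = K i k j l) ∧ (∀ i j k l, K i j k l = K i j l k)

/-- `⟨T,P³T⟩ - μ tr (S_q(A,B) P)³` -/
noncomputable def FF (q : ℝ[X]) (μ : ℝ) (A B : Mat n) (T : Ten n) (P : Mat n) : ℝ :=
  NN P T T - μ * ((SQ q A B * P) ^ 3).trace

/-- the second order part of the drift along the direction `e` with coupling `X` -/
noncomputable def quad (q : ℝ[X]) (μ : ℝ) (A B : Mat n) (T : Ten n) (P : Mat n) (K : Ten4 n)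
    (e : Vec n) (X : Mat n) : ℝ :=
  deriv (deriv fun τ : ℝ => FF q μ (A + τ • c3 T e) B (T + τ • c4 K e) (P + τ • X)) 0

/-- the first order part of the drift for the control `Q` -/
noncomputable def lin (q : ℝ[X]) (μ : ℝ) (A B : Mat n) (T : Ten n) (P Q : Mat n) : ℝ :=
  deriv (fun t : ℝ => FF q μ (A - t • (A * Q * A)) (B + t • Q) (T - t • aq A Q T) P) 0

/-- the drift of `⟨T,P³T⟩ - tr (S_q P)³` for the control `Q = g gᵀ` and the coupling `X` -/
noncomputable def drift (q : ℝ[X]) (A B : Mat n) (T : Ten n) (P : Mat n) (K : Ten4 n)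
    (g : Mat n) (X : Fin n → Mat n) : ℝ :=
  1 / 2 * ∑ k, quad q 1 A B T P K (fun i => g i k) (X k) + lin q 1 A B T P (g * gᵀ)

/-- contact data: `P` maximises `⟨T,P³T⟩ - tr (S P)³`, the maximum being `0`. -/
structure Contact (p : ℝ → ℝ) (A B : Mat n) (T : Ten n) (P : Mat n) : Prop where
  A_pos : A.PosDef
  B_pos : B.PosDef
  AB : (A⁻¹ - B).PosDef
  T_symm : TSymm T
  P_psd : P.PosSemidef
  P_ne : P ≠ 0
  /-- global maximality -/
  max : ∀ P' : Mat n, P'.PosSemidef → NN P' T T ≤ ((Sf p A B * P') ^ 3).trace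
  /-- first order condition -/
  first : ∀ X : Mat n, X.IsSymm →
    N3 X P P T T = (X * (Sf p A B * P * Sf p A B * P * Sf p A B)).trace
  /-- second order condition -/
  second : ∀ X : Mat n, X.IsSymm →
    N3 X X P T T ≤ (Sf p A B * X * Sf p A B * X * Sf p A B * P).trace

/-- stationarity in `c` -/
def Stat (p : ℝ → ℝ) (A B : Mat n) (T : Ten n) (P : Mat n) (K : Ten4 n) : Prop :=
  ∀ q : ℝ[X], (∀ x ∈ (B * A).charpoly.roots, Her p q x) → ∀ e : Vec n,
    deriv (fun τ : ℝ => FF q 1 (A + τ • c3 T e) B (T + τ • c4 K e) P) 0 = 0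

/-- the algebraic inequality at a contact point, for SOME control `Q = g gᵀ` comparable with
`A⁻¹` and SOME coupling. -/
def ALG (n : ℕ) (p : ℝ → ℝ) (η C₀ : ℝ) : Prop :=
  ∀ (A B : Mat n) (T : Ten n) (P : Mat n) (K : Ten4 n), Contact p A B T P → KSymm K →
    Stat p A B T P K →
    ∃ (g : Mat n) (L : Fin n → Mat n), (g * gᵀ - η • A⁻¹).PosSemidef ∧
      (C₀ • A⁻¹ - g * gᵀ).PosSemidef ∧
      ∀ q : ℝ[X], (∀ x ∈ (B * A).charpoly.roots, Her p q x) →
        0 ≤ drift q A B T P K g fun k => L k * P + P * (L k)ᵀ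

/-- the inequality `(P)` at one state -/
def PP (p : ℝ → ℝ) (A B : Mat n) (T : Ten n) : Prop :=
  ∀ P : Mat n, P.PosSemidef → NN P T T ≤ ((Sf p A B * P) ^ 3).trace

/-- the region of the maximum principle (`u ≥ 1`) -/
structure Reg (B₀ : Mat n) (m M' r u : ℝ) (B : Mat n) : Prop where
  lo : (B - (B₀ + (m * (u - 1)) • (1 : Mat n))).PosSemidef
  hi : (B₀ + (M' * (u ^ r - 1)) • (1 : Mat n) - B).PosSemidef

end Vale.Agent.P254.MP
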