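import Vale.Agent.P254.MP.Defs

/-!
P254, abstract maximum principle, G1: simultaneous diagonalisation and `S` in a frame (helper587).
-/

namespace Vale.Agent.P254.MP

open Matrix Set Filter Topology Asymptotics Polynomial
open Vale.Agent.P254.L

variable {n : ℕ}

lemma diag_sqrt {A : Mat n} (hA : A.PosDef) : ∃ C : Mat n, IsUnit C.det ∧ A = C * Cᵀ := by
  have hH : A.IsHermitian := hA.isHermitian
  set U : Mat n := (hH.eigenvectorUnitary : Mat n) with hU
  have hUU : U * Uᵀ = 1 := by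
    have := Unitary.coe_mul_star_self hH.eigenvectorUnitary
    simpa [star_eq_conjTranspose] using this
  have hspec : A = U * diagonal hH.eigenvalues * Uᵀ := by
    have h := hH.spectral_theorem
    rw [Unitary.conjStarAlgAut_apply] at h
    simpa [star_eq_conjTranspose, Function.comp_def] using h
  have hpos : ∀ i, 0 < hH.eigenvalues i := fun i => hA.eigenvalues_pos i
  have hA2 : A = (U * diagonal fun i => √(hH.eigenvalues i)) *
      (U * diagonal fun i => √(hH.eigenvalues i))ᵀ := by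
    rw [transpose_mul, diagonal_transpose, Matrix.mul_assoc, ← Matrix.mul_assoc (diagonal _),
      diagonal_mul_diagonal, ← Matrix.mul_assoc]
    conv_lhs => rw [hspec]
    congr 3
    funext i
    exact (Real.mul_self_sqrt (hpos i).le).symm
  refine ⟨_, ?_, hA2⟩
  have h1 : IsUnit A.det := (isUnit_iff_isUnit_det A).mp hA.isUnit
  rw [hA2, det_mul, det_transpose] at h1
  exact isUnit_of_mul_isUnit_left h1

lemma diag_spectral {H : Mat n} (hH : H.IsHermitian) :
    ∃ (U : Mat n) (d : Vec n), U * Uᵀ = 1 ∧ Uᵀ * U = 1 ∧ H = U * diagonal d * Uᵀ := by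
  refine ⟨(hH.eigenvectorUnitary : Mat n), hH.eigenvalues, ?_, ?_, ?_⟩
  · have := Unitary.coe_mul_star_self hH.eigenvectorUnitary
    simpa [star_eq_conjTranspose] using this
  · have := Unitary.coe_star_mul_self hH.eigenvectorUnitary
    simpa [star_eq_conjTranspose] using this
  · have h := hH.spectral_theorem
    rw [Unitary.conjStarAlgAut_apply] at h
    simpa [star_eq_conjTranspose, Function.comp_def] using h

theorem exists_dg {A B : Mat n} (hA : A.PosDef) (hB : B.IsSymm) : ∃ g b, Dg A B g b := by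
  obtain ⟨C, hC, hAC⟩ := diag_sqrt hA
  have hH : (Cᵀ * B * C).IsHermitian := by
    have : (Cᵀ * B * C)ᵀ = Cᵀ * B * C := by
      rw [transpose_mul, transpose_mul, transpose_transpose, hB.eq, Matrix.mul_assoc]
    simpa [IsHermitian] using this
  obtain ⟨U, d, hUU, hUU', hspec⟩ := diag_spectral hH
  refine ⟨C * U, d, ?_, ?_, ?_⟩
  · rw [det_mul]
    refine hC.mul ?_
    have h1 : U.det * Uᵀ.det = 1 := by rw [← det_mul, hUU, det_one]
    exact IsUnit.of_mul_eq_one _ h1
  · rw [transpose_mul, Matrix.mul_assoc, ← Matrix.mul_assoc U, hUU, Matrix.one_mul, hAC]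
  · have h1 : (C * U)ᵀ * B * (C * U) = Uᵀ * (Cᵀ * B * C) * U := by
      rw [transpose_mul]; simp only [Matrix.mul_assoc]
    rw [h1, hspec]
    have h2 : Uᵀ * (U * diagonal d * Uᵀ) * U = (Uᵀ * U) * diagonal d * (Uᵀ * U) := by
      simp only [Matrix.mul_assoc]
    rw [h2, hUU', Matrix.one_mul, Matrix.mul_one]

theorem dg_roots {A B g : Mat n} {b : Vec n} (h : Dg A B g b) (x : ℝ) :
    x ∈ (B * A).charpoly.roots ↔ ∃ i, b i = x := by
  have h1 : (B * A).charpoly = ∏ i, (X - C (b i)) := by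
    rw [h.hA, ← Matrix.mul_assoc, charpoly_mul_comm, ← Matrix.mul_assoc, h.hB, charpoly_diagonal]
  rw [mem_roots (charpoly_monic _).ne_zero, IsRoot.def, h1, eval_prod, Finset.prod_eq_zero_iff]
  constructor
  · rintro ⟨i, _, hi⟩
    refine ⟨i, ?_⟩
    rw [eval_sub, eval_X, eval_C] at hi
    linarith
  · rintro ⟨i, rfl⟩
    exact ⟨i, Finset.mem_univ _, by simp⟩

lemma diag_pow {A B g : Mat n} {b : Vec n} (h : Dg A B g b) (k : ℕ) :
    A * (B * A) ^ k = g * diagonal (fun i => b i ^ k) * gᵀ := by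
  induction k with
  | zero => simp [h.hA]
  | succ k ih =>
    rw [pow_succ, ← Matrix.mul_assoc, ih]
    have h1 : g * diagonal (fun i => b i ^ k) * gᵀ * (B * A) =
        g * (diagonal (fun i => b i ^ k) * (gᵀ * B * g)) * gᵀ := by
      rw [h.hA]; simp only [Matrix.mul_assoc]
    rw [h1, h.hB, diagonal_mul_diagonal]
    simp only [pow_succ]

theorem dg_SQ {A B g : Mat n} {b : Vec n} (h : Dg A B g b) (q : ℝ[X]) :
    SQ q A B = g * diagonal (fun i => q.eval (b i)) * gᵀ := by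
  unfold SQ
  induction q using Polynomial.induction_on' with
  | add p q hp hq =>
    rw [map_add, Matrix.mul_add, hp, hq, ← Matrix.add_mul, ← Matrix.mul_add, diagonal_add]
    simp only [eval_add]
  | monomial k c =>
    rw [aeval_monomial, Algebra.algebraMap_eq_smul_one, Matrix.smul_mul, Matrix.one_mul, Matrix.mul_smul, diag_pow h k,
      ← Matrix.smul_mul, ← Matrix.mul_smul, ← diagonal_smul]
    congr 3
    funext i
    simp [eval_monomial]

theorem dg_Sf {A B g : Mat n} {b : Vec n} (h : Dg A B g b) (p : ℝ → ℝ) :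
    Sf p A B = g * diagonal (fun i => p (b i)) * gᵀ := by
  unfold Sf
  rw [dg_SQ h]
  congr 3
  funext i
  have hi : b i ∈ (B * A).charpoly.roots.toFinset := by
    rw [Multiset.mem_toFinset]
    exact (dg_roots h _).mpr ⟨i, rfl⟩
  exact Lagrange.eval_interpolate_at_node (v := id) p (fun _ _ _ _ h => h) hi

lemma diag_inv {A B g : Mat n} {b : Vec n} (h : Dg A B g b) : gᵀ * A⁻¹ * g = 1 := by
  have hg : IsUnit g.det := h.det
  have hgT : IsUnit gᵀ.det := by rwa [det_transpose]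
  rw [h.hA, Matrix.mul_inv_rev, ← Matrix.mul_assoc, mul_nonsing_inv _ hgT, Matrix.one_mul,
    nonsing_inv_mul _ hg]

lemma diag_isUnit {A B g : Mat n} {b : Vec n} (h : Dg A B g b) : IsUnit g :=
  (isUnit_iff_isUnit_det g).mpr h.det

theorem dg_lt_one {A B g : Mat n} {b : Vec n} (h : Dg A B g b) (hAB : (A⁻¹ - B).PosDef)
    (i : Fin n) : b i < 1 := by
  have h1 : (star g * (A⁻¹ - B) * g).PosDef :=
    (Matrix.IsUnit.posDef_star_left_conjugate_iff (diag_isUnit h)).mpr hAB
  have h2 : star g * (A⁻¹ - B) * g = 1 - diagonal b := by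
    have : star g = gᵀ := by simp [star_eq_conjTranspose]
    rw [this, Matrix.mul_sub, Matrix.sub_mul, diag_inv h, h.hB]
  rw [h2] at h1
  have h3 := h1.diag_pos (i := i)
  simp at h3
  exact h3

theorem dg_pos {A B g : Mat n} {b : Vec n} (h : Dg A B g b) (hB : B.PosDef)
    (i : Fin n) : 0 < b i := by
  have h1 : (star g * B * g).PosDef :=
    (Matrix.IsUnit.posDef_star_left_conjugate_iff (diag_isUnit h)).mpr hB
  have h2 : star g * B * g = diagonal b := by
    have : star g = gᵀ := by simp [star_eq_conjTranspose]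
    rw [this, h.hB]
  rw [h2] at h1
  have h3 := h1.diag_pos (i := i)
  simp at h3
  exact h3

/-- `gᵀ g ≥ a` on the diagonal, when `A ≥ a` -/
lemma diag_gram {A B g : Mat n} {b : Vec n} (h : Dg A B g b) {a : ℝ} (ha : 0 < a)
    (hA : (A - a • (1 : Mat n)).PosSemidef) (i : Fin n) : a ≤ (gᵀ * g) i i := by
  have hg : IsUnit g.det := h.det
  -- `H = g⁻¹ (A - a) g⁻ᵀ = 1 - a g⁻¹ g⁻ᵀ ≥ 0`
  have h1 : (g⁻¹ * (A - a • (1 : Mat n)) * (g⁻¹)ᵀ).PosSemidef := by
    have := hA.mul_mul_conjTranspose_same g⁻¹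
    simpa using this
  have h2 : g⁻¹ * (A - a • (1 : Mat n)) * (g⁻¹)ᵀ = 1 - a • (g⁻¹ * (g⁻¹)ᵀ) := by
    rw [Matrix.mul_sub, Matrix.sub_mul, h.hA, ← Matrix.mul_assoc, nonsing_inv_mul _ hg,
      Matrix.one_mul, ← transpose_mul, nonsing_inv_mul _ hg, transpose_one, Matrix.mul_smul,
      Matrix.mul_one, Matrix.smul_mul]
  -- `(g - a g⁻ᵀ)ᵀ (g - a g⁻ᵀ) = gᵀ g - 2 a + a² g⁻¹ g⁻ᵀ ≥ 0`
  have h3 : ((g - a • (g⁻¹)ᵀ)ᵀ * (g - a • (g⁻¹)ᵀ)).PosSemidef := by
    have := posSemidef_conjTranspose_mul_self (g - a • (g⁻¹)ᵀ)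
    simpa using this
  have h4 : (g - a • (g⁻¹)ᵀ)ᵀ * (g - a • (g⁻¹)ᵀ) =
      gᵀ * g - (2 * a) • (1 : Mat n) + (a * a) • (g⁻¹ * (g⁻¹)ᵀ) := by
    have h5 : gᵀ * (g⁻¹)ᵀ = 1 := by rw [← transpose_mul, nonsing_inv_mul _ hg, transpose_one]
    rw [transpose_sub, transpose_smul, transpose_transpose, Matrix.sub_mul, Matrix.mul_sub,
      Matrix.mul_sub, Matrix.mul_smul, h5, Matrix.smul_mul, nonsing_inv_mul _ hg, Matrix.smul_mul,
      Matrix.mul_smul, smul_smul, two_mul, add_smul]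
    abel
  have h6 := h1.diag_nonneg (i := i)
  have h7 := h3.diag_nonneg (i := i)
  rw [h2] at h6
  rw [h4] at h7
  simp only [Matrix.sub_apply, Matrix.add_apply, Matrix.smul_apply, Matrix.one_apply_eq,
    smul_eq_mul, mul_one] at h6 h7
  nlinarith

theorem dg_le {A B g : Mat n} {b : Vec n} (h : Dg A B g b) {m a : ℝ} (hm : 0 ≤ m) (ha : 0 < a)
    (hAB : (A⁻¹ - (B + m • (1 : Mat n))).PosSemidef) (hA : (A - a • (1 : Mat n)).PosSemidef)
    (i : Fin n) : b i ≤ 1 - m * a := by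
  have h1 : (gᵀ * (A⁻¹ - (B + m • (1 : Mat n))) * g).PosSemidef := by
    have := hAB.conjTranspose_mul_mul_same g
    simpa using this
  have h2 : gᵀ * (A⁻¹ - (B + m • (1 : Mat n))) * g = 1 - (diagonal b + m • (gᵀ * g)) := by
    rw [Matrix.mul_sub, Matrix.sub_mul, diag_inv h, Matrix.mul_add, Matrix.add_mul, h.hB,
      Matrix.mul_smul, Matrix.mul_one, Matrix.smul_mul]
  rw [h2] at h1
  have h3 := h1.diag_nonneg (i := i)
  simp only [Matrix.sub_apply, Matrix.add_apply, Matrix.smul_apply, Matrix.one_apply_eq,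
    smul_eq_mul, diagonal_apply_eq] at h3
  have h4 := mul_le_mul_of_nonneg_left (diag_gram h ha hA i) hm
  linarith

theorem dg_ge {A B g : Mat n} {b : Vec n} (h : Dg A B g b) {ε a : ℝ} (hε : 0 ≤ ε) (ha : 0 < a)
    (hB : (B - ε • (1 : Mat n)).PosSemidef) (hA : (A - a • (1 : Mat n)).PosSemidef)
    (i : Fin n) : ε * a ≤ b i := by
  have h1 : (gᵀ * (B - ε • (1 : Mat n)) * g).PosSemidef := by
    have := hB.conjTranspose_mul_mul_same g
    simpa using this
  have h2 : gᵀ * (B - ε • (1 : Mat n)) * g = diagonal b - ε • (gᵀ * g) := by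
    rw [Matrix.mul_sub, Matrix.sub_mul, h.hB, Matrix.mul_smul, Matrix.mul_one, Matrix.smul_mul]
  rw [h2] at h1
  have h3 := h1.diag_nonneg (i := i)
  simp only [Matrix.sub_apply, Matrix.smul_apply, smul_eq_mul, diagonal_apply_eq] at h3
  have h4 := mul_le_mul_of_nonneg_left (diag_gram h ha hA i) hε
  linarith

end Vale.Agent.P254.MP
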