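import Vale.Agent.P254.MP.FrSum
import Vale.Agent.P254.MP.Diag

/-!
P254 (Y) (helper564): the frame version `L.ALG` of the drift inequality implies the general one,
`MP.ALG`.
-/

namespace Vale.Agent.P254.MP

open Matrix Set Filter Topology Asymptotics Polynomial
open Vale.Agent.P254.L Vale.Agent.P254.S526

variable {n : ℕ}

/-! ### the coupling -/

theorem exists_coupling {P Y : Mat n} (hY : Y.IsSymm) {C : ℝ}
    (h1 : (C • P - Y).PosSemidef) (h2 : (C • P + Y).PosSemidef) :
    ∃ M : Mat n, Y = M * P + P * Mᵀ := by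
  have hP : P.IsSymm ∨ C = 0 := by
    by_cases hC : C = 0
    · exact Or.inr hC
    · left
      have h3 := (h1.add h2).isHermitian
      have h4 : C • P - Y + (C • P + Y) = (2 * C) • P := by
        rw [two_mul, add_smul]; abel
      rw [h4] at h3
      have h5 : ((2 * C) • P)ᵀ = (2 * C) • P := by
        have := h3.eq
        rwa [Matrix.conjTranspose_eq_transpose_of_trivial] at this
      rw [Matrix.transpose_smul] at h5
      exact smul_right_injective _ (mul_ne_zero two_ne_zero hC) h5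
  have hker : ∀ v : Vec n, P *ᵥ v = 0 → Y *ᵥ v = 0 := by
    intro v hv
    have e1 : (C • P - Y) *ᵥ v = - (Y *ᵥ v) := by
      rw [Matrix.sub_mulVec, Matrix.smul_mulVec, hv, smul_zero, zero_sub]
    have e2 : (C • P + Y) *ᵥ v = Y *ᵥ v := by
      rw [Matrix.add_mulVec, Matrix.smul_mulVec, hv, smul_zero, zero_add]
    have i1 := h1.dotProduct_mulVec_nonneg v
    have i2 := h2.dotProduct_mulVec_nonneg v
    rw [e1, dotProduct_neg] at i1
    rw [e2] at i2
    have i3 : star v ⬝ᵥ ((C • P + Y) *ᵥ v) = 0 := by rw [e2]; linarith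
    have := (h2.dotProduct_mulVec_zero_iff v).1 i3
    rwa [e2] at this
  rcases hP with hP | hC
  · set f : Vec n →ₗ[ℝ] Vec n := P.mulVecLin with hf
    set g : Vec n →ₗ[ℝ] Vec n := Y.mulVecLin with hg
    have hfg : LinearMap.ker f ≤ LinearMap.ker g := by
      intro v hv
      rw [LinearMap.mem_ker] at hv ⊢
      exact hker v hv
    obtain ⟨s, hs⟩ := LinearMap.exists_leftInverse_of_injective
      ((LinearMap.ker f).liftQ f le_rfl) (Submodule.ker_liftQ_eq_bot _ _ _ le_rfl)
    set N : Vec n →ₗ[ℝ] Vec n := ((LinearMap.ker f).liftQ g hfg) ∘ₗ s with hN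
    have hNf : ∀ v, N (f v) = g v := by
      intro v
      have h3 := LinearMap.congr_fun hs ((LinearMap.ker f).mkQ v)
      simp only [LinearMap.comp_apply, LinearMap.id_apply, Submodule.mkQ_apply,
        Submodule.liftQ_apply] at h3
      rw [hN, LinearMap.comp_apply, h3, Submodule.liftQ_apply]
    have hNP : LinearMap.toMatrix' N * P = Y := by
      apply Matrix.toLin'.injective
      refine LinearMap.ext fun v => ?_
      rw [Matrix.toLin'_mul, LinearMap.comp_apply, Matrix.toLin'_toMatrix', Matrix.toLin'_apply,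
        Matrix.toLin'_apply]
      exact hNf v
    refine ⟨(1 / 2 : ℝ) • LinearMap.toMatrix' N, ?_⟩
    have h3 : P * (LinearMap.toMatrix' N)ᵀ = Y := by
      have := congrArg Matrix.transpose hNP
      rwa [Matrix.transpose_mul, hP.eq, hY.eq] at this
    rw [Matrix.smul_mul, hNP, Matrix.transpose_smul, Matrix.mul_smul, h3, ← add_smul]
    norm_num
  · refine ⟨0, ?_⟩
    have hz : ∀ v : Vec n, Y *ᵥ v = 0 := by
      intro v
      subst hC
      have e1 : ((0 : ℝ) • P - Y) *ᵥ v = - (Y *ᵥ v) := by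
        rw [zero_smul, zero_sub, Matrix.neg_mulVec]
      have e2 : ((0 : ℝ) • P + Y) *ᵥ v = Y *ᵥ v := by rw [zero_smul, zero_add]
      have i1 := h1.dotProduct_mulVec_nonneg v
      have i2 := h2.dotProduct_mulVec_nonneg v
      rw [e1, dotProduct_neg] at i1
      rw [e2] at i2
      have i3 : star v ⬝ᵥ (((0 : ℝ) • P + Y) *ᵥ v) = 0 := by rw [e2]; linarith
      have := (h2.dotProduct_mulVec_zero_iff v).1 i3
      rwa [e2] at this
    have : Y = 0 := by
      apply Matrix.toLin'.injective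
      refine LinearMap.ext fun v => ?_
      rw [Matrix.toLin'_apply, hz v, map_zero, LinearMap.zero_apply]
    rw [this]; simp

open scoped MatrixOrder in
theorem exists_sq {Q : Mat n} (h : Q.PosSemidef) : ∃ R : Mat n, R * Rᵀ = Q := by
  obtain ⟨a, rfl⟩ := CStarAlgebra.nonneg_iff_eq_star_mul_self.mp h.nonneg
  refine ⟨aᵀ, ?_⟩
  rw [Matrix.transpose_transpose, Matrix.star_eq_conjTranspose,
    Matrix.conjTranspose_eq_transpose_of_trivial]

/-! ### frames -/

theorem c4_fr4_one (K : Ten4 n) : fr4 (1 : Mat n) K = K := by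
  funext i j k l
  unfold fr4
  rw [fr_one]
  unfold c4
  simp [Matrix.one_apply]

theorem fr4_fr4 (G L : Mat n) (K : Ten4 n) : fr4 G (fr4 L K) = fr4 (G * L) K := by
  funext i j k l
  have e1 : fr4 G (fr4 L K) i j k l = fr G (c4 (fr4 L K) (G l)) i j k := rfl
  have e2 : fr4 (G * L) K i j k l = fr (G * L) (c4 K ((G * L) l)) i j k := rfl
  rw [e1, e2, c4_fr4, fr_fr]
  have e3 : (G * L) l = Lᵀ *ᵥ G l := by
    rw [Matrix.mulVec_transpose]; rfl
  rw [e3]

theorem her_interp {F : Profile} {b : Vec n} (hb : ∀ i, b i ∈ Ioo (0 : ℝ) 1) {q : ℝ[X]}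
    (h : ∀ i, Her F.p q (b i)) : Interp F q (Set.range b) := by
  rintro x ⟨i, rfl⟩
  obtain ⟨h1, h2, h3⟩ := h i
  have d1 : ∀ x ∈ Ioo (0 : ℝ) 1, deriv F.p x = F.p1 x := fun x hx => (F.d1 x hx).deriv
  have d2 : deriv (deriv F.p) (b i) = F.p2 (b i) := by
    have : deriv F.p =ᶠ[𝓝 (b i)] F.p1 := by
      filter_upwards [isOpen_Ioo.mem_nhds (hb i)] with x hx using d1 x hx
    rw [this.deriv_eq, (F.d2 _ (hb i)).deriv]
  exact ⟨h1, by rw [h2, d1 _ (hb i)], by rw [h3, d2]⟩

theorem interp_her {F : Profile} {b : Vec n} (hb : ∀ i, b i ∈ Ioo (0 : ℝ) 1) {q : ℝ[X]}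
    (h : Interp F q (Set.range b)) (i : Fin n) : Her F.p q (b i) := by
  obtain ⟨h1, h2, h3⟩ := h (b i) ⟨i, rfl⟩
  have d1 : ∀ x ∈ Ioo (0 : ℝ) 1, deriv F.p x = F.p1 x := fun x hx => (F.d1 x hx).deriv
  have d2 : deriv (deriv F.p) (b i) = F.p2 (b i) := by
    have : deriv F.p =ᶠ[𝓝 (b i)] F.p1 := by
      filter_upwards [isOpen_Ioo.mem_nhds (hb i)] with x hx using d1 x hx
    rw [this.deriv_eq, (F.d2 _ (hb i)).deriv]
  exact ⟨h1, by rw [h2, d1 _ (hb i)], by rw [h3, d2]⟩

theorem stat_fr {G L : Mat n} (hGL : G * L = 1) (q : ℝ[X]) (A B : Mat n) (T : Ten n)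
    (P : Mat n) (K : Ten4 n) (e : Vec n) :
    deriv (fun τ : ℝ => FF q 1 (G * A * Gᵀ + τ • c3 (fr G T) e) (Lᵀ * B * L)
      (fr G T + τ • c4 (fr4 G K) e) (Lᵀ * P * L)) 0
      = deriv (fun τ : ℝ => FF q 1 (A + τ • c3 T (Gᵀ *ᵥ e)) B (T + τ • c4 K (Gᵀ *ᵥ e)) P) 0 := by
  congr 1
  funext τ
  rw [c3_fr, c4_fr4, ← fr_smul, ← fr_add]
  have e1 : G * A * Gᵀ + τ • (G * c3 T (Gᵀ *ᵥ e) * Gᵀ)
      = G * (A + τ • c3 T (Gᵀ *ᵥ e)) * Gᵀ := by
    rw [Matrix.mul_add, Matrix.add_mul, Matrix.mul_smul, Matrix.smul_mul]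
  rw [e1, FF_fr hGL]

theorem ALG_of_frame (F : Profile) {η C₀ : ℝ} (hη : 0 ≤ η) (h : L.ALG F η C₀) (n : ℕ) :
    ALG n F.p η C₀ := by
  intro A B T P K hC hK hst
  obtain ⟨g₀, b, hD⟩ := exists_dg hC.A_pos (by
    have := hC.B_pos.isHermitian.eq
    rwa [Matrix.conjTranspose_eq_transpose_of_trivial] at this)
  have hb : ∀ i, b i ∈ Ioo (0 : ℝ) 1 := fun i => ⟨dg_pos hD hC.B_pos i, dg_lt_one hD hC.AB i⟩
  have hroots : ∀ q : ℝ[X], (∀ x ∈ (B * A).charpoly.roots, Her F.p q x) ↔
      Interp F q (Set.range b) := fun q =>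
    ⟨fun hq => her_interp hb fun i => hq _ ((dg_roots hD _).2 ⟨i, rfl⟩), fun hq x hx => by
      obtain ⟨i, rfl⟩ := (dg_roots hD _).1 hx
      exact interp_her hb hq i⟩
  have hp : ∀ i, 0 < F.p (b i) := fun i => F.pos _ (hb i)
  set s : Vec n := fun i => √(F.p (b i)) with hs
  have hs2 : ∀ i, s i * s i = F.p (b i) := fun i => Real.mul_self_sqrt (hp i).le
  have hs0 : ∀ i, s i ≠ 0 := fun i => (Real.sqrt_pos.2 (hp i)).ne'
  set G : Mat n := g₀ * diagonal s with hG
  set L : Mat n := diagonal (fun i => (s i)⁻¹) * g₀⁻¹ with hL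
  have hdet : IsUnit g₀.det := hD.det
  have hGL : G * L = 1 := by
    calc G * L = g₀ * (diagonal s * diagonal (fun i => (s i)⁻¹)) * g₀⁻¹ := by
          rw [hG, hL]; simp only [Matrix.mul_assoc]
      _ = g₀ * 1 * g₀⁻¹ := by
          rw [Matrix.diagonal_mul_diagonal]
          congr 2
          rw [← Matrix.diagonal_one]
          congr 1
          funext i
          exact mul_inv_cancel₀ (hs0 i)
      _ = 1 := by rw [Matrix.mul_one, Matrix.mul_nonsing_inv _ hdet]
  have hLG : L * G = 1 := mul_eq_one_comm.1 hGL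
  have hGL' : Gᵀ * Lᵀ = 1 := by rw [← Matrix.transpose_mul, hLG, Matrix.transpose_one]
  have hLG' : Lᵀ * Gᵀ = 1 := by rw [← Matrix.transpose_mul, hGL, Matrix.transpose_one]
  have hGt : Gᵀ = diagonal s * g₀ᵀ := by rw [hG, Matrix.transpose_mul, Matrix.diagonal_transpose]
  -- the data in the frame
  have hA : A = G * (diagonal fun i => 1 / F.p (b i)) * Gᵀ := by
    have : diagonal s * (diagonal fun i => 1 / F.p (b i)) * diagonal s = (1 : Mat n) := by
      rw [Matrix.diagonal_mul_diagonal, Matrix.diagonal_mul_diagonal, ← Matrix.diagonal_one]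
      congr 1
      funext i
      rw [← hs2 i]
      have := hs0 i
      field_simp
    calc A = g₀ * g₀ᵀ := hD.hA
      _ = g₀ * (diagonal s * (diagonal fun i => 1 / F.p (b i)) * diagonal s) * g₀ᵀ := by
          rw [this, Matrix.mul_one]
      _ = G * (diagonal fun i => 1 / F.p (b i)) * Gᵀ := by
          rw [hGt, hG]; simp only [Matrix.mul_assoc]
  have hBG : Gᵀ * B * G = diagonal fun i => F.h (b i) := by
    calc Gᵀ * B * G = diagonal s * (g₀ᵀ * B * g₀) * diagonal s := by
          rw [hGt, hG]; simp only [Matrix.mul_assoc]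
      _ = diagonal fun i => F.h (b i) := by
          rw [hD.hB, Matrix.diagonal_mul_diagonal, Matrix.diagonal_mul_diagonal]
          congr 1
          funext i
          unfold Profile.h
          rw [← hs2 i]; ring
  have hconj : ∀ M : Mat n, Lᵀ * (Gᵀ * M * G) * L = M := fun M => by
    calc Lᵀ * (Gᵀ * M * G) * L = (Lᵀ * Gᵀ) * M * (G * L) := by simp only [Matrix.mul_assoc]
      _ = M := by rw [hGL, hLG', Matrix.one_mul, Matrix.mul_one]
  have hconj' : ∀ M : Mat n, Gᵀ * (Lᵀ * M * L) * G = M := fun M => by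
    calc Gᵀ * (Lᵀ * M * L) * G = (Gᵀ * Lᵀ) * M * (L * G) := by simp only [Matrix.mul_assoc]
      _ = M := by rw [hLG, hGL', Matrix.one_mul, Matrix.mul_one]
  have hB : B = Lᵀ * (diagonal fun i => F.h (b i)) * L := by rw [← hBG, hconj]
  have hT : T = fr G (fr L T) := by rw [fr_fr, hGL, fr_one]
  have hK4 : K = fr4 G (fr4 L K) := by rw [fr4_fr4, hGL, c4_fr4_one]
  set P' : Mat n := Gᵀ * P * G with hP'
  have hPP' : P = Lᵀ * P' * L := by rw [hP', hconj]
  have hSf : Sf F.p A B = G * 1 * Gᵀ := by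
    rw [dg_Sf hD]
    have : diagonal (fun i => F.p (b i)) = diagonal s * diagonal s := by
      rw [Matrix.diagonal_mul_diagonal]
      congr 1
      funext i
      exact (hs2 i).symm
    rw [this, hGt, hG, Matrix.mul_one]
    simp only [Matrix.mul_assoc]
  have hP'psd : P'.PosSemidef := by
    have := hC.P_psd.conjTranspose_mul_mul_same G
    rwa [Matrix.conjTranspose_eq_transpose_of_trivial] at this
  have hP'symm : P'.IsSymm := by
    have := hP'psd.isHermitian.eq
    rwa [Matrix.conjTranspose_eq_transpose_of_trivial] at this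
  have hTs : TSymm (fr L T) := TSymm_fr hC.T_symm L
  have hKs : KSymm (fr4 L K) := hK.fr4 L
  have hNN : ∀ M : Mat n, NN M (fr L T) (fr L T) = NN (Lᵀ * M * L) T T := fun M => by
    rw [NN_eq, NN_eq, N3_fr]
  have hcube : ∀ M : Mat n, ((Sf F.p A B * (Lᵀ * M * L)) ^ 3).trace = (M * M * M).trace := fun M => by
    rw [hSf, trace_cube_fr hGL, Matrix.one_mul, pow_succ, pow_two]
  obtain ⟨q₀, hq₀⟩ := exists_interp F (Set.finite_range b)
  have hcon : Vale.Agent.P254.L.Contact F b (fr L T) P' (fr4 L K) := by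
    refine ⟨hb, hTs, hKs, hP'psd, ?_, ?_, ?_, ?_⟩
    · intro h0
      apply hC.P_ne
      rw [hPP', h0]; simp
    · intro M hM
      rw [hNN, ← hcube]
      refine hC.max _ ?_
      have := hM.conjTranspose_mul_mul_same L
      rwa [Matrix.conjTranspose_eq_transpose_of_trivial] at this
    · rw [hNN, ← hPP', ← hcube P', ← hPP']
      have h1 := hC.first P (by
        have := hC.P_psd.isHermitian.eq
        rwa [Matrix.conjTranspose_eq_transpose_of_trivial] at this)
      have h2 : NN P T T = N3 P P P T T := rfl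
      rw [h2, h1, pow_succ, pow_two, Matrix.trace_mul_comm]
      congr 1
      simp only [Matrix.mul_assoc]
    · intro a
      have h1 := stat_frame' F b hb hTs hP'symm hKs hq₀ a
      have h2 := stat_fr hGL q₀ (diagonal fun i => 1 / F.p (b i)) (diagonal fun i => F.h (b i))
        (fr L T) P' (fr4 L K) (Lᵀ *ᵥ Pi.single a 1)
      rw [← hA, ← hB, ← hT, ← hK4, ← hPP', hst q₀ ((hroots q₀).2 hq₀), Matrix.mulVec_mulVec, hGL',
        Matrix.one_mulVec, h1] at h2
      linarith
  obtain ⟨Q, X, hQ1, hQ2, hX, hd⟩ := h n b (fr L T) P' (fr4 L K) hcon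
  -- the square root of the control
  have hQ : Q.PosSemidef := by
    have h1 : (η • (diagonal fun i => F.p (b i) : Mat n)).PosSemidef :=
      (Matrix.PosSemidef.diagonal fun i => (hp i).le).smul hη
    have := hQ1.add h1
    rwa [sub_add_cancel] at this
  obtain ⟨R, hRR⟩ := exists_sq hQ
  choose M hM using fun c => exists_coupling (hX c).1 (hX c).2.choose_spec.1
    (hX c).2.choose_spec.2
  have hAinv : A⁻¹ = Lᵀ * (diagonal fun i => F.p (b i)) * L := by
    apply Matrix.inv_eq_right_inv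
    calc A * (Lᵀ * (diagonal fun i => F.p (b i)) * L)
        = G * (diagonal fun i => 1 / F.p (b i)) * (Gᵀ * Lᵀ) * (diagonal fun i => F.p (b i)) * L := by
          rw [hA]; simp only [Matrix.mul_assoc]
      _ = G * ((diagonal fun i => 1 / F.p (b i)) * (diagonal fun i => F.p (b i))) * L := by
          rw [hGL', Matrix.mul_one]; simp only [Matrix.mul_assoc]
      _ = G * 1 * L := by
          rw [Matrix.diagonal_mul_diagonal, ← Matrix.diagonal_one]
          congr 3
          funext i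
          have := (hp i).ne'
          field_simp
      _ = 1 := by rw [Matrix.mul_one, hGL]
  have hgg : (Lᵀ * R) * (Lᵀ * R)ᵀ = Lᵀ * (R * Rᵀ) * L := by
    rw [Matrix.transpose_mul Lᵀ R, Matrix.transpose_transpose L]; simp only [Matrix.mul_assoc]
  refine ⟨Lᵀ * R, fun k => Lᵀ * (∑ c, R c k • M c) * Gᵀ, ?_, ?_, ?_⟩
  · have e : (Lᵀ * R) * (Lᵀ * R)ᵀ - η • A⁻¹
        = Lᴴ * (Q - η • diagonal fun i => F.p (b i)) * L := by
      rw [hgg, hRR, hAinv, Matrix.conjTranspose_eq_transpose_of_trivial, Matrix.mul_sub,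
        Matrix.sub_mul, Matrix.mul_smul, Matrix.smul_mul]
    rw [e]
    exact hQ1.conjTranspose_mul_mul_same L
  · have e : C₀ • A⁻¹ - (Lᵀ * R) * (Lᵀ * R)ᵀ
        = Lᴴ * (C₀ • (diagonal fun i => F.p (b i)) - Q) * L := by
      rw [hgg, hRR, hAinv, Matrix.conjTranspose_eq_transpose_of_trivial, Matrix.mul_sub,
        Matrix.sub_mul, Matrix.mul_smul, Matrix.smul_mul]
    rw [e]
    exact hQ2.conjTranspose_mul_mul_same L
  · intro q hq
    have hq' := (hroots q).1 hq
    have hcoup : ∀ k, Lᵀ * (∑ c, R c k • M c) * Gᵀ * P + P * (Lᵀ * (∑ c, R c k • M c) * Gᵀ)ᵀ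
        = Lᵀ * (∑ c, R c k • X c) * L := by
      intro k
      have e1 : ∑ c, R c k • X c = (∑ c, R c k • M c) * P' + P' * (∑ c, R c k • M c)ᵀ := by
        rw [Matrix.transpose_sum, Matrix.sum_mul, Matrix.mul_sum, ← Finset.sum_add_distrib]
        refine Finset.sum_congr rfl fun c _ => ?_
        conv_lhs => rw [hM c]
        rw [Matrix.transpose_smul, Matrix.smul_mul, Matrix.mul_smul, smul_add]
      rw [e1, hP', Matrix.mul_add, Matrix.add_mul]
      congr 1
      · calc Lᵀ * (∑ c, R c k • M c) * Gᵀ * P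
            = Lᵀ * (∑ c, R c k • M c) * Gᵀ * P * (G * L) := by rw [hGL, Matrix.mul_one]
          _ = Lᵀ * ((∑ c, R c k • M c) * (Gᵀ * P * G)) * L := by simp only [Matrix.mul_assoc]
      · calc P * (Lᵀ * (∑ c, R c k • M c) * Gᵀ)ᵀ
            = (Lᵀ * Gᵀ) * P * (Lᵀ * (∑ c, R c k • M c) * Gᵀ)ᵀ := by rw [hLG', Matrix.one_mul]
          _ = Lᵀ * (Gᵀ * P * G * (∑ c, R c k • M c)ᵀ) * L := by
              have e2 : ∀ M : Mat n, (Lᵀ * M * Gᵀ)ᵀ = G * Mᵀ * L := fun M => by
                rw [Matrix.transpose_mul (Lᵀ * M) Gᵀ, Matrix.transpose_mul Lᵀ M,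
                  Matrix.transpose_transpose G, Matrix.transpose_transpose L,
                  ← Matrix.mul_assoc G Mᵀ L]
              rw [e2]
              simp only [Matrix.mul_assoc]
    have hcol : ∀ k, Gᵀ *ᵥ (fun i => (Lᵀ * R) i k) = fun i => R i k := by
      intro k
      have : Gᵀ * (Lᵀ * R) = R := by rw [← Matrix.mul_assoc, hGL', Matrix.one_mul]
      funext i
      conv_rhs => rw [← this]
      rfl
    have hdr : drift q A B T P K (Lᵀ * R)
        (fun k => Lᵀ * (∑ c, R c k • M c) * Gᵀ * P + P * (Lᵀ * (∑ c, R c k • M c) * Gᵀ)ᵀ)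
        = Vale.Agent.P254.L.drift F b (fr L T) P' (fr4 L K) (R * Rᵀ) X := by
      rw [← drift_frame F b hb hTs hP'symm hKs (fun c => (hX c).1) hq' R]
      unfold drift
      have e1 : ∀ k, quad q 1 A B T P K (fun i => (Lᵀ * R) i k)
          (Lᵀ * (∑ c, R c k • M c) * Gᵀ * P + P * (Lᵀ * (∑ c, R c k • M c) * Gᵀ)ᵀ)
          = quad q 1 (diagonal fun i => 1 / F.p (b i)) (diagonal fun i => F.h (b i)) (fr L T) P'
            (fr4 L K) (fun i => R i k) (∑ c, R c k • X c) := by
        intro k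
        rw [hcoup k]
        have h2 := quad_fr hGL q 1 (diagonal fun i => 1 / F.p (b i))
          (diagonal fun i => F.h (b i)) (fr L T) P' (fr4 L K) (fun i => (Lᵀ * R) i k)
          (∑ c, R c k • X c)
        rw [← hA, ← hB, ← hT, ← hK4, ← hPP', hcol k] at h2
        exact h2
      have e2 : lin q 1 A B T P ((Lᵀ * R) * (Lᵀ * R)ᵀ)
          = lin q 1 (diagonal fun i => 1 / F.p (b i)) (diagonal fun i => F.h (b i)) (fr L T) P'
            (R * Rᵀ) := by
        have h2 := lin_fr hGL q 1 (diagonal fun i => 1 / F.p (b i))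
          (diagonal fun i => F.h (b i)) (fr L T) P' (R * Rᵀ)
        rw [← hA, ← hB, ← hT, ← hPP', ← hgg] at h2
        exact h2
      rw [e2]
      simp only [e1]
    rw [hdr, hRR]
    exact hd

end Vale.Agent.P254.MP
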