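import Vale.Agent.P254.MP.Main
import Vale.Agent.P254.MP.Frame
import Vale.Agent.P254.S526.SFrame
import Vale.Agent.P254.L.ZDefs

/-!
P254, block (X): far boundary and conclusion (helper649).

`stX_of_ALG` : the algebraic inequality `L.ALG F η C₀` implies `(P)` for all tilts.
-/

namespace Vale.Agent.P254.MP

open Matrix Set Filter Topology Asymptotics Polynomial
open Vale.Agent.P254.L

variable {n : ℕ}

theorem dg_fr {A B g : Mat n} {b : Vec n} (h : Dg A B g b) : L.Fr A B g⁻¹ b := by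
  have hg : IsUnit g.det := h.det
  have hgT : IsUnit gᵀ.det := by rwa [det_transpose]
  have e1 : g⁻¹ * g = 1 := nonsing_inv_mul _ hg
  have e2 : gᵀ * (g⁻¹)ᵀ = 1 := by rw [← Matrix.transpose_mul, e1, Matrix.transpose_one]
  have e3 : (g⁻¹)ᵀ * gᵀ = 1 := by
    rw [← Matrix.transpose_mul, mul_nonsing_inv _ hg, Matrix.transpose_one]
  refine ⟨?_, ?_⟩
  · rw [h.hA, ← Matrix.mul_assoc, e1, Matrix.one_mul, e2]
  · rw [← h.hB]
    calc B = 1 * B * 1 := by rw [Matrix.one_mul, Matrix.mul_one]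
      _ = ((g⁻¹)ᵀ * gᵀ) * B * (g * g⁻¹) := by rw [e3, mul_nonsing_inv _ hg]
      _ = (g⁻¹)ᵀ * (gᵀ * B * g) * g⁻¹ := by simp only [Matrix.mul_assoc]

theorem Sf_eq_L {A B : Mat n} (hA : A.PosDef) (hB : B.IsSymm) (p : ℝ → ℝ) :
    Sf p A B = L.Sf p A B := by
  obtain ⟨g, b, h⟩ := exists_dg hA hB
  have hg : IsUnit g.det := h.det
  have hAs : Aᵀ = A := psd_symm hA.posSemidef
  have e : g⁻¹ * A = gᵀ := by rw [h.hA, ← Matrix.mul_assoc, nonsing_inv_mul _ hg, Matrix.one_mul]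
  rw [dg_Sf h, L.Sf_eq hAs (dg_fr h), e, Matrix.transpose_transpose]

theorem cube_root_le {c x y : ℝ} (hc : 0 ≤ c) (hy : 0 < y) (h : c ≤ y ^ 3) (hx : x = c ^ (1 / 3 : ℝ)) :
    x ≤ y := by
  subst hx
  have h1 : (c ^ (1 / 3 : ℝ)) ^ 3 = c := by
    rw [← Real.rpow_natCast, ← Real.rpow_mul hc]
    norm_num
  have h2 : (c ^ (1 / 3 : ℝ)) ^ 3 ≤ y ^ 3 := by rw [h1]; exact h
  exact (pow_le_pow_iff_left₀ (Real.rpow_nonneg hc _) hy.le (by norm_num)).1 h2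

/-- `(P)` far away -/
theorem far_PP (D : TiltData n) {p : ℝ → ℝ} (hpos : ∀ x ∈ Ioo (0 : ℝ) 1, 0 < p x) {k : ℝ}
    (hk : 0 < k) {s : ℕ} (hps : ∀ x ∈ Ioo (0 : ℝ) 1, k * (1 - x) ^ s ≤ p x ^ 3)
    {B : Mat n} (hB : B.PosDef) {b b' : ℝ} (hb' : 0 ≤ b') (hb0 : 0 ≤ b)
    (hlo : (B - b' • (1 : Mat n)).PosSemidef) (hhi : (b • (1 : Mat n) - B).PosSemidef)
    (key : D.CT * (n : ℝ) ^ 2 * (b + D.M) ^ s ≤ k * D.m ^ s * (b' + D.M) ^ 3) (c : Vec n) :
    PP p (D.A B c) B (D.T B c) := by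
  intro P hP
  rcases isEmpty_or_nonempty (Fin n) with he | hne
  · have h0 : P = 0 := Subsingleton.elim _ _
    subst h0
    rw [NN_zero, cube_zero]
  have hn : (0 : ℝ) < n := by
    obtain ⟨i⟩ := hne
    exact_mod_cast i.pos
  have hMpos : 0 < D.M := D.hm.trans_le D.hM
  obtain ⟨g, d, hd⟩ := exists_dg (D.posA B hB.posSemidef c) (psd_symm hB.posSemidef)
  have hκ0 : 0 < b + D.M := by linarith
  set a : ℝ := (b + D.M)⁻¹ with ha
  have ha0 : 0 < a := inv_pos.2 hκ0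
  have hA : (D.A B c - a • (1 : Mat n)).PosSemidef := by
    refine lower_of_inv (D.posA B hB.posSemidef c) hκ0 ?_
    have e : (b + D.M) • (1 : Mat n) - (D.A B c)⁻¹ =
        (b • (1 : Mat n) - B) + (B + D.M • (1 : Mat n) - (D.A B c)⁻¹) := by
      rw [add_smul]; abel
    rw [e]
    exact hhi.add (D.lo B hB.posSemidef c)
  have hd1 : ∀ i, d i ≤ 1 - D.m * a := dg_le hd D.hm.le ha0 (D.up B hB.posSemidef c) hA
  have hd0 : ∀ i, 0 < d i := dg_pos hd hB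
  have hma : 0 < D.m * a := mul_pos D.hm ha0
  set q : ℝ := k * (D.m * a) ^ s with hq
  have hq0 : 0 < q := by positivity
  set p₀ : ℝ := q ^ (1 / 3 : ℝ) with hp₀
  have hp₀0 : 0 < p₀ := Real.rpow_pos_of_pos hq0 _
  have hp₀3 : p₀ ^ 3 = q := by
    rw [hp₀, ← Real.rpow_natCast, ← Real.rpow_mul hq0.le]
    norm_num
  have hpd : ∀ i, p₀ ≤ p (d i) := by
    intro i
    have hi : d i ∈ Ioo (0 : ℝ) 1 := ⟨hd0 i, (hd1 i).trans_lt (by linarith)⟩
    refine cube_root_le hq0.le (hpos _ hi) (le_trans ?_ (hps _ hi)) hp₀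
    refine mul_le_mul_of_nonneg_left (pow_le_pow_left₀ hma.le ?_ s) hk.le
    linarith [hd1 i]
  have h1 := cube_lower hd hp₀0 hpd hP
  refine le_trans (D.bT B hB.posSemidef b' hb' hlo c P hP) (le_trans ?_ h1)
  have htr : 0 ≤ (D.A B c * P).trace ^ 3 := by
    have h2 := trace_lower hA hP
    have h3 : 0 ≤ P.trace := hP.trace_nonneg
    have : 0 ≤ (D.A B c * P).trace := le_trans (mul_nonneg ha0.le h3) h2
    positivity
  refine mul_le_mul_of_nonneg_right ?_ htr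
  rw [hp₀3, hq, ha, div_le_div_iff₀ (by positivity) (by positivity)]
  have e : (D.m * (b + D.M)⁻¹) ^ s = D.m ^ s / (b + D.M) ^ s := by
    rw [mul_pow, inv_pow]; rfl
  rw [e, mul_div_assoc', div_mul_eq_mul_div, le_div_iff₀ (by positivity)]
  exact key

theorem exists_far {r CT k m M K : ℝ} {s : ℕ} (hrs : r * s < 3) (hk : 0 < k)
    (hm : 0 < m) (hM : m ≤ M) (N : ℝ) (hK : 0 ≤ K) (hr : 0 ≤ r) (hCT : 0 ≤ CT) :
    ∃ U : ℝ, 1 < U ∧
      CT * N ^ 2 * (K + K * (U ^ r - 1) + M) ^ s ≤ k * m ^ s * (m * (U - 1) + M) ^ 3 := by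
  have hy : 0 < 3 - r * s := by linarith
  have h1 := (tendsto_rpow_atTop hy).eventually_ge_atTop
    (CT * N ^ 2 * (K + M) ^ s / (k * m ^ s * m ^ 3))
  obtain ⟨U, hU1, hU2⟩ := (h1.and (eventually_gt_atTop 1)).exists
  have hU0 : 0 < U := by linarith
  refine ⟨U, hU2, ?_⟩
  have hUr : 1 ≤ U ^ r := Real.one_le_rpow hU2.le hr
  have e1 : K + K * (U ^ r - 1) + M ≤ (K + M) * U ^ r := by
    nlinarith
  have e0 : 0 ≤ K + K * (U ^ r - 1) + M := by nlinarith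
  have e2 : (K + K * (U ^ r - 1) + M) ^ s ≤ (K + M) ^ s * U ^ (r * s) := by
    refine (pow_le_pow_left₀ e0 e1 s).trans_eq ?_
    rw [mul_pow, ← Real.rpow_natCast (U ^ r) s, ← Real.rpow_mul hU0.le]
  have e3 : m * U ≤ m * (U - 1) + M := by linarith
  have e4 : m ^ 3 * U ^ 3 ≤ (m * (U - 1) + M) ^ 3 := by
    rw [← mul_pow]
    exact pow_le_pow_left₀ (by positivity) e3 3
  have e5 : U ^ (3 - r * s) * U ^ (r * s) = U ^ 3 := by
    rw [← Real.rpow_add hU0, ← Real.rpow_natCast U 3]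
    congr 1
    push_cast
    ring
  have hkm : 0 < k * m ^ s * m ^ 3 := by positivity
  rw [div_le_iff₀ hkm] at hU1
  calc CT * N ^ 2 * (K + K * (U ^ r - 1) + M) ^ s
      ≤ CT * N ^ 2 * ((K + M) ^ s * U ^ (r * s)) :=
        mul_le_mul_of_nonneg_left e2 (by positivity)
    _ = CT * N ^ 2 * (K + M) ^ s * U ^ (r * s) := by ring
    _ ≤ U ^ (3 - r * s) * (k * m ^ s * m ^ 3) * U ^ (r * s) :=
        mul_le_mul_of_nonneg_right hU1 (by positivity)
    _ = k * m ^ s * (m ^ 3 * (U ^ (3 - r * s) * U ^ (r * s))) := by ring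
    _ = k * m ^ s * (m ^ 3 * U ^ 3) := by rw [e5]
    _ ≤ _ := mul_le_mul_of_nonneg_left e4 (by positivity)

/-- `(P)` for all tilts, from the general algebraic inequality. -/
theorem pp_of_ALG (D : TiltData n) {p : ℝ → ℝ} (hp : ContDiffOn ℝ 2 p (Ioo 0 1))
    (hpos : ∀ x ∈ Ioo (0 : ℝ) 1, 0 < p x) {k : ℝ} (hk : 0 < k) {s : ℕ}
    (hps : ∀ x ∈ Ioo (0 : ℝ) 1, k * (1 - x) ^ s ≤ p x ^ 3)
    {η C₀ : ℝ} (hη : 0 < η) (hηC : η ≤ C₀) (hs : C₀ * s < 3 * η)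
    (hALG : ALG n p η C₀) {B₀ : Mat n} (hB₀ : B₀.PosDef) (c : Vec n) :
    PP p (D.A B₀ c) B₀ (D.T B₀ c) := by
  have hsymm : (B₀ + D.M • (1 : Mat n)).IsSymm := by
    have h1 := psd_symm hB₀.posSemidef
    rw [Matrix.IsSymm, Matrix.transpose_add, Matrix.transpose_smul, Matrix.transpose_one, h1]
  obtain ⟨M', hM'0, hM'⟩ := exists_upper hsymm
  have hr0 : 0 ≤ C₀ / η := div_nonneg (hη.le.trans hηC) hη.le
  have hrs : C₀ / η * s < 3 := by
    rw [div_mul_eq_mul_div, div_lt_iff₀ hη]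
    exact hs
  obtain ⟨U, hU, hkey⟩ := exists_far (CT := D.CT) hrs hk D.hm D.hM n hM'0.le hr0 D.hCT
  refine mp_main D hp hpos hη hηC hALG hB₀ hM'0.le hM' hU ?_ c
  intro B hReg c
  have hB₀M : (M' • (1 : Mat n) - B₀).PosSemidef := by
    have e : M' • (1 : Mat n) - B₀ = (M' • (1 : Mat n) - (B₀ + D.M • (1 : Mat n))) +
        D.M • (1 : Mat n) := by abel
    rw [e]
    exact hM'.add (psd_smul_one (D.hm.le.trans D.hM))
  have hlo : (B - (D.m * (U - 1)) • (1 : Mat n)).PosSemidef := by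
    have e : B - (D.m * (U - 1)) • (1 : Mat n) =
        (B - (B₀ + (D.m * (U - 1)) • (1 : Mat n))) + B₀ := by abel
    rw [e]
    exact hReg.lo.add hB₀.posSemidef
  have hpd : B.PosDef := by
    have e : B = (B - (B₀ + (D.m * (U - 1)) • (1 : Mat n))) +
        ((D.m * (U - 1)) • (1 : Mat n)) + B₀ := by abel
    rw [e]
    exact Matrix.PosDef.posSemidef_add
      (hReg.lo.add (psd_smul_one (mul_nonneg D.hm.le (by linarith)))) hB₀
  have hUr : 1 ≤ U ^ (C₀ / η) := Real.one_le_rpow hU.le hr0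
  have hhi : ((M' + M' * (U ^ (C₀ / η) - 1)) • (1 : Mat n) - B).PosSemidef := by
    have e : (M' + M' * (U ^ (C₀ / η) - 1)) • (1 : Mat n) - B =
        (M' • (1 : Mat n) - B₀) + (B₀ + (M' * (U ^ (C₀ / η) - 1)) • (1 : Mat n) - B) := by
      rw [add_smul]; abel
    rw [e]
    exact hB₀M.add hReg.hi
  refine far_PP D hpos hk hps hpd (mul_nonneg D.hm.le (by linarith)) ?_ hlo hhi hkey c
  have : 0 ≤ M' * (U ^ (C₀ / η) - 1) := mul_nonneg hM'0.le (by linarith)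
  linarith

theorem profile_contDiffOn (F : Profile) : ContDiffOn ℝ 2 F.p (Ioo 0 1) := by
  have hu : UniqueDiffOn ℝ (Ioo (0 : ℝ) 1) := isOpen_Ioo.uniqueDiffOn
  rw [show (2 : WithTop ℕ∞) = 1 + 1 by norm_num, contDiffOn_succ_iff_derivWithin hu]
  refine ⟨fun x hx => (F.d1 x hx).differentiableAt.differentiableWithinAt, by simp, ?_⟩
  have h1 : ∀ x ∈ Ioo (0 : ℝ) 1, derivWithin F.p (Ioo 0 1) x = F.p1 x := fun x hx => by
    rw [derivWithin_of_isOpen isOpen_Ioo hx]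
    exact (F.d1 x hx).deriv
  refine ContDiffOn.congr ?_ h1
  rw [show (1 : WithTop ℕ∞) = 0 + 1 by norm_num, contDiffOn_succ_iff_derivWithin hu]
  refine ⟨fun x hx => (F.d2 x hx).differentiableAt.differentiableWithinAt, by simp, ?_⟩
  have h2 : ∀ x ∈ Ioo (0 : ℝ) 1, derivWithin F.p1 (Ioo 0 1) x = F.p2 x := fun x hx => by
    rw [derivWithin_of_isOpen isOpen_Ioo hx]
    exact (F.d2 x hx).deriv
  exact ContDiffOn.congr (contDiffOn_zero.2 F.c2) h2

/-- block (X): the algebraic inequality implies `(P)` for all tilts of all nice measures. -/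
theorem stX_of_ALG (F : Profile) {k : ℝ} (hk : 0 < k) {s : ℕ}
    (hps : ∀ x ∈ Ioo (0 : ℝ) 1, k * (1 - x) ^ s ≤ F.p x ^ 3)
    {η C₀ : ℝ} (hη : 0 < η) (hηC : η ≤ C₀) (hs : C₀ * s < 3 * η)
    (hALG : L.ALG F η C₀) : L.StX F := by
  intro n D B hB c
  refine S526.pIneq_of_all (D.posA B hB.posSemidef c) ?_
  intro P hP
  rw [← Sf_eq_L (D.posA B hB.posSemidef c) (psd_symm hB.posSemidef)]
  exact pp_of_ALG D (profile_contDiffOn F) F.pos hk hps hη hηC hs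
    (ALG_of_frame F hη.le hALG n) hB c P hP

end Vale.Agent.P254.MP
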