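import Vale.Agent.P254.MP.FrTen
import Vale.Agent.P254.S526.Poly

/-!
P254 (Y), part 2 (helper564): jets of `FF` in the frame `A = diag a`, `B = diag b'`.
-/

namespace Vale.Agent.P254.MP

open Matrix Set Filter Topology Asymptotics Polynomial
open Vale.Agent.P254.L Vale.Agent.P254.S526

variable {n : ℕ}

/-! ### polynomial functions -/

/-- polynomial functions of one real variable -/
def IsPol (f : ℝ → ℝ) : Prop := ∃ r : ℝ[X], ∀ t, f t = r.eval t

theorem IsPol.const (c : ℝ) : IsPol fun _ => c := ⟨C c, fun t => by simp⟩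

theorem IsPol.id : IsPol fun t => t := ⟨X, fun t => by simp⟩

theorem IsPol.add {f g : ℝ → ℝ} (hf : IsPol f) (hg : IsPol g) : IsPol fun t => f t + g t := by
  obtain ⟨r, hr⟩ := hf
  obtain ⟨s, hs⟩ := hg
  exact ⟨r + s, fun t => by beta_reduce; rw [hr, hs, eval_add]⟩

theorem IsPol.mul {f g : ℝ → ℝ} (hf : IsPol f) (hg : IsPol g) : IsPol fun t => f t * g t := by
  obtain ⟨r, hr⟩ := hf
  obtain ⟨s, hs⟩ := hg
  exact ⟨r * s, fun t => by beta_reduce; rw [hr, hs, eval_mul]⟩

theorem IsPol.sub {f g : ℝ → ℝ} (hf : IsPol f) (hg : IsPol g) : IsPol fun t => f t - g t := by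
  obtain ⟨r, hr⟩ := hf
  obtain ⟨s, hs⟩ := hg
  exact ⟨r - s, fun t => by beta_reduce; rw [hr, hs, eval_sub]⟩

theorem IsPol.sum {ι : Type*} (s : Finset ι) {f : ι → ℝ → ℝ} (h : ∀ i ∈ s, IsPol (f i)) :
    IsPol fun t => ∑ i ∈ s, f i t := by
  classical
  induction s using Finset.induction_on with
  | empty => simpa using IsPol.const 0
  | insert a s ha ih =>
    have h1 := (h a (Finset.mem_insert_self a s)).add
      (ih fun i hi => h i (Finset.mem_insert_of_mem hi))
    simpa only [Finset.sum_insert ha] using h1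

/-- matrices with polynomial entries -/
def MPol (M : ℝ → Mat n) : Prop := ∀ i j, IsPol fun t => M t i j

theorem MPol.affine (M N : Mat n) : MPol fun t => M + t • N := fun i j => by
  simpa only [Matrix.add_apply, Matrix.smul_apply, smul_eq_mul] using
    (IsPol.const (M i j)).add (IsPol.id.mul (IsPol.const (N i j)))

theorem MPol.const (M : Mat n) : MPol fun _ => M := fun i j => IsPol.const (M i j)

theorem MPol.add {M N : ℝ → Mat n} (hM : MPol M) (hN : MPol N) : MPol fun t => M t + N t :=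
  fun i j => (hM i j).add (hN i j)

theorem MPol.mul {M N : ℝ → Mat n} (hM : MPol M) (hN : MPol N) : MPol fun t => M t * N t :=
  fun i j => by
    simp only [Matrix.mul_apply]
    exact IsPol.sum _ fun k _ => (hM i k).mul (hN k j)

theorem MPol.pow {M : ℝ → Mat n} (hM : MPol M) (m : ℕ) : MPol fun t => M t ^ m := by
  induction m with
  | zero => simpa only [pow_zero] using MPol.const 1
  | succ m ih => simpa only [pow_succ] using ih.mul hM

theorem MPol.aeval {M : ℝ → Mat n} (hM : MPol M) (q : ℝ[X]) : MPol fun t => aeval (M t) q := by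
  induction q using Polynomial.induction_on with
  | C a => simpa only [aeval_C] using MPol.const _
  | add p q hp hq => simpa only [map_add] using hp.add hq
  | monomial m a h =>
    have e3 : ∀ N : Mat n, Polynomial.aeval N (C a * X ^ (m + 1) : ℝ[X])
        = Polynomial.aeval N (C a * X ^ m) * N := by
      intro N; rw [pow_succ, ← mul_assoc, map_mul, aeval_X]
    simpa only [e3] using h.mul hM

theorem MPol.trace {M : ℝ → Mat n} (hM : MPol M) : IsPol fun t => (M t).trace := by
  simp only [Matrix.trace, Matrix.diag_apply]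
  exact IsPol.sum _ fun k _ => hM k k

theorem isPol_FF (q : ℝ[X]) (μ : ℝ) {A B P : ℝ → Mat n} {T : ℝ → Ten n} (hA : MPol A)
    (hB : MPol B) (hP : MPol P) (hT : ∀ i j k, IsPol fun t => T t i j k) :
    IsPol fun t => FF q μ (A t) (B t) (T t) (P t) := by
  unfold FF SQ
  refine IsPol.sub ?_ ((IsPol.const μ).mul
    (((hA.mul ((hB.mul hA).aeval q)).mul hP).pow 3).trace)
  simp only [NN_eq, N3]
  exact IsPol.sum _ fun a _ => IsPol.sum _ fun b _ => IsPol.sum _ fun c _ =>
    IsPol.sum _ fun a' _ => IsPol.sum _ fun b' _ => IsPol.sum _ fun c' _ =>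
    ((((hP a a').mul (hP b b')).mul (hP c c')).mul (hT a b c)).mul (hT a' b' c')

theorem J2.eq_at_zero {f : ℝ → ℝ} {a b c : ℝ} (h : J2 (𝓝 0) f a b c) : f 0 = a := by
  have h1 := (J2.toJ1 le_rfl h)
  unfold J1 at h1
  rw [isLittleO_iff] at h1
  have h2 := (h1 (zero_lt_one)).self_of_nhds
  simp only [mul_zero, add_zero, norm_zero] at h2
  have h3 := norm_le_zero_iff.1 h2
  linarith

theorem J1.eq_at_zero {f : ℝ → ℝ} {a b : ℝ} (h : J1 (𝓝 0) f a b) : f 0 = a := by
  unfold J1 at h
  rw [isLittleO_iff] at h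
  have h2 := (h (zero_lt_one)).self_of_nhds
  simp only [mul_zero, add_zero, norm_zero] at h2
  have h3 := norm_le_zero_iff.1 h2
  linarith

theorem J1.deriv_eq {f : ℝ → ℝ} {a b : ℝ} (h : J1 (𝓝 0) f a b) : deriv f 0 = b := by
  have h0 := J1.eq_at_zero h
  refine HasDerivAt.deriv ?_
  rw [hasDerivAt_iff_isLittleO]
  have h' : (fun t => f t - (a + b * t)) =o[𝓝 0] fun t => t := h
  refine (h'.congr_left fun t => ?_).congr_right fun t => ?_
  · rw [h0]; simp only [sub_zero, smul_eq_mul]; ring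
  · simp

theorem J2.zero_unique {b c : ℝ} (h : J2 (𝓝 0) (fun _ => (0 : ℝ)) 0 b c) : b = 0 ∧ c = 0 := by
  have h1 := J2.le_test h (Eventually.of_forall fun _ => le_rfl)
  have h2 := J2.le_test (h.neg.congr (Eventually.of_forall fun _ => neg_zero) neg_zero rfl rfl)
    (Eventually.of_forall fun _ => le_rfl)
  exact ⟨h1.1, by linarith [h1.2, h2.2]⟩

theorem IsPol.deriv_deriv {f : ℝ → ℝ} (hf : IsPol f) {a b c : ℝ} (h : J2 (𝓝 0) f a b c) :
    deriv (deriv f) 0 = 2 * c := by
  obtain ⟨r, hr⟩ := hf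
  have hf : f = fun t => r.eval t := funext hr
  have hd : deriv f = fun t => r.derivative.eval t := by
    rw [hf]; funext t; exact r.deriv
  have hdd : deriv (deriv f) 0 = r.derivative.derivative.eval 0 := by
    rw [hd]; exact r.derivative.deriv
  have hJ := J2.of_hasDerivAt (f := fun t => r.eval t) (f' := fun t => r.derivative.eval t)
    (Eventually.of_forall fun t => r.hasDerivAt t) (r.derivative.hasDerivAt 0)
  rw [hf] at h
  have h0 := J2.eq_at_zero h
  have h1 := (h.sub hJ).congr (Eventually.of_forall fun t => sub_self (r.eval t))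
    (a' := 0) (by rw [h0]; ring) rfl rfl
  have h2 := (J2.zero_unique h1).2
  rw [hdd]
  linarith

/-! ### matrix jets -/

/-- second order jet of a matrix valued function -/
def MJ2 (l : Filter ℝ) (M : ℝ → Mat n) (M0 M1 M2 : Mat n) : Prop :=
  ∀ i j, J2 l (fun t => M t i j) (M0 i j) (M1 i j) (M2 i j)

/-- first order jet of a matrix valued function -/
def MJ1 (l : Filter ℝ) (M : ℝ → Mat n) (M0 M1 : Mat n) : Prop :=
  ∀ i j, J1 l (fun t => M t i j) (M0 i j) (M1 i j)

theorem MJ2.affine (l : Filter ℝ) (M N : Mat n) : MJ2 l (fun t => M + t • N) M N 0 := fun i j => by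
  have h := (J2.const (l := l) (M i j)).add (J2.id.mul_const (N i j))
  refine h.congr (Eventually.of_forall fun t => ?_) ?_ ?_ ?_ <;>
    simp [Matrix.add_apply, Matrix.smul_apply]

theorem MJ1.affine (l : Filter ℝ) (M N : Mat n) : MJ1 l (fun t => M + t • N) M N := fun i j => by
  have h := (J1.const (l := l) (M i j)).add (J1.id.mul_const (N i j))
  refine h.congr (Eventually.of_forall fun t => ?_) ?_ ?_ <;>
    simp [Matrix.add_apply, Matrix.smul_apply]

theorem MJ2.mul {l : Filter ℝ} (hl : l ≤ 𝓝 0) {M N : ℝ → Mat n} {M0 M1 M2 N0 N1 N2 : Mat n}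
    (hM : MJ2 l M M0 M1 M2) (hN : MJ2 l N N0 N1 N2) :
    MJ2 l (fun t => M t * N t) (M0 * N0) (M0 * N1 + M1 * N0) (M0 * N2 + M1 * N1 + M2 * N0) :=
  fun i j => by
    refine (J2.sum Finset.univ fun k _ => (hM i k).mul hl (hN k j)).congr
      (Eventually.of_forall fun t => ?_) ?_ ?_ ?_
    · simp only [Matrix.mul_apply]
    · simp only [Matrix.mul_apply]
    · simp only [Matrix.add_apply, Matrix.mul_apply, Finset.sum_add_distrib]
    · simp only [Matrix.add_apply, Matrix.mul_apply, Finset.sum_add_distrib]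

theorem MJ1.mul {l : Filter ℝ} (hl : l ≤ 𝓝 0) {M N : ℝ → Mat n} {M0 M1 N0 N1 : Mat n}
    (hM : MJ1 l M M0 M1) (hN : MJ1 l N N0 N1) :
    MJ1 l (fun t => M t * N t) (M0 * N0) (M0 * N1 + M1 * N0) :=
  fun i j => by
    refine (J1.sum Finset.univ fun k _ => (hM i k).mul hl (hN k j)).congr
      (Eventually.of_forall fun t => ?_) ?_ ?_
    · simp only [Matrix.mul_apply]
    · simp only [Matrix.mul_apply]
    · simp only [Matrix.add_apply, Matrix.mul_apply, Finset.sum_add_distrib]

theorem MJ2.trace {l : Filter ℝ} {M : ℝ → Mat n} {M0 M1 M2 : Mat n} (hM : MJ2 l M M0 M1 M2) :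
    J2 l (fun t => (M t).trace) M0.trace M1.trace M2.trace := by
  simp only [Matrix.trace, Matrix.diag_apply]
  exact J2.sum Finset.univ fun k _ => hM k k

theorem MJ1.trace {l : Filter ℝ} {M : ℝ → Mat n} {M0 M1 : Mat n} (hM : MJ1 l M M0 M1) :
    J1 l (fun t => (M t).trace) M0.trace M1.trace := by
  simp only [Matrix.trace, Matrix.diag_apply]
  exact J1.sum Finset.univ fun k _ => hM k k

theorem cube_coef1 (M0 M1 : Mat n) :
    (M0 * M0 * M1 + (M0 * M1 + M1 * M0) * M0).trace = 3 * (M1 * M0 * M0).trace := by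
  simp only [Matrix.add_mul, Matrix.trace_add]
  have c1 : (M0 * M0 * M1).trace = (M1 * M0 * M0).trace := by
    rw [Matrix.trace_mul_comm (M0 * M0) M1, Matrix.mul_assoc]
  have c2 : (M0 * M1 * M0).trace = (M1 * M0 * M0).trace := by
    rw [Matrix.mul_assoc, Matrix.trace_mul_comm M0]
  rw [c1, c2]; ring

theorem cube_coef2 (M0 M1 M2 : Mat n) :
    (M0 * M0 * M2 + (M0 * M1 + M1 * M0) * M1 + (M0 * M2 + M1 * M1 + M2 * M0) * M0).trace
      = 3 * (M2 * M0 * M0).trace + 3 * (M1 * M1 * M0).trace := by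
  simp only [Matrix.add_mul, Matrix.trace_add]
  have c1 : (M0 * M0 * M2).trace = (M2 * M0 * M0).trace := by
    rw [Matrix.trace_mul_comm (M0 * M0) M2, Matrix.mul_assoc]
  have c2 : (M0 * M2 * M0).trace = (M2 * M0 * M0).trace := by
    rw [Matrix.mul_assoc, Matrix.trace_mul_comm M0]
  have c3 : (M0 * M1 * M1).trace = (M1 * M1 * M0).trace := by
    rw [Matrix.mul_assoc, Matrix.trace_mul_comm M0]
  have c4 : (M1 * M0 * M1).trace = (M1 * M1 * M0).trace := by
    rw [Matrix.trace_mul_comm (M1 * M0) M1, Matrix.mul_assoc]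
  rw [c1, c2, c3, c4]; ring

/-- the second order jet of `tr (S P)^3` at `S = 1` -/
theorem cube_jet2 {l : Filter ℝ} (hl : l ≤ 𝓝 0) {S P : ℝ → Mat n} {D E P0 X : Mat n}
    (hS : MJ2 l S 1 D E) (hP : MJ2 l P P0 X 0) :
    J2 l (fun t => ((S t * P t) ^ 3).trace) (P0 * P0 * P0).trace
      (3 * (D * (P0 * P0 * P0)).trace + 3 * (X * P0 * P0).trace)
      (3 * (E * (P0 * P0 * P0)).trace + 3 * (D * P0 * D * (P0 * P0)).trace
        + 3 * (X * (D * (P0 * P0) + P0 * D * P0 + P0 * P0 * D)).trace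
        + 3 * (X * X * P0).trace) := by
  have h1 := hS.mul hl hP
  have h2 := ((h1.mul hl h1).mul hl h1).trace
  refine h2.congr (Eventually.of_forall fun t => ?_) ?_ ?_ ?_
  · beta_reduce; rw [pow_succ, pow_two]
  · simp only [Matrix.one_mul]
  · rw [cube_coef1]
    simp only [Matrix.one_mul, Matrix.add_mul, Matrix.trace_add, Matrix.mul_assoc]
    ring
  · rw [cube_coef2]
    simp only [Matrix.one_mul, Matrix.add_mul, Matrix.mul_add, Matrix.trace_add,
      Matrix.mul_zero, zero_add, Matrix.mul_assoc]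
    have c1 : (D * (X * (P0 * P0))).trace = (X * (P0 * (P0 * D))).trace := by
      rw [Matrix.trace_mul_comm D]; simp only [Matrix.mul_assoc]
    have c2 : (D * (P0 * (X * P0))).trace = (X * (P0 * (D * P0))).trace := by
      rw [← Matrix.mul_assoc D P0, Matrix.trace_mul_comm (D * P0)]; simp only [Matrix.mul_assoc]
    rw [c1, c2]; ring

theorem cube_jet1 {l : Filter ℝ} (hl : l ≤ 𝓝 0) {S P : ℝ → Mat n} {D P0 X : Mat n}
    (hS : MJ1 l S 1 D) (hP : MJ1 l P P0 X) :
    J1 l (fun t => ((S t * P t) ^ 3).trace) (P0 * P0 * P0).trace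
      (3 * (D * (P0 * P0 * P0)).trace + 3 * (X * P0 * P0).trace) := by
  have h1 := hS.mul hl hP
  have h2 := ((h1.mul hl h1).mul hl h1).trace
  refine h2.congr (Eventually.of_forall fun t => ?_) ?_ ?_
  · beta_reduce; rw [pow_succ, pow_two]
  · simp only [Matrix.one_mul]
  · rw [cube_coef1]
    simp only [Matrix.one_mul, Matrix.add_mul, Matrix.trace_add, Matrix.mul_assoc]
    ring

/-! ### the tensor part -/

theorem N3_comm12 {T T' : Ten n} (h : TSymm T) (h' : TSymm T') (X Y Z : Mat n) :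
    N3 X Y Z T T' = N3 Y X Z T T' := by
  unfold N3
  rw [Finset.sum_comm]
  refine Finset.sum_congr rfl fun a _ => Finset.sum_congr rfl fun b _ =>
    Finset.sum_congr rfl fun c _ => ?_
  rw [Finset.sum_comm]
  refine Finset.sum_congr rfl fun a' _ => Finset.sum_congr rfl fun b' _ =>
    Finset.sum_congr rfl fun c' _ => ?_
  rw [h.1 a b c, h'.1 a' b' c']; ring

theorem N3_comm23 {T T' : Ten n} (h : TSymm T) (h' : TSymm T') (X Y Z : Mat n) :
    N3 X Y Z T T' = N3 X Z Y T T' := by
  unfold N3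
  refine Finset.sum_congr rfl fun a _ => ?_
  rw [Finset.sum_comm]
  refine Finset.sum_congr rfl fun b _ => Finset.sum_congr rfl fun c _ =>
    Finset.sum_congr rfl fun a' _ => ?_
  rw [Finset.sum_comm]
  refine Finset.sum_congr rfl fun b' _ => Finset.sum_congr rfl fun c' _ => ?_
  rw [h.2 a b c, h'.2 a' b' c']; ring

theorem N3_swap {X Y Z : Mat n} (hX : X.IsSymm) (hY : Y.IsSymm) (hZ : Z.IsSymm) (T T' : Ten n) :
    N3 X Y Z T T' = N3 X Y Z T' T := by
  rw [N3_eq, N3_eq, Matrix.dotProduct_mulVec, dotProduct_comm, ← Matrix.mulVec_transpose,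
    k3_transpose, hX.eq, hY.eq, hZ.eq]

/-- jets of `⟨T, P³ T⟩` -/
theorem NN_jet2 {l : Filter ℝ} (hl : l ≤ 𝓝 0) {P X : Mat n} {T K : Ten n} (hP : P.IsSymm)
    (hX : X.IsSymm) (hT : TSymm T) (hK : TSymm K) :
    J2 l (fun t => NN (P + t • X) (T + t • K) (T + t • K)) (NN P T T)
      (2 * NN P K T + 3 * N3 X P P T T)
      (NN P K K + 6 * N3 X P P K T + 3 * N3 X X P T T) := by
  have hTt : ∀ i j k, J2 l (fun t => (T + t • K) i j k) (T i j k) (K i j k) 0 := fun i j k => by
    have h := (J2.const (l := l) (T i j k)).add (J2.id.mul_const (K i j k))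
    refine h.congr (Eventually.of_forall fun t => ?_) ?_ ?_ ?_ <;> simp
  have hPt := MJ2.affine l P X
  have h := J2.sum Finset.univ fun a _ => J2.sum Finset.univ fun b _ =>
    J2.sum Finset.univ fun c _ => J2.sum Finset.univ fun a' _ => J2.sum Finset.univ fun b' _ =>
    J2.sum Finset.univ fun c' _ =>
    ((((hPt a a').mul hl (hPt b b')).mul hl (hPt c c')).mul hl (hTt a b c)).mul hl (hTt a' b' c')
  refine h.congr (Eventually.of_forall fun t => rfl) ?_ ?_ ?_
  · rfl
  · have e : 2 * NN P K T + 3 * N3 X P P T T = N3 P P P T K + N3 P P P K T + N3 P P X T T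
        + N3 P X P T T + N3 X P P T T := by
      rw [NN_eq, N3_swap hP hP hP T K, N3_comm23 hT hT P P X, N3_comm12 hT hT P X P]
      ring
    rw [e]
    simp only [N3, ← Finset.sum_add_distrib]
    refine Finset.sum_congr rfl fun a _ => Finset.sum_congr rfl fun b _ =>
      Finset.sum_congr rfl fun c _ => Finset.sum_congr rfl fun a' _ =>
      Finset.sum_congr rfl fun b' _ => Finset.sum_congr rfl fun c' _ => ?_
    ring
  · have e : NN P K K + 6 * N3 X P P K T + 3 * N3 X X P T T = N3 P P P K K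
        + (N3 P P X T K + N3 P P X K T) + (N3 P X P T K + N3 P X P K T)
        + (N3 X P P T K + N3 X P P K T)
        + (N3 X X P T T + N3 X P X T T + N3 P X X T T) := by
      rw [NN_eq, N3_swap hP hP hX T K, N3_swap hP hX hP T K, N3_swap hX hP hP T K,
        N3_comm23 hK hT P P X, N3_comm12 hK hT P X P, N3_comm12 hT hT P X X,
        N3_comm23 hT hT X P X]
      ring
    rw [e]
    simp only [N3, ← Finset.sum_add_distrib]
    refine Finset.sum_congr rfl fun a _ => Finset.sum_congr rfl fun b _ =>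
      Finset.sum_congr rfl fun c _ => Finset.sum_congr rfl fun a' _ =>
      Finset.sum_congr rfl fun b' _ => Finset.sum_congr rfl fun c' _ => ?_
    simp only [Matrix.zero_apply]
    ring

theorem NN_jet1 {l : Filter ℝ} (hl : l ≤ 𝓝 0) {P : Mat n} {T K : Ten n} (hP : P.IsSymm) :
    J1 l (fun t => NN P (T + t • K) (T + t • K)) (NN P T T) (2 * NN P K T) := by
  have hTt : ∀ i j k, J1 l (fun t => (T + t • K) i j k) (T i j k) (K i j k) := fun i j k => by
    have h := (J1.const (l := l) (T i j k)).add (J1.id.mul_const (K i j k))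
    refine h.congr (Eventually.of_forall fun t => ?_) ?_ ?_ <;> simp
  have h := J1.sum Finset.univ fun a _ => J1.sum Finset.univ fun b _ =>
    J1.sum Finset.univ fun c _ => J1.sum Finset.univ fun a' _ => J1.sum Finset.univ fun b' _ =>
    J1.sum Finset.univ fun c' _ =>
    ((J1.const (l := l) (P a a' * P b b' * P c c')).mul hl (hTt a b c)).mul hl (hTt a' b' c')
  refine h.congr (Eventually.of_forall fun t => rfl) ?_ ?_
  · rfl
  · have e : 2 * NN P K T = N3 P P P T K + N3 P P P K T := by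
      rw [NN_eq, N3_swap hP hP hP T K]; ring
    rw [e]
    simp only [N3, ← Finset.sum_add_distrib]
    refine Finset.sum_congr rfl fun a _ => Finset.sum_congr rfl fun b _ =>
      Finset.sum_congr rfl fun c _ => Finset.sum_congr rfl fun a' _ =>
      Finset.sum_congr rfl fun b' _ => Finset.sum_congr rfl fun c' _ => ?_
    ring

end Vale.Agent.P254.MP
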