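import Vale.Agent.P254.MP.FrJet

/-!
P254 (Y), part 3 (helper564): `quad`, `lin` and stationarity in the frame `A = diag a`, `B = diag b'`.
-/

namespace Vale.Agent.P254.MP

open Matrix Set Filter Topology Asymptotics Polynomial
open Vale.Agent.P254.L Vale.Agent.P254.S526

variable {n : ℕ}

/-- first variation of `S_q` in the frame `A = diag a`, `B = diag b'` along `Y` -/
noncomputable def dS (q : ℝ[X]) (a b' : Vec n) (Y : Mat n) : Mat n :=
  Matrix.of fun i j => pd1 (q * X) (a i * b' i) (a j * b' j) * Y i j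

/-- second variation of `S_q` -/
noncomputable def ddS (q : ℝ[X]) (a b' : Vec n) (Y Y' : Mat n) : Mat n :=
  Matrix.of fun i j => ∑ k, b' k * pd2 (q * X) (a i * b' i) (a k * b' k) (a j * b' j)
    * Y i k * Y' k j

theorem SQ_mjet2 {l : Filter ℝ} (hl : l ≤ 𝓝 0) (q : ℝ[X]) (a b' : Vec n)
    (hS : ∀ i, a i * q.eval (a i * b' i) = 1) (Y : Mat n) :
    MJ2 l (fun t => SQ q (diagonal a + t • Y) (diagonal b')) 1 (dS q a b' Y) (ddS q a b' Y Y) := by
  intro i j
  have h := SQ_jet2 hl q (b' := b') (MJ2.affine l (diagonal a) Y) i j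
  refine h.congr (Eventually.of_forall fun t => rfl) ?_ rfl ?_
  · simp only [Matrix.diagonal_apply, Matrix.one_apply, hS]
  · simp only [Matrix.zero_apply, mul_zero, zero_add]
    rfl

theorem quad_frame (q : ℝ[X]) (a b' : Vec n) {T : Ten n} {P : Mat n} {K : Ten4 n}
    (hT : TSymm T) (hP : P.IsSymm) (hK : KSymm K) (hS : ∀ i, a i * q.eval (a i * b' i) = 1)
    (r : Vec n) {Y : Mat n} (hY : Y.IsSymm) :
    quad q 1 (diagonal a) (diagonal b') T P K r Y
      = 2 * (NN P (c4 K r) (c4 K r) + 6 * N3 Y P P (c4 K r) T + 3 * N3 Y Y P T T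
        - (3 * (ddS q a b' (c3 T r) (c3 T r) * (P * P * P)).trace
          + 3 * (dS q a b' (c3 T r) * P * dS q a b' (c3 T r) * (P * P)).trace
          + 3 * (Y * (dS q a b' (c3 T r) * (P * P) + P * dS q a b' (c3 T r) * P
              + P * P * dS q a b' (c3 T r))).trace
          + 3 * (Y * Y * P).trace)) := by
  unfold quad
  have h1 := NN_jet2 (le_refl (𝓝 (0 : ℝ))) hP hY hT (hK.c4 r)
  have h2 := cube_jet2 (le_refl (𝓝 (0 : ℝ))) (SQ_mjet2 le_rfl q a b' hS (c3 T r))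
    (MJ2.affine (𝓝 0) P Y)
  have h3 := h1.sub h2
  refine IsPol.deriv_deriv ?_ (a := NN P T T - (P * P * P).trace)
    (b := 2 * NN P (c4 K r) T + 3 * N3 Y P P T T
      - (3 * (dS q a b' (c3 T r) * (P * P * P)).trace + 3 * (Y * P * P).trace)) ?_
  · refine isPol_FF q 1 (MPol.affine _ _) (MPol.const _) (MPol.affine _ _) fun i j k => ?_
    simpa using (IsPol.const (T i j k)).add (IsPol.id.mul (IsPol.const (c4 K r i j k)))
  · refine h3.congr (Eventually.of_forall fun t => ?_) rfl rfl rfl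
    simp only [FF, one_mul]

theorem stat_frame (q : ℝ[X]) (a b' : Vec n) {T : Ten n} {P : Mat n} {K : Ten4 n}
    (hP : P.IsSymm) (hS : ∀ i, a i * q.eval (a i * b' i) = 1)
    (r : Vec n) :
    deriv (fun τ : ℝ => FF q 1 (diagonal a + τ • c3 T r) (diagonal b') (T + τ • c4 K r) P) 0
      = 2 * NN P (c4 K r) T - 3 * (dS q a b' (c3 T r) * (P * P * P)).trace := by
  have h1 := NN_jet1 (K := c4 K r) (T := T) (le_refl (𝓝 (0 : ℝ))) hP
  have h2 := cube_jet2 (le_refl (𝓝 (0 : ℝ))) (SQ_mjet2 le_rfl q a b' hS (c3 T r))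
    (MJ2.affine (𝓝 0) P 0)
  have h3 := h1.sub (J2.toJ1 le_rfl h2)
  refine J1.deriv_eq (a := NN P T T - (P * P * P).trace)
    (h3.congr (Eventually.of_forall fun t => ?_) rfl ?_)
  · simp only [FF, one_mul, smul_zero, add_zero]
  · simp

/-- variation of `S_q` along `A' = - A Q A`, `B' = Q` -/
noncomputable def fS (q : ℝ[X]) (a b' : Vec n) (Q : Mat n) : Mat n :=
  Matrix.of fun i j => pd1 (q * X) (a i * b' i) (a j * b' j) * (-(a i * Q i j * a j))
    + a i * a j * pd1 q (a i * b' i) (a j * b' j) * Q i j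

/-- contraction of the first slot -/
def s1 (M : Mat n) (T : Ten n) : Ten n := fun i j k => ∑ l, M i l * T l j k

theorem vt_s1 (M : Mat n) (T : Ten n) : vt (s1 M T) = k3 M 1 1 *ᵥ vt T := by
  funext ⟨i, j, k⟩
  unfold s1 vt k3 mulVec dotProduct
  simp only [Fintype.sum_prod_type, Matrix.kroneckerMap_apply, Matrix.one_apply]
  refine Finset.sum_congr rfl fun a _ => ?_
  simp

theorem N3_kron (X Y Z U V W : Mat n) (T T' : Ten n) :
    (k3 U V W *ᵥ vt T) ⬝ᵥ (k3 X Y Z *ᵥ vt T') = N3 (Uᵀ * X) (Vᵀ * Y) (Wᵀ * Z) T T' := by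
  rw [N3_eq, ← k3_mul, ← k3_transpose, ← Matrix.mulVec_mulVec,
    Matrix.dotProduct_mulVec (vt T) (k3 U V W)ᵀ, Matrix.vecMul_transpose]

theorem NN_aq {T : Ten n} (hT : TSymm T) (A P Q : Mat n) :
    NN P (aq A Q T) T = 3 * NN P (s1 (A * Q) T) T := by
  have e1 : NN P (s1 (A * Q) T) T = N3 ((A * Q)ᵀ * P) P P T T := by
    rw [NN_eq, N3_eq, vt_s1, N3_kron]; simp
  have e2 : NN P (aq A Q T) T = N3 ((A * Q)ᵀ * P) P P T T + N3 P ((A * Q)ᵀ * P) P T T
      + N3 P P ((A * Q)ᵀ * P) T T := by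
    rw [NN_eq, N3_eq, vt_aq, Matrix.add_mulVec, Matrix.add_mulVec, add_dotProduct,
      add_dotProduct, N3_kron, N3_kron, N3_kron]
    simp
  rw [e2, e1, N3_comm23 hT hT P P, N3_comm12 hT hT P _ P]
  ring

theorem lin_frame (q : ℝ[X]) (a b' : Vec n) {T : Ten n} {P : Mat n} (Q : Mat n)
    (hT : TSymm T) (hP : P.IsSymm) (hS : ∀ i, a i * q.eval (a i * b' i) = 1) :
    lin q 1 (diagonal a) (diagonal b') T P Q
      = -6 * NN P (s1 (diagonal a * Q) T) T - 3 * (fS q a b' Q * (P * P * P)).trace := by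
  unfold lin
  have h1 := NN_jet1 (K := -aq (diagonal a) Q T) (T := T) (le_refl (𝓝 (0 : ℝ))) hP
  have hSj : MJ1 (𝓝 0) (fun t => SQ q (diagonal a - t • (diagonal a * Q * diagonal a))
      (diagonal b' + t • Q)) 1 (fS q a b' Q) := by
    intro i j
    have hA := MJ1.affine (𝓝 0) (diagonal a) (-(diagonal a * Q * diagonal a))
    have hB := MJ1.affine (𝓝 0) (diagonal b') Q
    have h := SQ_jet1 le_rfl q hA hB i j
    refine h.congr (Eventually.of_forall fun t => ?_) ?_ ?_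
    · simp only [SQ, smul_neg, sub_eq_add_neg]
    · simp only [Matrix.diagonal_apply, Matrix.one_apply, hS]
    · simp only [fS, Matrix.of_apply, Matrix.neg_apply, Matrix.mul_diagonal,
        Matrix.diagonal_mul]
  have h2 := cube_jet1 (le_refl (𝓝 (0 : ℝ))) hSj (MJ1.affine (𝓝 0) P 0)
  have h3 := h1.sub h2
  refine J1.deriv_eq (a := NN P T T - (P * P * P).trace)
    (h3.congr (Eventually.of_forall fun t => ?_) rfl ?_)
  · simp only [FF, one_mul, smul_zero, add_zero, smul_neg, sub_eq_add_neg]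
  · have e : NN P (-aq (diagonal a) Q T) T = - NN P (aq (diagonal a) Q T) T := by
      rw [NN_eq, NN_eq, N3_eq, N3_eq]
      have : vt (-aq (diagonal a) Q T) = - vt (aq (diagonal a) Q T) := rfl
      rw [this, neg_dotProduct]
    rw [e, NN_aq hT]
    simp
    ring

end Vale.Agent.P254.MP
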