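import Vale.Agent.P254.MP.FrQuad
import Vale.Agent.P254.L.Alg

/-!
P254 (Y), part 4 (helper564): the sum over the directions; `drift` of `L/Alg.lean`.
-/

namespace Vale.Agent.P254.MP

open Matrix Set Filter Topology Asymptotics Polynomial
open Vale.Agent.P254.L Vale.Agent.P254.S526

variable {n : ℕ}

theorem vt_sum (r : Vec n) (K : Fin n → Ten n) :
    vt (∑ a, r a • K a) = ∑ a, r a • vt (K a) := by
  funext ⟨i, j, k⟩
  simp [vt, Finset.sum_apply]

theorem N3_sum4 (X Y Z : Mat n) (r : Vec n) (K : Fin n → Ten n) (T' : Ten n) :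
    N3 X Y Z (∑ a, r a • K a) T' = ∑ a, r a * N3 X Y Z (K a) T' := by
  rw [N3_eq, vt_sum, sum_dotProduct]
  refine Finset.sum_congr rfl fun a _ => ?_
  rw [smul_dotProduct, smul_eq_mul, N3_eq]

theorem N3_sum5 (X Y Z : Mat n) (r : Vec n) (K : Fin n → Ten n) (T : Ten n) :
    N3 X Y Z T (∑ a, r a • K a) = ∑ a, r a * N3 X Y Z T (K a) := by
  rw [N3_eq, vt_sum, Matrix.mulVec_sum, dotProduct_sum]
  refine Finset.sum_congr rfl fun a _ => ?_
  rw [Matrix.mulVec_smul, dotProduct_smul, smul_eq_mul, N3_eq]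

theorem N3_sum1 (Y Z : Mat n) (r : Vec n) (X : Fin n → Mat n) (T T' : Ten n) :
    N3 (∑ a, r a • X a) Y Z T T' = ∑ a, r a * N3 (X a) Y Z T T' := by
  have h : k3 (∑ a, r a • X a) Y Z = ∑ a, r a • k3 (X a) Y Z := by
    ext ⟨i, j, k⟩ ⟨i', j', k'⟩
    simp [k3, Matrix.sum_apply, Finset.sum_mul, mul_assoc]
  rw [N3_eq, h, Matrix.sum_mulVec, dotProduct_sum]
  refine Finset.sum_congr rfl fun a _ => ?_
  rw [Matrix.smul_mulVec, dotProduct_smul, smul_eq_mul, N3_eq]

theorem N3_sum2 (Y Z : Mat n) (r : Vec n) (X : Fin n → Mat n) (T T' : Ten n) :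
    N3 Y (∑ a, r a • X a) Z T T' = ∑ a, r a * N3 Y (X a) Z T T' := by
  have h : k3 Y (∑ a, r a • X a) Z = ∑ a, r a • k3 Y (X a) Z := by
    ext ⟨i, j, k⟩ ⟨i', j', k'⟩
    simp only [k3, Matrix.sum_apply, Finset.sum_mul, Finset.mul_sum, Matrix.smul_apply,
      Matrix.kroneckerMap_apply, smul_eq_mul]
    refine Finset.sum_congr rfl fun a _ => ?_
    ring
  rw [N3_eq, h, Matrix.sum_mulVec, dotProduct_sum]
  refine Finset.sum_congr rfl fun a _ => ?_
  rw [Matrix.smul_mulVec, dotProduct_smul, smul_eq_mul, N3_eq]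

theorem c4_eq_sum {K : Ten4 n} (hK : KSymm K) (r : Vec n) : c4 K r = ∑ a, r a • K a := by
  funext i j k
  simp only [c4, Finset.sum_apply, Pi.smul_apply, smul_eq_mul]
  refine Finset.sum_congr rfl fun l _ => ?_
  rw [hK.2.2 i j k l, hK.2.1 i j l k, hK.1 i l j k]

variable (F : Profile) (b : Vec n) (T : Ten n)

theorem c3_eq_sum {T : Ten n} (hT : TSymm T) (r : Vec n) (i j : Fin n) :
    c3 T r i j = ∑ a, r a * T a i j := by
  simp only [c3, Matrix.of_apply]
  refine Finset.sum_congr rfl fun l _ => ?_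
  rw [hT.2 i j l, hT.1 i l j]

theorem dS_eq_sum {T : Ten n} (hT : TSymm T) {q : ℝ[X]} {a b' : Vec n}
    (hab : ∀ i, a i * b' i = b i) (hq : Interp F q (Set.range b)) (r : Vec n) :
    dS q a b' (c3 T r) = ∑ c, r c • Sd F b T c := by
  ext i j
  simp only [dS, Matrix.of_apply, Matrix.sum_apply, Matrix.smul_apply, smul_eq_mul, Sd]
  rw [hab, hab, hq.pd1_h ⟨i, rfl⟩ ⟨j, rfl⟩, c3_eq_sum hT, Finset.mul_sum]
  refine Finset.sum_congr rfl fun c _ => ?_
  ring

theorem ddS_eq_sum {T : Ten n} (hT : TSymm T) {q : ℝ[X]} {a b' : Vec n}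
    (hab : ∀ i, a i * b' i = b i) (hb' : ∀ i, b' i = F.h (b i))
    (hq : Interp F q (Set.range b)) (r : Vec n) :
    ddS q a b' (c3 T r) (c3 T r) = ∑ c, ∑ c', (r c * r c') • Gam F b T c c' := by
  ext i j
  simp only [ddS, Matrix.of_apply, Matrix.sum_apply, Matrix.smul_apply, smul_eq_mul, Gam,
    Finset.mul_sum]
  have e : ∀ k, b' k * pd2 (q * X) (a i * b' i) (a k * b' k) (a j * b' j) * c3 T r i k
      * c3 T r k j = ∑ c, ∑ c', r c * r c' * (F.h (b k) * dd2 F.h F.h1 F.h2 (b i) (b k) (b j)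
        * T c i k * T c' k j) := by
    intro k
    rw [hab, hab, hab, hq.pd2_h ⟨i, rfl⟩ ⟨k, rfl⟩ ⟨j, rfl⟩, c3_eq_sum hT, c3_eq_sum hT, hb',
      mul_assoc, Finset.sum_mul_sum, Finset.mul_sum]
    refine Finset.sum_congr rfl fun c _ => ?_
    rw [Finset.mul_sum]
    refine Finset.sum_congr rfl fun c' _ => ?_
    ring
  rw [Finset.sum_congr rfl fun k _ => e k, Finset.sum_comm]
  refine Finset.sum_congr rfl fun c _ => ?_
  rw [Finset.sum_comm]

/-- the summand of `drift` in the directions `c, c'` -/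
noncomputable def dterm (P : Mat n) (K : Fin n → Ten n) (X : Fin n → Mat n) (c c' : Fin n) : ℝ :=
  NN P (K c) (K c') + 6 * N3 (X c) P P (K c') T + 3 * N3 (X c) (X c') P T T
    - (3 * (Gam F b T c c' * (P * P * P)).trace
      + 3 * (Sd F b T c * P * Sd F b T c' * (P * P)).trace
      + 3 * (X c * (Sd F b T c' * (P * P) + P * Sd F b T c' * P + P * P * Sd F b T c')).trace
      + 3 * (X c * X c' * P).trace)

theorem drift_eq (P : Mat n) (K : Fin n → Ten n) (Q : Mat n) (X : Fin n → Mat n) :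
    L.drift F b T P K Q X = - 6 * NN P (AQT F b T Q) T - 3 * (Sflow F b Q * (P * P * P)).trace
      + ∑ c, ∑ c', Q c c' * dterm F b T P K X c c' := by
  have h0 : L.drift F b T P K Q X = - 6 * NN P (AQT F b T Q) T
      + ∑ c, ∑ c', Q c c' * (NN P (K c) (K c') + 6 * N3 (X c) P P (K c') T
        + 3 * N3 (X c) (X c') P T T)
      - (3 * (Sflow F b Q * (P * P * P)).trace
        + ∑ c, ∑ c', Q c c' * (3 * (Gam F b T c c' * (P * P * P)).trace
          + 3 * (Sd F b T c * P * Sd F b T c' * (P * P)).trace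
          + 3 * (X c * (Sd F b T c' * (P * P) + P * Sd F b T c' * P + P * P * Sd F b T c')).trace
          + 3 * (X c * X c' * P).trace)) := rfl
  have e : ∀ c c' : Fin n, Q c c' * dterm F b T P K X c c'
      = Q c c' * (NN P (K c) (K c') + 6 * N3 (X c) P P (K c') T + 3 * N3 (X c) (X c') P T T)
      - Q c c' * (3 * (Gam F b T c c' * (P * P * P)).trace
      + 3 * (Sd F b T c * P * Sd F b T c' * (P * P)).trace
      + 3 * (X c * (Sd F b T c' * (P * P) + P * Sd F b T c' * P + P * P * Sd F b T c')).trace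
      + 3 * (X c * X c' * P).trace) := fun c c' => by unfold dterm; ring
  rw [h0]
  simp only [e, Finset.sum_sub_distrib]
  ring

theorem quad_sum {T : Ten n} {P : Mat n} {K : Ten4 n} {X : Fin n → Mat n} {q : ℝ[X]} {a b' : Vec n}
    (hT : TSymm T) (hP : P.IsSymm) (hK : KSymm K) (hX : ∀ c, (X c).IsSymm)
    (hab : ∀ i, a i * b' i = b i) (hb' : ∀ i, b' i = F.h (b i))
    (hS : ∀ i, a i * q.eval (a i * b' i) = 1) (hq : Interp F q (Set.range b)) (r : Vec n) :
    quad q 1 (diagonal a) (diagonal b') T P K r (∑ c, r c • X c)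
      = 2 * ∑ c, ∑ c', r c * r c' * dterm F b T P K X c c' := by
  have hY : (∑ c, r c • X c).IsSymm := by
    unfold Matrix.IsSymm
    rw [Matrix.transpose_sum]
    exact Finset.sum_congr rfl fun c _ => by rw [Matrix.transpose_smul, (hX c).eq]
  rw [quad_frame q a b' hT hP hK hS r hY, c4_eq_sum hK, dS_eq_sum F b hT hab hq,
    ddS_eq_sum F b hT hab hb' hq]
  congr 1
  have t1 : NN P (∑ c, r c • K c) (∑ c, r c • K c)
      = ∑ c, ∑ c', r c * r c' * NN P (K c) (K c') := by
    rw [NN_eq, N3_sum4]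
    refine Finset.sum_congr rfl fun c _ => ?_
    rw [N3_sum5, Finset.mul_sum]
    exact Finset.sum_congr rfl fun c' _ => by rw [NN_eq]; ring
  have t2 : N3 (∑ c, r c • X c) P P (∑ c, r c • K c) T
      = ∑ c, ∑ c', r c * r c' * N3 (X c) P P (K c') T := by
    rw [N3_sum1]
    refine Finset.sum_congr rfl fun c _ => ?_
    rw [N3_sum4, Finset.mul_sum]
    exact Finset.sum_congr rfl fun c' _ => by ring
  have t3 : N3 (∑ c, r c • X c) (∑ c, r c • X c) P T T
      = ∑ c, ∑ c', r c * r c' * N3 (X c) (X c') P T T := by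
    rw [N3_sum1]
    refine Finset.sum_congr rfl fun c _ => ?_
    rw [N3_sum2, Finset.mul_sum]
    exact Finset.sum_congr rfl fun c' _ => by ring
  have t4 : ((∑ c, ∑ c', (r c * r c') • Gam F b T c c') * (P * P * P)).trace
      = ∑ c, ∑ c', r c * r c' * (Gam F b T c c' * (P * P * P)).trace := by
    simp only [Matrix.sum_mul, Matrix.trace_sum, Matrix.smul_mul, Matrix.trace_smul, smul_eq_mul]
  have t5 : ((∑ c, r c • Sd F b T c) * P * (∑ c, r c • Sd F b T c) * (P * P)).trace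
      = ∑ c, ∑ c', r c * r c' * (Sd F b T c * P * Sd F b T c' * (P * P)).trace := by
    simp only [Matrix.sum_mul, Matrix.mul_sum, Matrix.trace_sum, Matrix.smul_mul,
      Matrix.mul_smul, Matrix.trace_smul, smul_eq_mul, Finset.mul_sum]
    rw [Finset.sum_comm]
    exact Finset.sum_congr rfl fun c _ => Finset.sum_congr rfl fun c' _ => by ring
  have t6 : ((∑ c, r c • X c) * ((∑ c, r c • Sd F b T c) * (P * P)
      + P * (∑ c, r c • Sd F b T c) * P + P * P * (∑ c, r c • Sd F b T c))).trace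
      = ∑ c, ∑ c', r c * r c' * (X c * (Sd F b T c' * (P * P) + P * Sd F b T c' * P
        + P * P * Sd F b T c')).trace := by
    simp only [Matrix.trace_add, mul_add, Finset.sum_add_distrib,
      Matrix.sum_mul, Matrix.mul_sum, Matrix.trace_sum, Matrix.smul_mul,
      Matrix.mul_smul, Matrix.trace_smul, smul_eq_mul, Finset.mul_sum]
    refine congrArg₂ _ (congrArg₂ _ ?_ ?_) ?_ <;>
    · rw [Finset.sum_comm]
      exact Finset.sum_congr rfl fun c _ => Finset.sum_congr rfl fun c' _ => by ring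
  have t7 : ((∑ c, r c • X c) * (∑ c, r c • X c) * P).trace
      = ∑ c, ∑ c', r c * r c' * (X c * X c' * P).trace := by
    simp only [Matrix.sum_mul, Matrix.mul_sum, Matrix.trace_sum, Matrix.smul_mul,
      Matrix.mul_smul, Matrix.trace_smul, smul_eq_mul, Finset.mul_sum]
    rw [Finset.sum_comm]
    exact Finset.sum_congr rfl fun c _ => Finset.sum_congr rfl fun c' _ => by ring
  rw [t1, t2, t3, t4, t5, t6, t7]
  simp only [dterm, Finset.mul_sum, ← Finset.sum_add_distrib, ← Finset.sum_sub_distrib]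
  exact Finset.sum_congr rfl fun c _ => Finset.sum_congr rfl fun c' _ => by ring

/-- the drift in the frame -/
theorem drift_frame {T : Ten n} {P : Mat n} {K : Ten4 n} {X : Fin n → Mat n} {q : ℝ[X]}
    (hb : ∀ i, b i ∈ Ioo (0 : ℝ) 1) (hT : TSymm T) (hP : P.IsSymm) (hK : KSymm K)
    (hX : ∀ c, (X c).IsSymm) (hq : Interp F q (Set.range b)) (R : Mat n) :
    1 / 2 * ∑ k, quad q 1 (diagonal fun i => 1 / F.p (b i)) (diagonal fun i => F.h (b i)) T P K
        (fun i => R i k) (∑ c, R c k • X c)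
      + lin q 1 (diagonal fun i => 1 / F.p (b i)) (diagonal fun i => F.h (b i)) T P (R * Rᵀ)
      = L.drift F b T P K (R * Rᵀ) X := by
  have hp : ∀ i, F.p (b i) ≠ 0 := fun i => (F.pos _ (hb i)).ne'
  have hab : ∀ i, 1 / F.p (b i) * F.h (b i) = b i := fun i => by
    have := hp i
    unfold Profile.h
    field_simp
  have hS : ∀ i, 1 / F.p (b i) * q.eval (1 / F.p (b i) * F.h (b i)) = 1 := fun i => by
    rw [hab, (hq (b i) ⟨i, rfl⟩).1]
    have := hp i
    field_simp
  have h1 : ∀ k, quad q 1 (diagonal fun i => 1 / F.p (b i)) (diagonal fun i => F.h (b i)) T P K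
        (fun i => R i k) (∑ c, R c k • X c)
      = 2 * ∑ c, ∑ c', R c k * R c' k * dterm F b T P K X c c' := fun k =>
    quad_sum F b hT hP hK hX hab (fun i => rfl) hS hq fun i => R i k
  rw [Finset.sum_congr rfl fun k _ => h1 k, lin_frame q _ _ _ hT hP hS, drift_eq]
  have h2 : 1 / 2 * ∑ k, 2 * ∑ c, ∑ c', R c k * R c' k * dterm F b T P K X c c'
      = ∑ c, ∑ c', (R * Rᵀ) c c' * dterm F b T P K X c c' := by
    rw [← Finset.mul_sum, ← mul_assoc]
    norm_num
    rw [Finset.sum_comm]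
    refine Finset.sum_congr rfl fun c _ => ?_
    rw [Finset.sum_comm]
    refine Finset.sum_congr rfl fun c' _ => ?_
    rw [Matrix.mul_apply, Finset.sum_mul]
    rfl
  have h3 : AQT F b T (R * Rᵀ) = s1 (diagonal (fun i => 1 / F.p (b i)) * (R * Rᵀ)) T := by
    funext i j k
    simp only [AQT, s1, Matrix.diagonal_mul]
  have h4 : fS q (fun i => 1 / F.p (b i)) (fun i => F.h (b i)) (R * Rᵀ) = Sflow F b (R * Rᵀ) := by
    ext i j
    simp only [fS, Sflow, Matrix.of_apply, hab]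
    rw [hq.pd1_h ⟨i, rfl⟩ ⟨j, rfl⟩, hq.pd1_p ⟨i, rfl⟩ ⟨j, rfl⟩]
    have hi := hp i
    have hj := hp j
    unfold dd1 Profile.h Profile.h1
    by_cases hij : b i = b j
    · simp only [hij, if_true]
      field_simp
      ring
    · simp only [hij, if_false]
      have : b i - b j ≠ 0 := sub_ne_zero.2 hij
      field_simp
      ring
  rw [h2, h3, h4]
  ring

/-- stationarity in the frame -/
theorem stat_frame' {T : Ten n} {P : Mat n} {K : Ten4 n} {q : ℝ[X]}
    (hb : ∀ i, b i ∈ Ioo (0 : ℝ) 1) (hT : TSymm T) (hP : P.IsSymm) (hK : KSymm K)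
    (hq : Interp F q (Set.range b)) (c : Fin n) :
    deriv (fun τ : ℝ => FF q 1 ((diagonal fun i => 1 / F.p (b i)) + τ • c3 T (Pi.single c 1))
      (diagonal fun i => F.h (b i)) (T + τ • c4 K (Pi.single c 1)) P) 0
      = 2 * NN P (K c) T - 3 * (Sd F b T c * (P * P * P)).trace := by
  have hp : ∀ i, F.p (b i) ≠ 0 := fun i => (F.pos _ (hb i)).ne'
  have hab : ∀ i, 1 / F.p (b i) * F.h (b i) = b i := fun i => by
    have := hp i
    unfold Profile.h
    field_simp
  have hS : ∀ i, 1 / F.p (b i) * q.eval (1 / F.p (b i) * F.h (b i)) = 1 := fun i => by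
    rw [hab, (hq (b i) ⟨i, rfl⟩).1]
    have := hp i
    field_simp
  rw [stat_frame q _ _ hP hS, c4_eq_sum hK, dS_eq_sum F b hT hab hq]
  have e1 : ∑ a, (Pi.single c (1 : ℝ) : Vec n) a • K a = K c := by
    rw [Finset.sum_eq_single c]
    · simp
    · intro a _ ha; simp [Pi.single_eq_of_ne ha]
    · simp
  have e2 : ∑ a, (Pi.single c (1 : ℝ) : Vec n) a • Sd F b T a = Sd F b T c := by
    rw [Finset.sum_eq_single c]
    · simp
    · intro a _ ha; simp [Pi.single_eq_of_ne ha]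
    · simp
  rw [e1, e2]

end Vale.Agent.P254.MP
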