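import Vale.Agent.P254.MP.Defs

/-!
P254 (Y), part 1 (helper564): linear changes of frame for 3- and 4-tensors, invariance of `FF`.
-/

namespace Vale.Agent.P254.MP

open Matrix Set Filter Topology Asymptotics Polynomial
open Vale.Agent.P254.L
open scoped Kronecker

variable {n : ℕ}

/-- vectorisation of 3-tensors -/
def vt (T : Ten n) : Fin n × Fin n × Fin n → ℝ := fun x => T x.1 x.2.1 x.2.2

/-- triple Kronecker product -/
def k3 (X Y Z : Mat n) : Matrix (Fin n × Fin n × Fin n) (Fin n × Fin n × Fin n) ℝ :=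
  X ⊗ₖ (Y ⊗ₖ Z)

theorem vt_inj {T T' : Ten n} (h : vt T = vt T') : T = T' := by
  funext i j k
  exact congrFun h (i, j, k)

theorem vt_add (T T' : Ten n) : vt (T + T') = vt T + vt T' := rfl
theorem vt_smul (c : ℝ) (T : Ten n) : vt (c • T) = c • vt T := rfl

theorem k3_mul (X Y Z X' Y' Z' : Mat n) :
    k3 X Y Z * k3 X' Y' Z' = k3 (X * X') (Y * Y') (Z * Z') := by
  unfold k3
  rw [← Matrix.mul_kronecker_mul, ← Matrix.mul_kronecker_mul]

theorem k3_one : k3 (1 : Mat n) 1 1 = 1 := by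
  unfold k3
  rw [Matrix.one_kronecker_one, Matrix.one_kronecker_one]

theorem k3_transpose (X Y Z : Mat n) : (k3 X Y Z)ᵀ = k3 Xᵀ Yᵀ Zᵀ := by
  rfl

theorem N3_eq (X Y Z : Mat n) (T T' : Ten n) :
    N3 X Y Z T T' = vt T ⬝ᵥ (k3 X Y Z *ᵥ vt T') := by
  unfold N3 vt k3 dotProduct mulVec dotProduct
  simp only [Fintype.sum_prod_type, Finset.mul_sum, Matrix.kroneckerMap_apply]
  refine Finset.sum_congr rfl fun a _ => Finset.sum_congr rfl fun b _ =>
    Finset.sum_congr rfl fun c _ => Finset.sum_congr rfl fun a' _ =>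
    Finset.sum_congr rfl fun b' _ => Finset.sum_congr rfl fun c' _ => ?_
  ring

theorem NN_eq (P : Mat n) (T T' : Ten n) : NN P T T' = N3 P P P T T' := rfl

/-- change of frame of a 3-tensor -/
def fr (L : Mat n) (T : Ten n) : Ten n := fun i j k =>
  ∑ a, ∑ b, ∑ c, L i a * L j b * L k c * T a b c

theorem vt_fr (L : Mat n) (T : Ten n) : vt (fr L T) = k3 L L L *ᵥ vt T := by
  funext ⟨i, j, k⟩
  unfold fr vt k3 mulVec dotProduct
  simp only [Fintype.sum_prod_type, Matrix.kroneckerMap_apply]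
  refine Finset.sum_congr rfl fun a _ => Finset.sum_congr rfl fun b _ =>
    Finset.sum_congr rfl fun c _ => ?_
  ring

theorem fr_fr (G L : Mat n) (T : Ten n) : fr G (fr L T) = fr (G * L) T := by
  apply vt_inj
  rw [vt_fr, vt_fr, vt_fr, Matrix.mulVec_mulVec, k3_mul]

theorem fr_one (T : Ten n) : fr (1 : Mat n) T = T := by
  apply vt_inj
  rw [vt_fr, k3_one, Matrix.one_mulVec]

theorem fr_add (L : Mat n) (T T' : Ten n) : fr L (T + T') = fr L T + fr L T' := by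
  apply vt_inj
  rw [vt_add, vt_fr, vt_fr, vt_fr, vt_add, Matrix.mulVec_add]

theorem fr_smul (L : Mat n) (c : ℝ) (T : Ten n) : fr L (c • T) = c • fr L T := by
  apply vt_inj
  rw [vt_smul, vt_fr, vt_fr, vt_smul, Matrix.mulVec_smul]

theorem N3_fr (L X Y Z : Mat n) (T T' : Ten n) :
    N3 X Y Z (fr L T) (fr L T') = N3 (Lᵀ * X * L) (Lᵀ * Y * L) (Lᵀ * Z * L) T T' := by
  rw [N3_eq, N3_eq, vt_fr, vt_fr, ← k3_mul, ← k3_mul, ← k3_transpose, Matrix.mul_assoc,
    ← Matrix.mulVec_mulVec (vt T') (k3 L L L)ᵀ, Matrix.dotProduct_mulVec (vt T) (k3 L L L)ᵀ,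
    Matrix.vecMul_transpose, ← Matrix.mulVec_mulVec (vt T') (k3 X Y Z)]

theorem TSymm_fr {T : Ten n} (h : TSymm T) (L : Mat n) : TSymm (fr L T) := by
  constructor
  · intro i j k
    unfold MP.fr
    rw [Finset.sum_comm]
    refine Finset.sum_congr rfl fun a _ => Finset.sum_congr rfl fun b _ =>
      Finset.sum_congr rfl fun c _ => ?_
    rw [h.1 b a c]; ring
  · intro i j k
    unfold MP.fr
    refine Finset.sum_congr rfl fun a _ => ?_
    rw [Finset.sum_comm]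
    refine Finset.sum_congr rfl fun b _ => Finset.sum_congr rfl fun c _ => ?_
    rw [h.2 a c b]; ring

theorem c3_fr (L : Mat n) (T : Ten n) (e : Vec n) :
    c3 (fr L T) e = L * c3 T (Lᵀ *ᵥ e) * Lᵀ := by
  ext i j
  simp only [c3, MP.fr, Matrix.of_apply, Matrix.mul_apply, Matrix.transpose_apply, mulVec,
    dotProduct, Finset.mul_sum, Finset.sum_mul]
  rw [Finset.sum_comm]
  have e1 : ∀ a, ∑ x, ∑ b, ∑ c, e x * (L i a * L j b * L x c * T a b c)
      = ∑ b, ∑ c, ∑ x, e x * (L i a * L j b * L x c * T a b c) := by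
    intro a
    rw [Finset.sum_comm]
    exact Finset.sum_congr rfl fun b _ => Finset.sum_comm
  rw [Finset.sum_congr rfl fun a _ => e1 a, Finset.sum_comm]
  refine Finset.sum_congr rfl fun b _ => Finset.sum_congr rfl fun a _ =>
    Finset.sum_congr rfl fun c _ => Finset.sum_congr rfl fun x _ => ?_
  ring

theorem c3_smul (T : Ten n) (c : ℝ) (e : Vec n) : c3 T (c • e) = c • c3 T e := by
  ext i j
  simp only [c3, Matrix.of_apply, Matrix.smul_apply, Pi.smul_apply, smul_eq_mul, Finset.mul_sum]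
  exact Finset.sum_congr rfl fun k _ => by ring

/-- change of frame of a 4-tensor -/
def fr4 (L : Mat n) (K : Ten4 n) : Ten4 n := fun i j k l => fr L (c4 K (L l)) i j k

theorem fr4_apply (L : Mat n) (K : Ten4 n) (i j k l : Fin n) :
    fr4 L K i j k l = ∑ a, ∑ b, ∑ c, ∑ d, L i a * L j b * L k c * L l d * K a b c d := by
  unfold fr4 fr c4
  refine Finset.sum_congr rfl fun a _ => Finset.sum_congr rfl fun b _ =>
    Finset.sum_congr rfl fun c _ => ?_
  rw [Finset.mul_sum]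
  exact Finset.sum_congr rfl fun d _ => by ring

theorem c4_fr4 (L : Mat n) (K : Ten4 n) (e : Vec n) :
    c4 (fr4 L K) e = fr L (c4 K (Lᵀ *ᵥ e)) := by
  funext i j k
  simp only [c4, fr4_apply, MP.fr, mulVec, dotProduct, Matrix.transpose_apply, Finset.mul_sum,
    Finset.sum_mul]
  rw [Finset.sum_comm]
  refine Finset.sum_congr rfl fun a _ => ?_
  rw [Finset.sum_comm]
  refine Finset.sum_congr rfl fun b _ => ?_
  rw [Finset.sum_comm]
  refine Finset.sum_congr rfl fun c _ => ?_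
  rw [Finset.sum_comm]
  refine Finset.sum_congr rfl fun d _ => Finset.sum_congr rfl fun x _ => ?_
  ring

theorem KSymm.c4 {K : Ten4 n} (h : KSymm K) (e : Vec n) : TSymm (c4 K e) := by
  constructor
  · intro i j k
    unfold MP.c4
    exact Finset.sum_congr rfl fun l _ => by rw [h.1]
  · intro i j k
    unfold MP.c4
    exact Finset.sum_congr rfl fun l _ => by rw [h.2.1]

theorem KSymm.fr4 {K : Ten4 n} (h : KSymm K) (L : Mat n) : KSymm (fr4 L K) := by
  refine ⟨fun i j k l => ?_, fun i j k l => ?_, fun i j k l => ?_⟩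
  · exact (TSymm_fr (h.c4 (L l)) L).1 i j k
  · exact (TSymm_fr (h.c4 (L l)) L).2 i j k
  · rw [fr4_apply, fr4_apply]
    refine Finset.sum_congr rfl fun a _ => Finset.sum_congr rfl fun b _ => ?_
    rw [Finset.sum_comm]
    refine Finset.sum_congr rfl fun c _ => Finset.sum_congr rfl fun d _ => ?_
    rw [h.2.2 a b d c]; ring

theorem vt_aq (A Q : Mat n) (T : Ten n) :
    vt (aq A Q T) = (k3 (A * Q) 1 1 + k3 1 (A * Q) 1 + k3 1 1 (A * Q)) *ᵥ vt T := by
  funext ⟨i, j, k⟩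
  simp only [Matrix.add_mulVec, Pi.add_apply]
  unfold aq vt k3 mulVec dotProduct
  simp only [Fintype.sum_prod_type, Matrix.kroneckerMap_apply, Finset.sum_add_distrib,
    Matrix.one_apply]
  congr 1
  · congr 1
    · refine Finset.sum_congr rfl fun a _ => ?_
      simp
    · simp
  · simp

theorem aq_fr (L A Q : Mat n) (T : Ten n) :
    aq (L * A * Lᵀ) Q (fr L T) = fr L (aq A (Lᵀ * Q * L) T) := by
  apply vt_inj
  rw [vt_fr, vt_aq, vt_aq, vt_fr, Matrix.mulVec_mulVec, Matrix.mulVec_mulVec, Matrix.add_mul,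
    Matrix.add_mul, Matrix.mul_add, Matrix.mul_add]
  simp only [k3_mul, Matrix.mul_one, Matrix.one_mul]
  have e : L * A * Lᵀ * Q * L = L * (A * (Lᵀ * Q * L)) := by
    simp only [Matrix.mul_assoc]
  rw [e]

/-! ### invariance of `SQ` and `FF` -/

theorem SQ_fr {G L : Mat n} (hGL : G * L = 1) (q : ℝ[X]) (A B : Mat n) :
    SQ q (G * A * Gᵀ) (Lᵀ * B * L) = G * SQ q A B * Gᵀ := by
  have hLG : L * G = 1 := mul_eq_one_comm.1 hGL
  have hGL' : Gᵀ * Lᵀ = 1 := by rw [← Matrix.transpose_mul, hLG, Matrix.transpose_one]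
  have hLG' : Lᵀ * Gᵀ = 1 := by rw [← Matrix.transpose_mul, hGL, Matrix.transpose_one]
  have e1 : Lᵀ * B * L * (G * A * Gᵀ) = Lᵀ * (B * A) * Gᵀ := by
    calc Lᵀ * B * L * (G * A * Gᵀ) = Lᵀ * B * (L * G) * A * Gᵀ := by
          simp only [Matrix.mul_assoc]
      _ = Lᵀ * (B * A) * Gᵀ := by rw [hLG, Matrix.mul_one]; simp only [Matrix.mul_assoc]
  have e2 : ∀ M : Mat n, aeval (Lᵀ * M * Gᵀ) q = Lᵀ * aeval M q * Gᵀ := by
    intro M
    induction q using Polynomial.induction_on with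
    | C a =>
      rw [aeval_C, aeval_C, Algebra.algebraMap_eq_smul_one, Matrix.mul_smul, Matrix.smul_mul,
        Matrix.mul_one, hLG']
    | add p q hp hq => rw [map_add, map_add, hp, hq, Matrix.mul_add, Matrix.add_mul]
    | monomial m a h =>
      have e0 : (C a * X ^ (m + 1) : ℝ[X]) = (C a * X ^ m) * X := by rw [pow_succ, mul_assoc]
      have e3 : ∀ N : Mat n, aeval N (C a * X ^ m * X : ℝ[X]) = aeval N (C a * X ^ m) * N := by
        intro N; rw [map_mul, aeval_X]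
      rw [e0, e3, e3, h]
      calc Lᵀ * aeval M (C a * X ^ m) * Gᵀ * (Lᵀ * M * Gᵀ)
          = Lᵀ * aeval M (C a * X ^ m) * (Gᵀ * Lᵀ) * M * Gᵀ := by
            simp only [Matrix.mul_assoc]
        _ = Lᵀ * (aeval M (C a * X ^ m) * M) * Gᵀ := by
            rw [hGL', Matrix.mul_one]; simp only [Matrix.mul_assoc]
  unfold SQ
  rw [e1, e2]
  calc G * A * Gᵀ * (Lᵀ * aeval (B * A) q * Gᵀ)
      = G * A * (Gᵀ * Lᵀ) * aeval (B * A) q * Gᵀ := by simp only [Matrix.mul_assoc]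
    _ = G * (A * aeval (B * A) q) * Gᵀ := by
        rw [hGL', Matrix.mul_one]; simp only [Matrix.mul_assoc]

theorem trace_cube_fr {G L : Mat n} (hGL : G * L = 1) (S P : Mat n) :
    (((G * S * Gᵀ) * (Lᵀ * P * L)) ^ 3).trace = ((S * P) ^ 3).trace := by
  have hLG : L * G = 1 := mul_eq_one_comm.1 hGL
  have hGL' : Gᵀ * Lᵀ = 1 := by rw [← Matrix.transpose_mul, hLG, Matrix.transpose_one]
  have e1 : (G * S * Gᵀ) * (Lᵀ * P * L) = G * (S * P) * L := by
    calc (G * S * Gᵀ) * (Lᵀ * P * L) = G * S * (Gᵀ * Lᵀ) * P * L := by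
          simp only [Matrix.mul_assoc]
      _ = G * (S * P) * L := by rw [hGL', Matrix.mul_one]; simp only [Matrix.mul_assoc]
  have e2 : ∀ m : ℕ, (G * (S * P) * L) ^ m = G * (S * P) ^ m * L := by
    intro m
    induction m with
    | zero => rw [pow_zero, pow_zero, Matrix.mul_one, hGL]
    | succ m ih =>
      rw [pow_succ, ih, pow_succ]
      calc G * (S * P) ^ m * L * (G * (S * P) * L) = G * (S * P) ^ m * (L * G) * (S * P) * L := by
            simp only [Matrix.mul_assoc]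
        _ = G * ((S * P) ^ m * (S * P)) * L := by
            rw [hLG, Matrix.mul_one]; simp only [Matrix.mul_assoc]
  rw [e1, e2, Matrix.trace_mul_comm, ← Matrix.mul_assoc, hLG, Matrix.one_mul]

theorem FF_fr {G L : Mat n} (hGL : G * L = 1) (q : ℝ[X]) (μ : ℝ) (A B : Mat n) (T : Ten n)
    (P : Mat n) :
    FF q μ (G * A * Gᵀ) (Lᵀ * B * L) (fr G T) (Lᵀ * P * L) = FF q μ A B T P := by
  have hLG : L * G = 1 := mul_eq_one_comm.1 hGL
  have hLG' : Gᵀ * Lᵀ = 1 := by rw [← Matrix.transpose_mul, hLG, Matrix.transpose_one]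
  have e1 : Gᵀ * (Lᵀ * P * L) * G = P := by
    calc Gᵀ * (Lᵀ * P * L) * G = (Gᵀ * Lᵀ) * P * (L * G) := by simp only [Matrix.mul_assoc]
      _ = P := by rw [hLG, hLG', Matrix.one_mul, Matrix.mul_one]
  unfold FF
  rw [SQ_fr hGL, trace_cube_fr hGL, NN_eq, NN_eq, N3_fr, e1]

theorem quad_fr {G L : Mat n} (hGL : G * L = 1) (q : ℝ[X]) (μ : ℝ) (A B : Mat n) (T : Ten n)
    (P : Mat n) (K : Ten4 n) (e : Vec n) (X : Mat n) :
    quad q μ (G * A * Gᵀ) (Lᵀ * B * L) (fr G T) (Lᵀ * P * L) (fr4 G K) e (Lᵀ * X * L)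
      = quad q μ A B T P K (Gᵀ *ᵥ e) X := by
  unfold quad
  have h : (fun τ : ℝ => FF q μ (G * A * Gᵀ + τ • c3 (fr G T) e) (Lᵀ * B * L)
      (fr G T + τ • c4 (fr4 G K) e) (Lᵀ * P * L + τ • (Lᵀ * X * L)))
      = fun τ : ℝ => FF q μ (A + τ • c3 T (Gᵀ *ᵥ e)) B (T + τ • c4 K (Gᵀ *ᵥ e)) (P + τ • X) := by
    funext τ
    rw [c3_fr, c4_fr4, ← fr_smul, ← fr_add]
    have e1 : G * A * Gᵀ + τ • (G * c3 T (Gᵀ *ᵥ e) * Gᵀ)
        = G * (A + τ • c3 T (Gᵀ *ᵥ e)) * Gᵀ := by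
      rw [Matrix.mul_add, Matrix.add_mul, Matrix.mul_smul, Matrix.smul_mul]
    have e2 : Lᵀ * P * L + τ • (Lᵀ * X * L) = Lᵀ * (P + τ • X) * L := by
      rw [Matrix.mul_add, Matrix.add_mul, Matrix.mul_smul, Matrix.smul_mul]
    rw [e1, e2, FF_fr hGL]
  rw [h]

theorem lin_fr {G L : Mat n} (hGL : G * L = 1) (q : ℝ[X]) (μ : ℝ) (A B : Mat n) (T : Ten n)
    (P Q : Mat n) :
    lin q μ (G * A * Gᵀ) (Lᵀ * B * L) (fr G T) (Lᵀ * P * L) (Lᵀ * Q * L)
      = lin q μ A B T P Q := by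
  unfold lin
  have hLG : L * G = 1 := mul_eq_one_comm.1 hGL
  have hLG' : Gᵀ * Lᵀ = 1 := by rw [← Matrix.transpose_mul, hLG, Matrix.transpose_one]
  have hQ : Gᵀ * (Lᵀ * Q * L) * G = Q := by
    calc Gᵀ * (Lᵀ * Q * L) * G = (Gᵀ * Lᵀ) * Q * (L * G) := by simp only [Matrix.mul_assoc]
      _ = Q := by rw [hLG, hLG', Matrix.one_mul, Matrix.mul_one]
  have h : (fun t : ℝ => FF q μ (G * A * Gᵀ - t • (G * A * Gᵀ * (Lᵀ * Q * L) * (G * A * Gᵀ)))
      (Lᵀ * B * L + t • (Lᵀ * Q * L)) (fr G T - t • aq (G * A * Gᵀ) (Lᵀ * Q * L) (fr G T))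
      (Lᵀ * P * L))
      = fun t : ℝ => FF q μ (A - t • (A * Q * A)) (B + t • Q) (T - t • aq A Q T) P := by
    funext t
    have e1 : G * A * Gᵀ - t • (G * A * Gᵀ * (Lᵀ * Q * L) * (G * A * Gᵀ))
        = G * (A - t • (A * Q * A)) * Gᵀ := by
      have : G * A * Gᵀ * (Lᵀ * Q * L) * (G * A * Gᵀ) = G * (A * Q * A) * Gᵀ := by
        calc G * A * Gᵀ * (Lᵀ * Q * L) * (G * A * Gᵀ)
            = G * A * (Gᵀ * (Lᵀ * Q * L) * G) * A * Gᵀ := by simp only [Matrix.mul_assoc]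
          _ = G * (A * Q * A) * Gᵀ := by rw [hQ]; simp only [Matrix.mul_assoc]
      rw [this, Matrix.mul_sub, Matrix.sub_mul, Matrix.mul_smul, Matrix.smul_mul]
    have e2 : Lᵀ * B * L + t • (Lᵀ * Q * L) = Lᵀ * (B + t • Q) * L := by
      rw [Matrix.mul_add, Matrix.add_mul, Matrix.mul_smul, Matrix.smul_mul]
    have e3 : fr G T - t • aq (G * A * Gᵀ) (Lᵀ * Q * L) (fr G T) = fr G (T - t • aq A Q T) := by
      rw [aq_fr, hQ, sub_eq_add_neg, sub_eq_add_neg, ← neg_smul, ← neg_smul, ← fr_smul, ← fr_add]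
    rw [e1, e2, e3, FF_fr hGL]
  rw [h]

end Vale.Agent.P254.MP
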