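import Vale.Agent.P254.MP.Defs

/-!
P254, abstract maximum principle: auxiliary facts for the assembly (helper649).
-/

namespace Vale.Agent.P254.MP

open Matrix Set Filter Topology Asymptotics Polynomial
open Vale.Agent.P254.L

variable {n : ℕ}

/-! ### homogeneity -/

theorem N3_smul (s s' : ℝ) (X Y Z : Mat n) (T : Ten n) :
    N3 (s • X) (s • Y) (s • Z) (s' • T) (s' • T) = s ^ 3 * s' ^ 2 * N3 X Y Z T T := by
  simp only [N3, Matrix.smul_apply, Pi.smul_apply, smul_eq_mul, Finset.mul_sum]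
  refine Finset.sum_congr rfl fun a _ => Finset.sum_congr rfl fun b _ =>
    Finset.sum_congr rfl fun c _ => Finset.sum_congr rfl fun a' _ =>
    Finset.sum_congr rfl fun b' _ => Finset.sum_congr rfl fun c' _ => ?_
  ring

theorem N3_smul_T (s : ℝ) (X Y Z : Mat n) (T : Ten n) :
    N3 X Y Z (s • T) (s • T) = s ^ 2 * N3 X Y Z T T := by
  have := N3_smul 1 s X Y Z T
  simpa using this

theorem NN_smul_P (s : ℝ) (P : Mat n) (T : Ten n) : NN (s • P) T T = s ^ 3 * NN P T T := by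
  have := N3_smul s 1 P P P T
  simpa [NN] using this

theorem NN_smul_T (s : ℝ) (P : Mat n) (T : Ten n) : NN P (s • T) (s • T) = s ^ 2 * NN P T T :=
  N3_smul_T s P P P T

theorem NN_zero (T : Ten n) : NN (0 : Mat n) T T = 0 := by
  have := NN_smul_P 0 (0 : Mat n) T
  simpa using this

theorem cube_smul (s : ℝ) (S P : Mat n) :
    ((S * (s • P)) ^ 3).trace = s ^ 3 * ((S * P) ^ 3).trace := by
  rw [Matrix.mul_smul, _root_.smul_pow, Matrix.trace_smul, smul_eq_mul]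

theorem cube_zero (S : Mat n) : ((S * (0 : Mat n)) ^ 3).trace = 0 := by
  simp

/-! ### positive semidefinite matrices -/

theorem psd_symm {P : Mat n} (h : P.PosSemidef) : P.IsSymm := by
  have := h.isHermitian
  rwa [Matrix.IsHermitian, Matrix.conjTranspose_eq_transpose_of_trivial] at this

theorem psd_smul {P : Mat n} (h : P.PosSemidef) {s : ℝ} (hs : 0 ≤ s) : (s • P).PosSemidef :=
  h.smul hs

theorem one_psd : (1 : Mat n).PosSemidef := Matrix.PosSemidef.one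

theorem psd_conj {P : Mat n} (h : P.PosSemidef) (C : Mat n) : (C * P * Cᵀ).PosSemidef := by
  have := h.mul_mul_conjTranspose_same C
  rwa [Matrix.conjTranspose_eq_transpose_of_trivial] at this

theorem psd_conj' {P : Mat n} (h : P.PosSemidef) (C : Mat n) : (Cᵀ * P * C).PosSemidef := by
  have := h.conjTranspose_mul_mul_same C
  rwa [Matrix.conjTranspose_eq_transpose_of_trivial] at this

/-- `A⁻¹ ≤ κ` implies `A ≥ κ⁻¹`. -/
theorem lower_of_inv {A : Mat n} (hA : A.PosDef) {κ : ℝ} (hκ : 0 < κ)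
    (h : (κ • (1 : Mat n) - A⁻¹).PosSemidef) : (A - κ⁻¹ • (1 : Mat n)).PosSemidef := by
  have hdet : IsUnit A.det := (Matrix.isUnit_iff_isUnit_det A).1 hA.isUnit
  have hsym : Aᵀ = A := psd_symm hA.posSemidef
  have h1 : (((κ • A - 1)ᵀ) * A⁻¹ * (κ • A - 1)).PosSemidef :=
    psd_conj' hA.inv.posSemidef (κ • A - 1)
  have e : ((κ • A - 1)ᵀ) * A⁻¹ * (κ • A - 1) = κ ^ 2 • A - (2 * κ) • (1 : Mat n) + A⁻¹ := by
    rw [Matrix.transpose_sub, Matrix.transpose_smul, hsym, Matrix.transpose_one]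
    rw [sub_mul, sub_mul, mul_sub, Matrix.smul_mul, Matrix.mul_nonsing_inv _ hdet, mul_sub]
    simp only [Matrix.smul_mul, Matrix.mul_smul, one_mul, mul_one]
    rw [Matrix.nonsing_inv_mul _ hdet, smul_smul]
    rw [show (2 * κ) • (1 : Mat n) = κ • (1 : Mat n) + κ • (1 : Mat n) by rw [← add_smul]; ring_nf,
      pow_two]
    abel
  rw [e] at h1
  have h2 := (h1.add h).smul (le_of_lt (inv_pos.2 (pow_pos hκ 2)))
  convert h2 using 1
  rw [show κ ^ 2 • A - (2 * κ) • (1 : Mat n) + A⁻¹ + (κ • (1 : Mat n) - A⁻¹) =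
    κ ^ 2 • A - κ • (1 : Mat n) by
      rw [show (2 * κ) • (1 : Mat n) = κ • (1 : Mat n) + κ • (1 : Mat n) by
        rw [← add_smul]; ring_nf]
      abel]
  rw [smul_sub, smul_smul, smul_smul, inv_mul_cancel₀ (pow_ne_zero 2 hκ.ne'), one_smul]
  congr 2
  field_simp

open scoped MatrixOrder in
/-- factorisation of positive semidefinite matrices. -/
theorem psd_factor {P : Mat n} (hP : P.PosSemidef) : ∃ C : Mat n, P = Cᵀ * C := by
  obtain ⟨C, hC⟩ := CStarAlgebra.nonneg_iff_eq_star_mul_self.mp hP.nonneg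
  refine ⟨C, ?_⟩
  rw [hC, Matrix.star_eq_conjTranspose, Matrix.conjTranspose_eq_transpose_of_trivial]

/-- a trace inequality. -/
theorem trace_mul_nonneg {X Y : Mat n} (hX : X.PosSemidef) (hY : Y.PosSemidef) :
    0 ≤ (X * Y).trace := by
  obtain ⟨C, hC⟩ := psd_factor hY
  have h1 := (psd_conj hX C).trace_nonneg
  rw [hC, ← mul_assoc, Matrix.trace_mul_comm, ← mul_assoc]
  exact h1

theorem trace_lower {A P : Mat n} {a : ℝ} (hA : (A - a • (1 : Mat n)).PosSemidef)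
    (hP : P.PosSemidef) : a * P.trace ≤ (A * P).trace := by
  have h := trace_mul_nonneg hA hP
  rw [sub_mul, Matrix.smul_mul, one_mul, Matrix.trace_sub, Matrix.trace_smul, smul_eq_mul] at h
  linarith

theorem trace_pos_of_psd {P : Mat n} (hP : P.PosSemidef) (h0 : P ≠ 0) : 0 < P.trace :=
  lt_of_le_of_ne hP.trace_nonneg fun h => h0 (hP.trace_eq_zero_iff.1 h.symm)

/-! ### Taylor tests -/

theorem taylor_test {F G : ℝ → ℝ} {f₁ f₂ : ℝ}
    (hF : (fun τ => F τ - (τ * f₁ + τ ^ 2 * f₂)) =o[𝓝 0] fun τ => τ ^ 2)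
    (hG : G =o[𝓝 0] fun τ => τ ^ 2) (hle : ∀ᶠ τ in 𝓝 0, F τ ≤ G τ) : f₁ = 0 ∧ f₂ ≤ 0 := by
  have key : ∀ c : ℝ, 0 < c → ∀ᶠ τ in 𝓝 (0 : ℝ), τ * f₁ + τ ^ 2 * f₂ ≤ c * τ ^ 2 := by
    intro c hc
    filter_upwards [hF.def (half_pos hc), hG.def (half_pos hc), hle] with τ h1 h2 h3
    rw [Real.norm_eq_abs, Real.norm_eq_abs, abs_of_nonneg (sq_nonneg τ)] at h1 h2
    have h4 := (abs_le.1 h1).1
    have h5 := (abs_le.1 h2).2
    linarith
  have h1 : f₁ ≤ 0 := by
    have e : ∀ᶠ τ in 𝓝[>] (0 : ℝ), f₁ ≤ (1 - f₂) * τ := by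
      filter_upwards [nhdsWithin_le_nhds (key 1 one_pos), self_mem_nhdsWithin] with τ h hτ
      have hτ' : (0 : ℝ) < τ := hτ
      have : τ * f₁ ≤ τ * ((1 - f₂) * τ) := by nlinarith
      exact le_of_mul_le_mul_left this hτ'
    have t : Tendsto (fun τ : ℝ => (1 - f₂) * τ) (𝓝[>] 0) (𝓝 0) := by
      have : Tendsto (fun τ : ℝ => (1 - f₂) * τ) (𝓝 0) (𝓝 ((1 - f₂) * 0)) :=
        tendsto_const_nhds.mul tendsto_id
      rw [mul_zero] at this
      exact this.mono_left nhdsWithin_le_nhds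
    exact ge_of_tendsto t e
  have h2 : 0 ≤ f₁ := by
    have e : ∀ᶠ τ in 𝓝[<] (0 : ℝ), (1 - f₂) * τ ≤ f₁ := by
      filter_upwards [nhdsWithin_le_nhds (key 1 one_pos), self_mem_nhdsWithin] with τ h hτ
      have hτ' : τ < (0 : ℝ) := hτ
      have : (-τ) * ((1 - f₂) * τ) ≤ (-τ) * f₁ := by nlinarith
      exact le_of_mul_le_mul_left this (by linarith)
    have t : Tendsto (fun τ : ℝ => (1 - f₂) * τ) (𝓝[<] 0) (𝓝 0) := by
      have : Tendsto (fun τ : ℝ => (1 - f₂) * τ) (𝓝 0) (𝓝 ((1 - f₂) * 0)) :=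
        tendsto_const_nhds.mul tendsto_id
      rw [mul_zero] at this
      exact this.mono_left nhdsWithin_le_nhds
    exact le_of_tendsto t e
  have h0 : f₁ = 0 := le_antisymm h1 h2
  refine ⟨h0, le_of_forall_pos_le_add fun c hc => ?_⟩
  obtain ⟨τ, hτ, hτ0⟩ := (((key c hc).filter_mono (nhdsWithin_le_nhds (s := {(0 : ℝ)}ᶜ))).and
    self_mem_nhdsWithin).exists
  have hτ0' : τ ≠ 0 := hτ0
  have h3 : 0 < τ ^ 2 := by positivity
  rw [h0, mul_zero, zero_add] at hτ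
  rw [zero_add]
  have : τ ^ 2 * f₂ ≤ τ ^ 2 * c := by linarith
  exact le_of_mul_le_mul_left this h3

theorem time_test {F G W : ℝ → ℝ} {s w : ℝ} (hF0 : F 0 = 0) (hF : HasDerivWithinAt F s (Ici 0) 0)
    (hG : G =o[𝓝[≥] 0] fun τ => τ) (hW0 : W 0 = 0) (hW : HasDerivWithinAt W w (Ici 0) 0)
    (hle : ∀ᶠ τ in 𝓝[≥] 0, F τ ≤ W τ + G τ) : s ≤ w := by
  have h1 : (fun τ => F τ - τ * s) =o[𝓝[≥] 0] fun τ => τ := by
    have := hF.isLittleO
    simpa [hF0] using this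
  have h2 : (fun τ => W τ - τ * w) =o[𝓝[≥] 0] fun τ => τ := by
    have := hW.isLittleO
    simpa [hW0] using this
  refine le_of_forall_pos_le_add fun c hc => ?_
  have h3 : ∀ᶠ τ in 𝓝[≥] (0 : ℝ), τ * s ≤ τ * (w + c) := by
    have hc3 : 0 < c / 3 := by positivity
    filter_upwards [h1.def hc3, h2.def hc3, hG.def hc3, hle, self_mem_nhdsWithin] with
      τ a1 a2 a3 a4 hτ
    have hτ' : (0 : ℝ) ≤ τ := hτ
    rw [Real.norm_eq_abs, Real.norm_eq_abs, abs_of_nonneg hτ'] at a1 a2 a3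
    have b1 := (abs_le.1 a1).1
    have b2 := (abs_le.1 a2).2
    have b3 := (abs_le.1 a3).2
    nlinarith
  have h4 : ∀ᶠ τ in 𝓝[>] (0 : ℝ), τ * s ≤ τ * (w + c) :=
    h3.filter_mono (nhdsWithin_mono _ Ioi_subset_Ici_self)
  obtain ⟨τ, hτ, hτ0⟩ := (h4.and self_mem_nhdsWithin).exists
  exact le_of_mul_le_mul_left hτ hτ0

/-! ### entrywise estimates -/

section entry

variable {l : Filter ℝ}

/-- bounded matrix valued function -/
def MO (l : Filter ℝ) (X : ℝ → Mat n) : Prop := ∀ i j, (fun t => X t i j) =O[l] fun _ => (1 : ℝ)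

/-- small matrix valued function -/
def Mo (l : Filter ℝ) (φ : ℝ → ℝ) (X : ℝ → Mat n) : Prop := ∀ i j, (fun t => X t i j) =o[l] φ

theorem MO.mul {X Y : ℝ → Mat n} (hX : MO l X) (hY : MO l Y) : MO l fun t => X t * Y t := by
  intro i j
  simp only [Matrix.mul_apply]
  refine IsBigO.fun_sum fun k _ => ?_
  simpa using (hX i k).mul (hY k j)

theorem Mo.mul {φ : ℝ → ℝ} {X Y : ℝ → Mat n} (hX : Mo l φ X) (hY : MO l Y) :
    Mo l φ fun t => X t * Y t := by
  intro i j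
  simp only [Matrix.mul_apply]
  refine IsLittleO.fun_sum fun k _ => ?_
  simpa using (hX i k).mul_isBigO (hY k j)

theorem MO.mul_small {φ : ℝ → ℝ} {X Y : ℝ → Mat n} (hX : MO l X) (hY : Mo l φ Y) :
    Mo l φ fun t => X t * Y t := by
  intro i j
  simp only [Matrix.mul_apply]
  refine IsLittleO.fun_sum fun k _ => ?_
  simpa using (hX i k).mul_isLittleO (hY k j)

theorem Mo.add {φ : ℝ → ℝ} {X Y : ℝ → Mat n} (hX : Mo l φ X) (hY : Mo l φ Y) :
    Mo l φ fun t => X t + Y t := fun i j => (hX i j).add (hY i j)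

theorem Mo.trace {φ : ℝ → ℝ} {X : ℝ → Mat n} (hX : Mo l φ X) :
    (fun t => (X t).trace) =o[l] φ := IsLittleO.fun_sum fun i _ => hX i i

theorem MO.of_sub {φ : ℝ → ℝ} {X Y : ℝ → Mat n} (h : Mo l φ fun t => X t - Y t)
    (hφ : φ =O[l] fun _ => (1 : ℝ)) (hY : MO l Y) : MO l X := by
  intro i j
  have := ((h i j).isBigO.trans hφ).add (hY i j)
  refine this.congr_left fun t => ?_
  simp

theorem MO.of_tendsto {X : ℝ → Mat n} {X₀ : Mat n} (h : Tendsto X l (𝓝 X₀)) : MO l X := by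
  intro i j
  have : Tendsto (fun t => X t i j) l (𝓝 (X₀ i j)) :=
    ((continuous_apply_apply i j).tendsto X₀).comp h
  exact this.isBigO_one ℝ

theorem cube_diff {φ : ℝ → ℝ} {S₁ S₂ P : ℝ → Mat n} (h : Mo l φ fun t => S₁ t - S₂ t)
    (hφ : φ =O[l] fun _ => (1 : ℝ)) (hS : MO l S₂) (hP : MO l P) :
    (fun t => ((S₁ t * P t) ^ 3).trace - ((S₂ t * P t) ^ 3).trace) =o[l] φ := by
  have hS₁ : MO l S₁ := MO.of_sub h hφ hS
  have hX := hS₁.mul hP
  have hY := hS.mul hP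
  have hd : Mo l φ fun t => (S₁ t - S₂ t) * P t := h.mul hP
  have h1 := (hd.mul (hX.mul hX)).add ((hY.mul_small (hd.mul hX)).add
    (hY.mul_small (hY.mul_small hd)))
  refine h1.trace.congr_left fun t => ?_
  rw [← Matrix.trace_sub]
  congr 1
  simp only [sub_mul, mul_sub, pow_succ, pow_zero, one_mul, mul_assoc]
  abel

end entry

end Vale.Agent.P254.MP
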