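import Vale.Agent.P254.MP.Core

/-!
P254, abstract maximum principle: existence of the maximum and conclusion (helper649).
-/

namespace Vale.Agent.P254.MP

open Matrix Set Filter Topology Asymptotics Polynomial
open Vale.Agent.P254.L

variable {n : ℕ}

theorem psd_smul_one {s : ℝ} (hs : 0 ≤ s) : (s • (1 : Mat n)).PosSemidef := psd_smul one_psd hs

/-- order bounds in the region. -/
theorem reg_facts {B₀ B : Mat n} {m M' r U u ε b : ℝ} (hm : 0 ≤ m) (hM'0 : 0 ≤ M') (hr : 0 ≤ r)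
    (hε0 : 0 < ε) (hε : (B₀ - ε • (1 : Mat n)).PosSemidef)
    (hb : (b • (1 : Mat n) - (B₀ + (M' * (U ^ r - 1)) • (1 : Mat n))).PosSemidef)
    (hu1 : 1 ≤ u) (huU : u ≤ U) (h : Reg B₀ m M' r u B) :
    (B - ε • (1 : Mat n)).PosSemidef ∧ B.PosDef ∧ (b • (1 : Mat n) - B).PosSemidef := by
  have h1 : (B - ε • (1 : Mat n)).PosSemidef := by
    have e : B - ε • (1 : Mat n) = (B - (B₀ + (m * (u - 1)) • (1 : Mat n))) +
        (m * (u - 1)) • (1 : Mat n) + (B₀ - ε • (1 : Mat n)) := by abel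
    rw [e]
    exact (h.lo.add (psd_smul_one (mul_nonneg hm (by linarith)))).add hε
  refine ⟨h1, ?_, ?_⟩
  · have e : B = (B - ε • (1 : Mat n)) + ε • (1 : Mat n) := by abel
    rw [e]
    exact Matrix.PosDef.posSemidef_add h1 (Matrix.PosDef.one.smul hε0)
  · have h2 : u ^ r ≤ U ^ r := Real.rpow_le_rpow (by linarith) huU hr
    have e : b • (1 : Mat n) - B = (b • (1 : Mat n) - (B₀ + (M' * (U ^ r - 1)) • (1 : Mat n))) +
        (M' * (U ^ r - u ^ r)) • (1 : Mat n) + (B₀ + (M' * (u ^ r - 1)) • (1 : Mat n) - B) := by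
      have : (M' * (U ^ r - u ^ r)) • (1 : Mat n) =
          (M' * (U ^ r - 1)) • (1 : Mat n) - (M' * (u ^ r - 1)) • (1 : Mat n) := by
        rw [← sub_smul]; congr 1; ring
      rw [this]; abel
    rw [e]
    exact (hb.add (psd_smul_one (mul_nonneg hM'0 (by linarith)))).add h.hi

theorem exists_pmin {p : ℝ → ℝ} (hp : ContinuousOn p (Ioo 0 1))
    (hpos : ∀ x ∈ Ioo (0 : ℝ) 1, 0 < p x) {β₀ β₁ : ℝ} (h0 : 0 < β₀) (h1 : β₁ < 1) :
    ∃ p₀ : ℝ, 0 < p₀ ∧ ∀ x ∈ Icc β₀ β₁, p₀ ≤ p x := by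
  have hsub : Icc β₀ β₁ ⊆ Ioo 0 1 := fun x hx => ⟨h0.trans_le hx.1, hx.2.trans_lt h1⟩
  rcases (Icc β₀ β₁).eq_empty_or_nonempty with he | hne
  · exact ⟨1, one_pos, fun x hx => by rw [he] at hx; exact absurd hx (notMem_empty x)⟩
  · obtain ⟨x, hx, hmin⟩ := isCompact_Icc.exists_isMinOn hne (hp.mono hsub)
    exact ⟨p x, hpos x (hsub hx), fun y hy => hmin hy⟩

section cont

variable (D : TiltData n) {K : Set (ℝ × Mat n × Vec n × Mat n)}
  (hK : ∀ x ∈ K, x.2.1.PosSemidef)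

include hK

theorem cont_A (i j : Fin n) :
    ContinuousOn (fun x : ℝ × Mat n × Vec n × Mat n => D.A x.2.1 x.2.2.1 i j) K := by
  have h1 : ContinuousOn (fun x : ℝ × Mat n × Vec n × Mat n => (x.2.1, x.2.2.1)) K := by
    fun_prop
  exact (D.cA i j).comp h1 fun x hx => ⟨hK x hx, mem_univ _⟩

theorem cont_T (i j k : Fin n) :
    ContinuousOn (fun x : ℝ × Mat n × Vec n × Mat n => D.T x.2.1 x.2.2.1 i j k) K := by
  have h1 : ContinuousOn (fun x : ℝ × Mat n × Vec n × Mat n => (x.2.1, x.2.2.1)) K := by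
    fun_prop
  exact (D.cT i j k).comp h1 fun x hx => ⟨hK x hx, mem_univ _⟩

theorem cont_NN : ContinuousOn (fun x : ℝ × Mat n × Vec n × Mat n =>
    NN x.2.2.2 (D.T x.2.1 x.2.2.1) (D.T x.2.1 x.2.2.1)) K := by
  have hP : ∀ a b : Fin n, ContinuousOn (fun x : ℝ × Mat n × Vec n × Mat n => x.2.2.2 a b) K := by
    intro a b
    have : Continuous fun x : ℝ × Mat n × Vec n × Mat n => x.2.2.2 a b :=
      (continuous_apply_apply a b).comp (continuous_snd.comp (continuous_snd.comp continuous_snd))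
    exact this.continuousOn
  have hT := cont_T D hK
  simp only [NN, N3]
  refine continuousOn_finsetSum _ fun a _ => continuousOn_finsetSum _ fun b _ =>
    continuousOn_finsetSum _ fun c _ => continuousOn_finsetSum _ fun a' _ =>
    continuousOn_finsetSum _ fun b' _ => continuousOn_finsetSum _ fun c' _ => ?_
  exact ((((hP a a').mul (hP b b')).mul (hP c c')).mul (hT a b c)).mul (hT a' b' c')

theorem cont_A' :
    ContinuousOn (fun x : ℝ × Mat n × Vec n × Mat n => D.A x.2.1 x.2.2.1) K :=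
  continuousOn_pi.2 fun i => continuousOn_pi.2 fun j => cont_A D hK i j

theorem cont_pair :
    ContinuousOn (fun x : ℝ × Mat n × Vec n × Mat n => (D.A x.2.1 x.2.2.1, x.2.1)) K :=
  (cont_A' D hK).prodMk (continuousOn_snd.fst)

theorem maps_pair (hK' : ∀ x ∈ K, x.2.1.PosDef) :
    MapsTo (fun x : ℝ × Mat n × Vec n × Mat n => (D.A x.2.1 x.2.2.1, x.2.1)) K
      {x | x.1.PosDef ∧ x.2.PosDef ∧ (x.1⁻¹ - x.2).PosDef} := by
  intro x hx
  have h1 := D.up _ (hK x hx) x.2.2.1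
  have h3 : (D.A x.2.1 x.2.2.1)⁻¹ - x.2.1 =
      ((D.A x.2.1 x.2.2.1)⁻¹ - (x.2.1 + D.m • (1 : Mat n))) + D.m • (1 : Mat n) := by abel
  have h4 : ((D.A x.2.1 x.2.2.1)⁻¹ - x.2.1).PosDef := by
    rw [h3]
    exact Matrix.PosDef.posSemidef_add h1 (Matrix.PosDef.one.smul D.hm)
  exact ⟨D.posA _ (hK x hx) _, hK' x hx, h4⟩

attribute [local irreducible] Sf in
theorem cont_Sf {p : ℝ → ℝ} (hp : ContinuousOn p (Ioo 0 1)) (hK' : ∀ x ∈ K, x.2.1.PosDef)
    (i j : Fin n) : ContinuousOn (fun x : ℝ × Mat n × Vec n × Mat n =>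
      Sf p (D.A x.2.1 x.2.2.1) x.2.1 i j) K :=
  (Sf_cont hp i j).comp (cont_pair D hK) (maps_pair D hK hK')

theorem cont_D {p : ℝ → ℝ} (hp : ContinuousOn p (Ioo 0 1)) (hK' : ∀ x ∈ K, x.2.1.PosDef) :
    ContinuousOn (fun x : ℝ × Mat n × Vec n × Mat n =>
      ((Sf p (D.A x.2.1 x.2.2.1) x.2.1 * x.2.2.2) ^ 3).trace) K := by
  have hSc : ContinuousOn (fun x : ℝ × Mat n × Vec n × Mat n =>
      Sf p (D.A x.2.1 x.2.2.1) x.2.1) K :=
    continuousOn_pi.2 fun i => continuousOn_pi.2 fun j => cont_Sf D hK hp hK' i j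
  have hPc : ContinuousOn (fun x : ℝ × Mat n × Vec n × Mat n => x.2.2.2) K :=
    continuousOn_snd.snd.snd
  have hc : Continuous fun y : Mat n × Mat n => ((y.1 * y.2) ^ 3).trace := by
    refine Continuous.matrix_trace ?_
    fun_prop
  have h1 := hc.comp_continuousOn (hSc.prodMk hPc)
  exact h1

end cont

theorem mp_main (D : TiltData n) {p : ℝ → ℝ} (hp : ContDiffOn ℝ 2 p (Ioo 0 1))
    (hpos : ∀ x ∈ Ioo (0 : ℝ) 1, 0 < p x) {η C₀ : ℝ} (hη : 0 < η) (hηC : η ≤ C₀)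
    (hALG : ALG n p η C₀) {B₀ : Mat n} (hB₀ : B₀.PosDef) {M' : ℝ} (hM'0 : 0 ≤ M')
    (hM' : (M' • (1 : Mat n) - (B₀ + D.M • (1 : Mat n))).PosSemidef) {U : ℝ} (hU : 1 < U)
    (hfar : ∀ B : Mat n, Reg B₀ D.m M' (C₀ / η) U B → ∀ c, PP p (D.A B c) B (D.T B c))
    (c : Vec n) : PP p (D.A B₀ c) B₀ (D.T B₀ c) := by
  by_contra hcon
  unfold PP at hcon
  push Not at hcon
  obtain ⟨P₁, hP₁, hlt₁⟩ := hcon
  have hP₁0 : P₁ ≠ 0 := by
    rintro rfl
    rw [NN_zero, cube_zero] at hlt₁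
    exact lt_irrefl _ hlt₁
  have hne : Nonempty (Fin n) := by
    by_contra h
    rw [not_nonempty_iff] at h
    exact hP₁0 (Subsingleton.elim _ _)
  have hn : (0 : ℝ) < n := by
    obtain ⟨i⟩ := hne
    exact_mod_cast i.pos
  set r : ℝ := C₀ / η with hr
  have hr0 : 0 ≤ r := div_nonneg (hη.le.trans hηC) hη.le
  -- constants
  obtain ⟨ε, hε0, hε⟩ := exists_lower hB₀
  obtain ⟨b, hb0, hb⟩ := exists_upper (X := B₀ + (M' * (U ^ r - 1)) • (1 : Mat n)) (by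
    have h1 := psd_symm hB₀.posSemidef
    rw [Matrix.IsSymm, Matrix.transpose_add, Matrix.transpose_smul, Matrix.transpose_one, h1])
  have hMpos : 0 < D.M := D.hm.trans_le D.hM
  set κ : ℝ := b + D.M with hκ
  have hκ0 : 0 < κ := by positivity
  set a : ℝ := κ⁻¹ with ha
  have ha0 : 0 < a := inv_pos.2 hκ0
  have hfacts : ∀ (u : ℝ) (B : Mat n), 1 ≤ u → u ≤ U → Reg B₀ D.m M' r u B →
      (B - ε • (1 : Mat n)).PosSemidef ∧ B.PosDef ∧ (b • (1 : Mat n) - B).PosSemidef :=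
    fun u B h1 h2 h3 => reg_facts D.hm.le hM'0 hr0 hε0 hε hb h1 h2 h3
  have hAlow : ∀ B : Mat n, B.PosSemidef → (b • (1 : Mat n) - B).PosSemidef → ∀ c,
      (D.A B c - a • (1 : Mat n)).PosSemidef := by
    intro B hB hbB c
    refine lower_of_inv (D.posA B hB c) hκ0 ?_
    have e : κ • (1 : Mat n) - (D.A B c)⁻¹ =
        (b • (1 : Mat n) - B) + (B + D.M • (1 : Mat n) - (D.A B c)⁻¹) := by
      rw [hκ, add_smul]; abel
    rw [e]
    exact hbB.add (D.lo B hB c)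
  set β₀ : ℝ := ε * a with hβ₀
  set β₁ : ℝ := 1 - D.m * a with hβ₁
  have hβ₀0 : 0 < β₀ := by positivity
  have hβ₁1 : β₁ < 1 := by
    have : 0 < D.m * a := mul_pos D.hm ha0
    linarith
  have hspec : ∀ B : Mat n, (B - ε • (1 : Mat n)).PosSemidef → B.PosDef →
      (b • (1 : Mat n) - B).PosSemidef → ∀ (c : Vec n) (g : Mat n) (d : Vec n),
      Dg (D.A B c) B g d → ∀ i, d i ∈ Icc β₀ β₁ := by
    intro B h1 h2 h3 c g d hd i
    exact ⟨dg_ge hd hε0.le ha0 h1 (hAlow B h2.posSemidef h3 c) i,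
      dg_le hd D.hm.le ha0 (D.up B h2.posSemidef c) (hAlow B h2.posSemidef h3 c) i⟩
  obtain ⟨p₀, hp₀, hpmin⟩ := exists_pmin hp.continuousOn hpos hβ₀0 hβ₁1
  set γ : ℝ := p₀ ^ 3 / (n : ℝ) ^ 2 with hγ
  have hγ0 : 0 < γ := by positivity
  have hDlow : ∀ B : Mat n, (B - ε • (1 : Mat n)).PosSemidef → B.PosDef →
      (b • (1 : Mat n) - B).PosSemidef → ∀ (c : Vec n) (P : Mat n), P.PosSemidef →
      γ * (D.A B c * P).trace ^ 3 ≤ ((Sf p (D.A B c) B * P) ^ 3).trace := by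
    intro B h1 h2 h3 c P hP
    obtain ⟨g, d, hd⟩ := exists_dg (D.posA B h2.posSemidef c) (psd_symm h2.posSemidef)
    exact cube_lower hd hp₀ (fun i => hpmin _ (hspec B h1 h2 h3 c g d hd i)) hP
  obtain ⟨ρ, hρ⟩ := D.vT b γ hγ0
  have hfarc : ∀ B : Mat n, (B - ε • (1 : Mat n)).PosSemidef → B.PosDef →
      (b • (1 : Mat n) - B).PosSemidef → ∀ c : Vec n, ρ ≤ ‖c‖ →
      PP p (D.A B c) B (D.T B c) := fun B h1 h2 h3 c hc P hP =>
    (hρ B h2.posSemidef h3 c hc P hP).trans (hDlow B h1 h2 h3 c P hP)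
  set R : ℝ := max ρ ‖c‖ + 1 with hR
  set K : Set (ℝ × Mat n × Vec n × Mat n) := {x | x.1 ∈ Icc 1 U ∧ Reg B₀ D.m M' r x.1 x.2.1 ∧
      ‖x.2.2.1‖ ≤ R ∧ x.2.2.2.PosSemidef ∧ x.2.2.2.trace = 1} with hKdef
  have hKc : IsCompact K := compact_region B₀ D.m M' r U R
  have hKf : ∀ x ∈ K, (x.2.1 - ε • (1 : Mat n)).PosSemidef ∧ x.2.1.PosDef ∧
      (b • (1 : Mat n) - x.2.1).PosSemidef := fun x hx => hfacts x.1 x.2.1 hx.1.1 hx.1.2 hx.2.1
  have hK1 : ∀ x ∈ K, x.2.1.PosSemidef := fun x hx => (hKf x hx).2.1.posSemidef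
  have hK2 : ∀ x ∈ K, x.2.1.PosDef := fun x hx => (hKf x hx).2.1
  set Nf : ℝ × Mat n × Vec n × Mat n → ℝ := fun x =>
    NN x.2.2.2 (D.T x.2.1 x.2.2.1) (D.T x.2.1 x.2.2.1) with hNf
  set Df : ℝ × Mat n × Vec n × Mat n → ℝ := fun x =>
    ((Sf p (D.A x.2.1 x.2.2.1) x.2.1 * x.2.2.2) ^ 3).trace with hDf
  have hNc : ContinuousOn Nf K := cont_NN D hK1
  have hDc : ContinuousOn Df K := cont_D D hK1 hp.continuousOn hK2
  set δ : ℝ := γ * a ^ 3 with hδ
  have hδ0 : 0 < δ := by positivity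
  have hDδ : ∀ x ∈ K, δ ≤ Df x := by
    intro x hx
    obtain ⟨h1, h2, h3⟩ := hKf x hx
    refine le_trans ?_ (hDlow x.2.1 h1 h2 h3 x.2.2.1 x.2.2.2 hx.2.2.2.1)
    have h4 := trace_lower (hAlow x.2.1 h2.posSemidef h3 x.2.2.1) hx.2.2.2.1
    rw [hx.2.2.2.2, mul_one] at h4
    exact mul_le_mul_of_nonneg_left (pow_le_pow_left₀ ha0.le h4 3) hγ0.le
  have hDpos : ∀ x ∈ K, 0 < Df x := fun x hx => hδ0.trans_le (hDδ x hx)
  have hqc : ContinuousOn (fun x => Nf x / Df x) K := hNc.div hDc fun x hx => (hDpos x hx).ne'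
  obtain ⟨Λ, hΛ⟩ := hKc.exists_bound_of_continuousOn hqc
  obtain ⟨KA, hKA⟩ := hKc.exists_bound_of_continuousOn
    (f := fun x : ℝ × Mat n × Vec n × Mat n => ∑ i, ∑ j, |D.A x.2.1 x.2.2.1 i j|)
    (continuousOn_finsetSum _ fun i _ => continuousOn_finsetSum _ fun j _ =>
      (cont_A D hK1 i j).abs)
  obtain ⟨KT, hKT⟩ := hKc.exists_bound_of_continuousOn
    (f := fun x : ℝ × Mat n × Vec n × Mat n => ∑ i, ∑ j, ∑ k, |D.T x.2.1 x.2.2.1 i j k|)
    (continuousOn_finsetSum _ fun i _ => continuousOn_finsetSum _ fun j _ =>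
      continuousOn_finsetSum _ fun k _ => (cont_T D hK1 i j k).abs)
  obtain ⟨C', hC'0, hC'⟩ := lin_bound (n := n) hp a KA KT C₀ β₀ β₁ ha0 hβ₀0 hβ₁1
  obtain ⟨N, hN⟩ := exists_nat_gt (Λ * C' / (η * δ))
  have hNbig : Λ * C' < N * η * δ := by
    rw [div_lt_iff₀ (by positivity)] at hN
    linarith
  -- the maximum
  have hGc : ContinuousOn (fun x => (Nf x / Df x - 1) * x.1 ^ N) K := by
    refine (hqc.sub continuousOn_const).mul ?_
    fun_prop
  have hRpos : ‖c‖ ≤ R := by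
    rw [hR]; exact (le_max_right _ _).trans (by linarith)
  have htr₁ : 0 < P₁.trace := trace_pos_of_psd hP₁ hP₁0
  have hReg₁ : Reg B₀ D.m M' r 1 B₀ := by
    refine ⟨?_, ?_⟩
    · rw [sub_self, mul_zero, zero_smul, add_zero, sub_self]; exact Matrix.PosSemidef.zero
    · rw [Real.one_rpow, sub_self, mul_zero, zero_smul, add_zero, sub_self]
      exact Matrix.PosSemidef.zero
  set x₁ : ℝ × Mat n × Vec n × Mat n := (1, B₀, c, P₁.trace⁻¹ • P₁) with hx₁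
  have hx₁K : x₁ ∈ K := by
    refine ⟨⟨le_rfl, hU.le⟩, hReg₁, hRpos, psd_smul hP₁ (inv_nonneg.2 htr₁.le), ?_⟩
    change (P₁.trace⁻¹ • P₁).trace = 1
    rw [Matrix.trace_smul, smul_eq_mul, inv_mul_cancel₀ htr₁.ne']
  obtain ⟨x₀, hx₀K, hx₀max⟩ := hKc.exists_isMaxOn ⟨x₁, hx₁K⟩ hGc
  have hG₁ : 0 < (Nf x₁ / Df x₁ - 1) * x₁.1 ^ N := by
    have h1 : Df x₁ < Nf x₁ := by
      change ((Sf p (D.A B₀ c) B₀ * (P₁.trace⁻¹ • P₁)) ^ 3).trace <
        NN (P₁.trace⁻¹ • P₁) (D.T B₀ c) (D.T B₀ c)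
      rw [NN_smul_P, cube_smul]
      exact mul_lt_mul_of_pos_left hlt₁ (by positivity)
    have h2 : 1 < Nf x₁ / Df x₁ := (one_lt_div (hDpos x₁ hx₁K)).2 h1
    change 0 < (Nf x₁ / Df x₁ - 1) * (1 : ℝ) ^ N
    rw [one_pow, mul_one]
    linarith
  obtain ⟨u, B, c₀, P⟩ := x₀
  obtain ⟨⟨hu1, huU⟩, hReg, hcR, hP, hPtr⟩ := hx₀K
  have hu1 : 1 ≤ u := hu1
  have huU : u ≤ U := huU
  have hReg : Reg B₀ D.m M' r u B := hReg
  have hcR : ‖c₀‖ ≤ R := hcR
  have hP : P.PosSemidef := hP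
  have hPtr : P.trace = 1 := hPtr
  have hx₀K : ((u, B, c₀, P) : ℝ × Mat n × Vec n × Mat n) ∈ K :=
    ⟨⟨hu1, huU⟩, hReg, hcR, hP, hPtr⟩
  obtain ⟨hBε, hBpos, hBb⟩ := hKf _ hx₀K
  have hu0 : 0 < u := by linarith
  have hD₀ : 0 < Df (u, B, c₀, P) := hDpos _ hx₀K
  set lam : ℝ := Nf (u, B, c₀, P) / Df (u, B, c₀, P) - 1 with hlam
  have hlam0 : 0 < lam := by
    have h1 : (Nf x₁ / Df x₁ - 1) * x₁.1 ^ N ≤ lam * u ^ N := hx₀max hx₁K
    have h2 : 0 < lam * u ^ N := hG₁.trans_le h1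
    exact (mul_pos_iff_of_pos_right (pow_pos hu0 N)).1 h2
  have heq : NN P (D.T B c₀) (D.T B c₀) = (1 + lam) * ((Sf p (D.A B c₀) B * P) ^ 3).trace := by
    have : (1 + lam) = Nf (u, B, c₀, P) / Df (u, B, c₀, P) := by rw [hlam]; ring
    rw [this]
    exact (div_mul_cancel₀ _ hD₀.ne').symm
  have hnotPP : ¬ PP p (D.A B c₀) B (D.T B c₀) := by
    intro h
    have h1 := h P hP
    rw [heq] at h1
    have h2 : 0 < ((Sf p (D.A B c₀) B * P) ^ 3).trace := hD₀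
    nlinarith
  have hcR' : ‖c₀‖ < R := by
    by_contra h
    refine hnotPP (hfarc B hBε hBpos hBb c₀ ?_)
    have h1 : R ≤ ‖c₀‖ := not_lt.1 h
    have h2 : ρ ≤ max ρ ‖c‖ := le_max_left _ _
    linarith
  have huU' : u < U := by
    refine lt_of_le_of_ne huU fun h => ?_
    subst h
    exact hnotPP (hfar B hReg c₀)
  have hP0 : P ≠ 0 := by
    rintro rfl
    rw [Matrix.trace_zero] at hPtr
    exact zero_ne_one hPtr
  have LI : ∀ (u' : ℝ) (B' : Mat n) (c' : Vec n) (P' : Mat n), 1 ≤ u' → u' ≤ U →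
      Reg B₀ D.m M' (C₀ / η) u' B' → ‖c'‖ ≤ R → P'.PosSemidef →
      NN P' (D.T B' c') (D.T B' c') ≤
        (1 + lam * (u / u') ^ N) * ((Sf p (D.A B' c') B' * P') ^ 3).trace := by
    intro u' B' c' P' h1 h2 h3 h4 h5
    by_cases h0 : P' = 0
    · subst h0
      rw [NN_zero, cube_zero, mul_zero]
    have ht : 0 < P'.trace := trace_pos_of_psd h5 h0
    set x : ℝ × Mat n × Vec n × Mat n := (u', B', c', P'.trace⁻¹ • P') with hx
    have hxK : x ∈ K := by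
      refine ⟨⟨h1, h2⟩, h3, h4, psd_smul h5 (inv_nonneg.2 ht.le), ?_⟩
      change (P'.trace⁻¹ • P').trace = 1
      rw [Matrix.trace_smul, smul_eq_mul, inv_mul_cancel₀ ht.ne']
    have h6 : (Nf x / Df x - 1) * u' ^ N ≤ lam * u ^ N := hx₀max hxK
    have hu' : 0 < u' ^ N := by positivity
    have h7 : Nf x / Df x ≤ 1 + lam * (u / u') ^ N := by
      have : Nf x / Df x - 1 ≤ lam * (u / u') ^ N := by
        rw [div_pow, ← mul_div_assoc, le_div_iff₀ hu']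
        exact h6
      linarith
    have h8 : Nf x ≤ (1 + lam * (u / u') ^ N) * Df x := (div_le_iff₀ (hDpos x hxK)).1 h7
    have h9 : P'.trace⁻¹ ^ 3 * NN P' (D.T B' c') (D.T B' c') ≤
        (1 + lam * (u / u') ^ N) * (P'.trace⁻¹ ^ 3 * ((Sf p (D.A B' c') B' * P') ^ 3).trace) := by
      rw [← NN_smul_P, ← cube_smul]
      exact h8
    have h10 : P'.trace⁻¹ ^ 3 * NN P' (D.T B' c') (D.T B' c') ≤
        P'.trace⁻¹ ^ 3 * ((1 + lam * (u / u') ^ N) *
          ((Sf p (D.A B' c') B' * P') ^ 3).trace) := by linarith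
    exact le_of_mul_le_mul_left h10 (by positivity)
  have hlinb : ∀ (Q : Mat n) (q : ℝ[X]), Q.PosSemidef → (C₀ • (D.A B c₀)⁻¹ - Q).PosSemidef →
      (∀ x ∈ (B * D.A B c₀).charpoly.roots, Her p q x) →
      |lin q 1 (D.A B c₀) B ((√(1 + lam))⁻¹ • D.T B c₀) P Q| ≤ C' := by
    intro Q q hQ1 hQ2 hq
    refine hC' _ _ _ _ _ _ (D.posA B hBpos.posSemidef c₀) hBpos.posSemidef
      (hAlow B hBpos.posSemidef hBb c₀) ?_ ?_ hP hPtr hQ1 hQ2 ?_
    · intro i j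
      have h1 := hKA _ hx₀K
      rw [Real.norm_eq_abs] at h1
      refine le_trans ?_ ((le_abs_self _).trans h1)
      refine le_trans ?_ (Finset.single_le_sum (f := fun i => ∑ j, |D.A B c₀ i j|)
        (fun i _ => Finset.sum_nonneg fun j _ => abs_nonneg _) (Finset.mem_univ i))
      exact Finset.single_le_sum (f := fun j => |D.A B c₀ i j|) (fun j _ => abs_nonneg _)
        (Finset.mem_univ j)
    · intro i j k
      have h1 := hKT _ hx₀K
      rw [Real.norm_eq_abs] at h1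
      have hs1 : (√(1 + lam))⁻¹ ≤ 1 := by
        refine inv_le_one_of_one_le₀ ?_
        rw [Real.one_le_sqrt]
        linarith
      have hs0 : 0 ≤ (√(1 + lam))⁻¹ := by positivity
      have h2 : |((√(1 + lam))⁻¹ • D.T B c₀) i j k| ≤ |D.T B c₀ i j k| := by
        simp only [Pi.smul_apply, smul_eq_mul, abs_mul, abs_of_nonneg hs0]
        exact mul_le_of_le_one_left (abs_nonneg _) hs1
      refine h2.trans (le_trans ?_ ((le_abs_self _).trans h1))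
      refine le_trans ?_ (Finset.single_le_sum (f := fun i => ∑ j, ∑ k, |D.T B c₀ i j k|)
        (fun i _ => Finset.sum_nonneg fun j _ => Finset.sum_nonneg fun k _ => abs_nonneg _)
        (Finset.mem_univ i))
      refine le_trans ?_ (Finset.single_le_sum (f := fun j => ∑ k, |D.T B c₀ i j k|)
        (fun j _ => Finset.sum_nonneg fun k _ => abs_nonneg _) (Finset.mem_univ j))
      exact Finset.single_le_sum (f := fun k => |D.T B c₀ i j k|) (fun k _ => abs_nonneg _)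
        (Finset.mem_univ k)
    · intro x hx
      obtain ⟨g, d, hd⟩ := exists_dg (D.posA B hBpos.posSemidef c₀) (psd_symm hBpos.posSemidef)
      obtain ⟨i, rfl⟩ := (dg_roots hd x).1 hx
      exact ⟨hspec B hBε hBpos hBb c₀ g d hd i, hq _ hx⟩
  have hcore := core D hp hpos hη hηC hALG hM'0 hB₀.posSemidef hM' hu1 huU' hReg hBpos hcR' hP hP0
    hlam0 LI heq hlinb
  have h1 : 1 + lam ≤ Λ := by
    have h2 := hΛ _ hx₀K
    rw [Real.norm_eq_abs] at h2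
    have h3 := (le_abs_self _).trans h2
    rw [hlam]
    linarith
  have h2 : (1 + lam) * C' ≤ Λ * C' := mul_le_mul_of_nonneg_right h1 hC'0
  have h3 : N * η * δ ≤ N * η * Df (u, B, c₀, P) :=
    mul_le_mul_of_nonneg_left (hDδ _ hx₀K) (by positivity)
  have h4 : N * η * Df (u, B, c₀, P) ≤ (1 + lam) * C' := hcore
  linarith

end Vale.Agent.P254.MP
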