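import Vale.Agent.P254.MP.Defs

/-!
P254, abstract maximum principle: STATEMENTS (helper649).  Every task owner proves his statements in
his own file `Vale/Agent/P254/MP/<File>.lean`, namespace `Vale.Agent.P254.MP` (not `Skel`),
importing `MP/Defs.lean` and other PROVED files, never this one.
-/

namespace Vale.Agent.P254.MP.Skel

open Matrix Set Filter Topology Asymptotics Polynomial
open Vale.Agent.P254.L

variable {n : ℕ}

/-! #### G1 (file Diag): simultaneous diagonalisation and `S` -/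

theorem exists_dg {A B : Mat n} (hA : A.PosDef) (hB : B.IsSymm) : ∃ g b, Dg A B g b := by
  sorry

theorem dg_roots {A B g : Mat n} {b : Vec n} (h : Dg A B g b) (x : ℝ) :
    x ∈ (B * A).charpoly.roots ↔ ∃ i, b i = x := by
  sorry

theorem dg_SQ {A B g : Mat n} {b : Vec n} (h : Dg A B g b) (q : ℝ[X]) :
    SQ q A B = g * diagonal (fun i => q.eval (b i)) * gᵀ := by
  sorry

theorem dg_Sf {A B g : Mat n} {b : Vec n} (h : Dg A B g b) (p : ℝ → ℝ) :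
    Sf p A B = g * diagonal (fun i => p (b i)) * gᵀ := by
  sorry

theorem dg_lt_one {A B g : Mat n} {b : Vec n} (h : Dg A B g b) (hAB : (A⁻¹ - B).PosDef)
    (i : Fin n) : b i < 1 := by
  sorry

theorem dg_pos {A B g : Mat n} {b : Vec n} (h : Dg A B g b) (hB : B.PosDef)
    (i : Fin n) : 0 < b i := by
  sorry

theorem dg_le {A B g : Mat n} {b : Vec n} (h : Dg A B g b) {m a : ℝ} (hm : 0 ≤ m) (ha : 0 < a)
    (hAB : (A⁻¹ - (B + m • (1 : Mat n))).PosSemidef) (hA : (A - a • (1 : Mat n)).PosSemidef)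
    (i : Fin n) : b i ≤ 1 - m * a := by
  sorry

theorem dg_ge {A B g : Mat n} {b : Vec n} (h : Dg A B g b) {ε a : ℝ} (hε : 0 ≤ ε) (ha : 0 < a)
    (hB : (B - ε • (1 : Mat n)).PosSemidef) (hA : (A - a • (1 : Mat n)).PosSemidef)
    (i : Fin n) : ε * a ≤ b i := by
  sorry

/-! #### G2 (file Hermite): Hermite interpolation -/

theorem exists_her (p : ℝ → ℝ) (s : Finset ℝ) : ∃ q : ℝ[X], ∀ x ∈ s, Her p q x := by
  sorry

/-! #### G3 (file Compare): comparison of `S_p` with `S_q`, `q` the Hermite polynomial.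

Proof.  `χ = ∏ (X - x)` over the distinct eigenvalues `x` of `B₀A₀`; `χ(B₀A₀) = 0`, so the entries
of `A χ²(BA) = SQ (χ^2) A B` are `O(t²)` and in a frame `g(t)` at `t` (exists_dg) this matrix is
`g diag χ(b_i)² gᵀ`; hence `χ(b_i(t))² ≤ C t² ‖A⁻¹‖`, so the `b_i(t)` are near the eigenvalues of
`B₀A₀`; there `|p - q| ≤ ε χ²` (second order Taylor), so `-ε SQ (χ^2) ≤ S_p - S_q ≤ ε SQ (χ^2)`. -/

theorem Sf_sub_SQ {l : Filter ℝ} {A B : ℝ → Mat n} {A₀ B₀ : Mat n}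
    (hl : l ≤ 𝓝 0) (hA₀ : A₀.PosDef) (hB₀ : B₀.IsSymm)
    (hA : ∀ i j, (fun t => A t i j - A₀ i j) =O[l] fun t => t)
    (hB : ∀ i j, (fun t => B t i j - B₀ i j) =O[l] fun t => t)
    (hAs : ∀ᶠ t in l, (A t).PosDef) (hBs : ∀ᶠ t in l, (B t).IsSymm)
    {p : ℝ → ℝ} (hp : ContDiffOn ℝ 2 p (Ioo 0 1)) (q : ℝ[X])
    (hspec : ∀ x ∈ (B₀ * A₀).charpoly.roots, x ∈ Ioo (0 : ℝ) 1 ∧ Her p q x) (i j : Fin n) :
    (fun t => Sf p (A t) (B t) i j - SQ q (A t) (B t) i j) =o[l] fun t => t ^ 2 := by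
  sorry

/-- the same argument at order zero (Lagrange interpolation): continuity of `S_p`. -/
theorem Sf_cont {p : ℝ → ℝ} (hp : ContinuousOn p (Ioo 0 1)) (i j : Fin n) :
    ContinuousOn (fun x : Mat n × Mat n => Sf p x.1 x.2 i j)
      {x | x.1.PosDef ∧ x.2.PosDef ∧ (x.1⁻¹ - x.2).PosDef} := by
  sorry

/-! #### G4 (file Cube): the denominator -/

theorem Sf_posDef {p : ℝ → ℝ} (hpos : ∀ x ∈ Ioo (0 : ℝ) 1, 0 < p x) {A B : Mat n}
    (hA : A.PosDef) (hB : B.PosDef) (hAB : (A⁻¹ - B).PosDef) : (Sf p A B).PosDef := by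
  sorry

theorem cube_nonneg {S P : Mat n} (hS : S.PosSemidef) (hP : P.PosSemidef) :
    0 ≤ ((S * P) ^ 3).trace := by
  sorry

theorem cube_pos {S P : Mat n} (hS : S.PosDef) (hP : P.PosSemidef) (hP0 : P ≠ 0) :
    0 < ((S * P) ^ 3).trace := by
  sorry

theorem cube_lower {A B g : Mat n} {b : Vec n} (h : Dg A B g b) {p : ℝ → ℝ} {p₀ : ℝ}
    (hp₀ : 0 < p₀) (hp : ∀ i, p₀ ≤ p (b i)) {P : Mat n} (hP : P.PosSemidef) :
    p₀ ^ 3 / (n : ℝ) ^ 2 * (A * P).trace ^ 3 ≤ ((Sf p A B * P) ^ 3).trace := by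
  sorry

/-! #### G5 (file ContactP): first and second order conditions in `P`.

First order: `R := μ SPSPS - K ≥ 0` (test `P + t v vᵀ`), `tr (P R) = 0` (Euler), `K ≥ 0`, so
`ker (P S) ⊆ ker R` and `R P = 0`; `S > 0` gives `R = 0`.  Second order for positive semidefinite
`X`: test `P + t X`, `t ≥ 0`.  Symmetric `X`: `X = X₊ - X₋` with `X₊ S X₋ = 0`, `X₊, X₋ ≥ 0`, compare
with `X₊ + X₋` (`N3 X₊ X₋ P T T ≥ 0`). -/

theorem N3_nonneg {X Y Z : Mat n} (hX : X.PosSemidef) (hY : Y.PosSemidef) (hZ : Z.PosSemidef)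
    (T : Ten n) : 0 ≤ N3 X Y Z T T := by
  sorry

theorem contact_of_max {S P : Mat n} {T : Ten n} {μ : ℝ} (hS : S.PosDef) (hT : TSymm T)
    (hP : P.PosSemidef) (hP0 : P ≠ 0) (hμ : 0 < μ)
    (hmax : ∀ P' : Mat n, P'.PosSemidef → NN P' T T ≤ μ * ((S * P') ^ 3).trace)
    (heq : NN P T T = μ * ((S * P) ^ 3).trace) :
    (∀ X : Mat n, X.IsSymm → N3 X P P T T = μ * (X * (S * P * S * P * S)).trace) ∧
    (∀ X : Mat n, X.IsSymm → N3 X X P T T ≤ μ * (S * X * S * X * S * P).trace) := by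
  sorry

/-! #### G6 (file Ito): the second order expansions along `c` and the derivative along
`(Q, Q mu)`; the fifth cumulant `R` and the linear contribution of `K` cancel in the sum. -/

theorem ito (D : TiltData n) (q : ℝ[X]) (μ : ℝ) {B : Mat n} (hB : B.PosSemidef) (c : Vec n)
    {P : Mat n} (hP : P.IsSymm) (g : Mat n) (L : Fin n → Mat n)
    (hgrad : ∀ X : Mat n, X.IsSymm → N3 X P P (D.T B c) (D.T B c) =
      μ * (X * (SQ q (D.A B c) B * P * SQ q (D.A B c) B * P * SQ q (D.A B c) B)).trace) :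
    ∃ (f₁ f₂ : Fin n → ℝ) (s : ℝ),
      (∀ k, (fun τ : ℝ => FF q μ (D.A B (c + τ • fun i => g i k)) B
          (D.T B (c + τ • fun i => g i k)) ((1 + τ • L k) * P * (1 + τ • L k)ᵀ)
          - (FF q μ (D.A B c) B (D.T B c) P + τ * f₁ k + τ ^ 2 * f₂ k)) =o[𝓝 0] fun τ => τ ^ 2) ∧
      (∀ k, f₁ k = deriv (fun τ : ℝ => FF q μ (D.A B c + τ • c3 (D.T B c) fun i => g i k) B
          (D.T B c + τ • c4 (D.K B c) fun i => g i k) (P + τ • (L k * P + P * (L k)ᵀ))) 0) ∧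
      HasDerivWithinAt (fun t : ℝ => FF q μ
          (D.A (B + t • (g * gᵀ)) (c + t • ((g * gᵀ) *ᵥ D.mu B c))) (B + t • (g * gᵀ))
          (D.T (B + t • (g * gᵀ)) (c + t • ((g * gᵀ) *ᵥ D.mu B c))) P) s (Ici 0) 0 ∧
      ∑ k, f₂ k + s = 1 / 2 * ∑ k, quad q μ (D.A B c) B (D.T B c) P (D.K B c) (fun i => g i k)
          (L k * P + P * (L k)ᵀ) + lin q μ (D.A B c) B (D.T B c) P (g * gᵀ) := by
  sorry

/-! #### G7 (file Scale) -/

theorem quad_scale (q : ℝ[X]) {μ : ℝ} (hμ : 0 < μ) (A B : Mat n) (T : Ten n) (P : Mat n)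
    (K : Ten4 n) (e : Vec n) (X : Mat n) :
    quad q μ A B (√μ • T) P (μ • K) e (√μ • X) = μ ^ 2 * quad q 1 A B T P K e X := by
  sorry

theorem lin_scale (q : ℝ[X]) {μ : ℝ} (hμ : 0 < μ) (A B : Mat n) (T : Ten n) (P Q : Mat n) :
    lin q μ A B (√μ • T) P Q = μ * lin q 1 A B T P Q := by
  sorry

/-! #### G8 (file LinBound).  In a frame `g` of `(A,B)`, `Q = g⁻ᵀ H g⁻¹`, `0 ≤ H ≤ C₀`,
`d/dt SQ q (A - t AQA) (B + t Q) = g (H_ij ((1-x)q)[b_i,b_j]) gᵀ`; the divided difference is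
bounded by `sup |((1-x)p)'|` on `[β₀,β₁]` (mean value theorem for `p`; for `b_i = b_j` the derivative
of `q` at `b_i` is that of `p`). -/

theorem lin_bound {p : ℝ → ℝ} (hp : ContDiffOn ℝ 2 p (Ioo 0 1)) (a KA KT C₀ β₀ β₁ : ℝ)
    (ha : 0 < a) (hβ₀ : 0 < β₀) (hβ₁ : β₁ < 1) :
    ∃ C' : ℝ, 0 ≤ C' ∧ ∀ (A B : Mat n) (T : Ten n) (P Q : Mat n) (q : ℝ[X]),
      A.PosDef → B.PosSemidef → (A - a • (1 : Mat n)).PosSemidef → (∀ i j, |A i j| ≤ KA) →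
      (∀ i j k, |T i j k| ≤ KT) → P.PosSemidef → P.trace = 1 → Q.PosSemidef →
      (C₀ • A⁻¹ - Q).PosSemidef → (∀ x ∈ (B * A).charpoly.roots, x ∈ Icc β₀ β₁ ∧ Her p q x) →
      |lin q 1 A B T P Q| ≤ C' := by
  sorry

/-! #### G9 (file Region) -/

theorem reg_step {B₀ B A Q : Mat n} {m M M' η C₀ u t : ℝ} (hB₀ : B₀.PosSemidef) (hm : 0 ≤ m)
    (hη : 0 < η) (hηC : η ≤ C₀) (hM' : (M' • (1 : Mat n) - (B₀ + M • (1 : Mat n))).PosSemidef)
    (hM'0 : 0 ≤ M') (hu : 1 ≤ u) (h : Reg B₀ m M' (C₀ / η) u B)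
    (lo : (B + M • (1 : Mat n) - A⁻¹).PosSemidef) (up : (A⁻¹ - (B + m • (1 : Mat n))).PosSemidef)
    (hQ1 : (Q - η • A⁻¹).PosSemidef) (hQ2 : (C₀ • A⁻¹ - Q).PosSemidef) (ht : 0 ≤ t) :
    Reg B₀ m M' (C₀ / η) (u * (1 + η * t)) (B + t • Q) := by
  sorry

theorem compact_region (B₀ : Mat n) (m M' r U R : ℝ) :
    IsCompact {x : ℝ × Mat n × Vec n × Mat n | x.1 ∈ Icc 1 U ∧ Reg B₀ m M' r x.1 x.2.1 ∧
      ‖x.2.2.1‖ ≤ R ∧ x.2.2.2.PosSemidef ∧ x.2.2.2.trace = 1} := by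
  sorry

end Vale.Agent.P254.MP.Skel
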